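import Crest.Agent.KG.Defs

/-! Module III, part 1: the law of the normalised block score, its integrals and moments. -/

set_option autoImplicit false
open scoped BigOperators
open MeasureTheory Filter Topology

namespace Crest.Agent.KG
namespace CLT

variable {Ω : Type} [Fintype Ω]

lemma sum_succ (B : ℕ) (F : (Fin (B+1) → Ω) → ℝ) :
    ∑ ω, F ω = ∑ x, ∑ ω : Fin B → Ω, F (Fin.cons x ω) := by
  rw [← Fintype.sum_prod_type']
  exact (Fintype.sum_equiv (Fin.consEquiv (fun _ => Ω)) _ _ (fun _ => rfl)).symm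

lemma sum1 (s : Ω → ℝ) (h0 : ∑ x, s x = 0) (B : ℕ) :
    ∑ ω : Fin B → Ω, ∑ j, s (ω j) = 0 := by
  induction B with
  | zero => simp
  | succ B ih =>
    rw [sum_succ]
    simp only [Fin.sum_univ_succ, Fin.cons_zero, Fin.cons_succ, Finset.sum_add_distrib, ih]
    simp [← Finset.mul_sum, h0]

lemma sum2 (s : Ω → ℝ) (h0 : ∑ x, s x = 0) (I : ℝ)
    (h2 : ∑ x, s x ^ 2 = I * Fintype.card Ω) (B : ℕ) :
    ∑ ω : Fin B → Ω, (∑ j, s (ω j)) ^ 2 = B * I * (Fintype.card Ω : ℝ) ^ B := by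
  induction B with
  | zero => simp
  | succ B ih =>
    rw [sum_succ]
    simp only [Fin.sum_univ_succ, Fin.cons_zero, Fin.cons_succ, add_sq, Finset.sum_add_distrib, ih]
    have : ∑ x, ∑ ω : Fin B → Ω, 2 * s x * ∑ j, s (ω j) = 0 := by
      apply Finset.sum_eq_zero; intro x _
      rw [← Finset.mul_sum, sum1 s h0, mul_zero]
    rw [this]
    simp only [Finset.sum_const, Finset.card_univ, Fintype.card_fun, Fintype.card_fin, nsmul_eq_mul,
      Nat.cast_pow, ← Finset.mul_sum, h2]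
    push_cast; ring

/-- The normalised block score. -/
noncomputable def S (s : Ω → ℝ) (I : ℝ) (B : ℕ) (ω : Fin B → Ω) : ℝ :=
  (∑ j, s (ω j)) / Real.sqrt (B * I)

/-- Its law under the uniform measure. -/
noncomputable def nu (s : Ω → ℝ) (I : ℝ) (B : ℕ) : Measure ℝ :=
  ∑ ω : Fin B → Ω, ENNReal.ofReal (((Fintype.card Ω : ℝ) ^ B)⁻¹) • Measure.dirac (S s I B ω)

lemma nu_integral {E : Type} [NormedAddCommGroup E] [NormedSpace ℝ E] [CompleteSpace E]
    (s : Ω → ℝ) (I : ℝ) (B : ℕ) (f : ℝ → E) :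
    ∫ x, f x ∂(nu s I B) = ∑ ω : Fin B → Ω, (((Fintype.card Ω : ℝ) ^ B)⁻¹) • f (S s I B ω) := by
  unfold nu
  rw [integral_finsetSum_measure]
  · apply Finset.sum_congr rfl; intro ω _
    rw [integral_smul_measure, integral_dirac, ENNReal.toReal_ofReal (by positivity)]
  · intro ω _
    apply Integrable.smul_measure _ ENNReal.ofReal_ne_top
    exact integrable_dirac (by simp [enorm_lt_top])

lemma nu_lintegral (s : Ω → ℝ) (I : ℝ) (B : ℕ) (f : ℝ → ENNReal) :
    ∫⁻ x, f x ∂(nu s I B)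
      = ∑ ω : Fin B → Ω, ENNReal.ofReal (((Fintype.card Ω : ℝ) ^ B)⁻¹) * f (S s I B ω) := by
  unfold nu
  rw [lintegral_finsetSum_measure]
  apply Finset.sum_congr rfl; intro ω _
  rw [lintegral_smul_measure, lintegral_dirac, smul_eq_mul]

lemma nu_prob [Nonempty Ω] (s : Ω → ℝ) (I : ℝ) (B : ℕ) : IsProbabilityMeasure (nu s I B) := by
  constructor
  rw [← lintegral_one, nu_lintegral]
  simp only [mul_one, Finset.sum_const, Finset.card_univ, Fintype.card_fun, Fintype.card_fin,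
    nsmul_eq_mul]
  rw [← ENNReal.ofReal_natCast, ← ENNReal.ofReal_mul (by positivity)]
  push_cast
  rw [mul_inv_cancel₀, ENNReal.ofReal_one]
  have : (Fintype.card Ω : ℝ) ≠ 0 := by
    exact_mod_cast Fintype.card_ne_zero
  positivity

lemma nu_charFun (s : Ω → ℝ) (I : ℝ) (B : ℕ) (t : ℝ) :
    charFun (nu s I B) t = (charFun (nu s I 1) ((Real.sqrt B)⁻¹ * t)) ^ B := by
  rw [charFun_apply_real, charFun_apply_real, nu_integral, nu_integral]
  have e1 : (∑ ω : Fin 1 → Ω, (((Fintype.card Ω : ℝ) ^ 1)⁻¹) •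
      Complex.exp ((((Real.sqrt B)⁻¹ * t : ℝ) : ℂ) * (S s I 1 ω : ℝ) * Complex.I))
      = ∑ x : Ω, ((Fintype.card Ω : ℝ)⁻¹) •
        Complex.exp ((((Real.sqrt B)⁻¹ * t : ℝ) : ℂ) * ((s x / Real.sqrt I : ℝ) : ℂ) * Complex.I) := by
    rw [Fintype.sum_equiv (Equiv.funUnique (Fin 1) Ω)]
    intro ω
    simp [S]
  classical
  rw [e1, Fintype.sum_pow]
  apply Finset.sum_congr rfl; intro ω _
  simp only [Complex.real_smul]
  rw [Finset.prod_mul_distrib, Finset.prod_const, Finset.card_univ, Fintype.card_fin,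
    ← Complex.exp_sum]
  congr 1
  · push_cast; rw [inv_pow]
  · congr 1
    rw [← Finset.sum_mul, ← Finset.mul_sum]
    congr 1
    unfold S
    rw [Real.sqrt_mul (Nat.cast_nonneg B)]
    push_cast
    rw [← Finset.sum_div]
    by_cases hB : (Real.sqrt B : ℝ) = 0
    · rw [hB]; simp
    · by_cases hI : (Real.sqrt I : ℝ) = 0
      · rw [hI]; simp
      · have h1 : ((Real.sqrt B : ℝ) : ℂ) ≠ 0 := by exact_mod_cast hB
        have h2 : ((Real.sqrt I : ℝ) : ℂ) ≠ 0 := by exact_mod_cast hI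
        field_simp

end CLT
end Crest.Agent.KG
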