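import Crest.Agent.KG.Clt1

/-! Module III, part 2: weak convergence, and convergence of weighted letters. -/

set_option autoImplicit false
open scoped BigOperators
open MeasureTheory Filter Topology

namespace Crest.Agent.KG
namespace CLT

variable {Ω : Type} [Fintype Ω]

lemma S_sum1 (s : Ω → ℝ) (h0 : ∑ x, s x = 0) (I : ℝ) (B : ℕ) :
    ∑ ω : Fin B → Ω, S s I B ω = 0 := by
  unfold S
  rw [← Finset.sum_div, sum1 s h0, zero_div]

lemma S_sum2 (s : Ω → ℝ) (h0 : ∑ x, s x = 0) (I : ℝ) (hI : 0 < I)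
    (h2 : ∑ x, s x ^ 2 = I * Fintype.card Ω) (B : ℕ) (hB : 1 ≤ B) :
    ∑ ω : Fin B → Ω, S s I B ω ^ 2 = (Fintype.card Ω : ℝ) ^ B := by
  unfold S
  have hBI : (0:ℝ) < B * I := by
    have : (0:ℝ) < B := by exact_mod_cast hB
    positivity
  simp only [div_pow, Real.sq_sqrt hBI.le]
  rw [← Finset.sum_div, sum2 s h0 I h2]
  field_simp

lemma weak (s : Ω → ℝ) [Nonempty Ω] (h0 : ∑ x, s x = 0) (I : ℝ) (hI : 0 < I)
    (h2 : ∑ x, s x ^ 2 = I * Fintype.card Ω) (G : Set ℝ) (hG : IsOpen G) :
    γ G ≤ atTop.liminf fun B : ℕ => nu s I B G := by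
  have inst1 := fun B => nu_prob s I B
  let ps : ℕ → ProbabilityMeasure ℝ := fun B => ⟨nu s I B, nu_prob s I B⟩
  let p : ProbabilityMeasure ℝ := ⟨γ, inferInstance⟩
  have key : Tendsto ps atTop (𝓝 p) := by
    refine ProbabilityMeasure.tendsto_iff_tendsto_charFun.2 fun t => ?_
    have h := ProbabilityTheory.tendsto_charFun_inv_sqrt_mul_pow (P := nu s I 1)
      (X := (id : ℝ → ℝ)) aemeasurable_id (by
        rw [nu_integral]
        simp only [id, smul_eq_mul]
        rw [← Finset.mul_sum, S_sum1 s h0, mul_zero]) (by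
        rw [nu_integral]
        simp only [id, smul_eq_mul, Pi.pow_apply]
        rw [← Finset.mul_sum, S_sum2 s h0 I hI h2 1 le_rfl]
        apply inv_mul_cancel₀
        have : (Fintype.card Ω : ℝ) ≠ 0 := by exact_mod_cast Fintype.card_ne_zero
        positivity) t
    simp only [Measure.map_id] at h
    have e1 : ((p : ProbabilityMeasure ℝ) : Measure ℝ) = γ := rfl
    have e2 : ∀ B, ((ps B : ProbabilityMeasure ℝ) : Measure ℝ) = nu s I B := fun _ => rfl
    simp only [e2]
    rw [e1, ProbabilityTheory.charFun_gaussianReal]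
    simp only [nu_charFun s I _ t]
    convert h using 2
    push_cast
    ring_nf
  exact ProbabilityMeasure.le_liminf_measure_open_of_tendsto key hG

/-- Convergence of weighted letters for a continuous nonnegative weight of constant mass. -/
lemma weighted (s : Ω → ℝ) [Nonempty Ω] (h0 : ∑ x, s x = 0) (I : ℝ) (hI : 0 < I)
    (h2 : ∑ x, s x ^ 2 = I * Fintype.card Ω) (h : ℝ → ℝ) (hc : Continuous h) (hnn : 0 ≤ h)
    (hγ : ∫⁻ x, ENNReal.ofReal (h x) ∂γ = 1)
    (hν : ∀ B : ℕ, 1 ≤ B → ∫⁻ x, ENNReal.ofReal (h x) ∂(nu s I B) = 1)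
    (A : Set ℝ) (hA : MeasurableSet A) (hfr : γ (frontier A) = 0) :
    Tendsto (fun B : ℕ => ∫⁻ x in A, ENNReal.ofReal (h x) ∂(nu s I B)) atTop
      (𝓝 (∫⁻ x in A, ENNReal.ofReal (h x) ∂γ)) := by
  have hm : Measurable (fun x => ENNReal.ofReal (h x)) := hc.measurable.ennreal_ofReal
  rw [← tendsto_add_atTop_iff_nat 1]
  have hp : IsProbabilityMeasure (γ.withDensity (fun x => ENNReal.ofReal (h x))) := by
    constructor
    rw [withDensity_apply _ MeasurableSet.univ, Measure.restrict_univ, hγ]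
  have hps : ∀ B : ℕ,
      IsProbabilityMeasure ((nu s I (B+1)).withDensity (fun x => ENNReal.ofReal (h x))) := by
    intro B
    constructor
    rw [withDensity_apply _ MeasurableSet.univ, Measure.restrict_univ, hν _ (by omega)]
  have main := tendsto_measure_of_null_frontier (L := atTop)
    (μ := γ.withDensity (fun x => ENNReal.ofReal (h x)))
    (μs := fun B : ℕ => (nu s I (B+1)).withDensity (fun x => ENNReal.ofReal (h x))) ?_
    (E := A) ?_
  · simpa only [withDensity_apply _ hA] using main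
  · intro G hG
    simp only [withDensity_apply _ hG.measurableSet]
    apply lintegral_le_liminf_lintegral_of_forall_isOpen_measure_le_liminf_measure hc hnn
    intro H hH
    simp only [Measure.restrict_apply hH.measurableSet]
    have w := weak s h0 I hI h2 (H ∩ G) (hH.inter hG)
    have e : atTop.liminf (fun B : ℕ => nu s I (B+1) (H ∩ G))
        = atTop.liminf (fun B : ℕ => nu s I B (H ∩ G)) := by
      exact liminf_nat_add (fun B : ℕ => nu s I B (H ∩ G)) 1
    rw [e]; exact w
  · exact withDensity_absolutelyContinuous _ _ hfr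

end CLT
end Crest.Agent.KG
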