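import Crest.Agent.KG.Clt2

/-! Module III, part 3: the transfer theorem. -/

set_option autoImplicit false
open scoped BigOperators
open MeasureTheory Filter Topology

namespace Crest.Agent.KG
namespace CLT

variable {Ω : Type} [Fintype Ω]

lemma g_int1 : Integrable (fun x : ℝ => x) γ :=
  (ProbabilityTheory.memLp_id_gaussianReal (μ := 0) (v := 1) 1).integrable (by norm_num)

lemma g_int2 : Integrable (fun x : ℝ => x ^ 2) γ :=
  (ProbabilityTheory.memLp_id_gaussianReal (μ := 0) (v := 1) 2).integrable_sq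

lemma g_m1 : ∫ x : ℝ, x ∂γ = 0 := ProbabilityTheory.integral_id_gaussianReal

lemma g_m2 : ∫ x : ℝ, x ^ 2 ∂γ = 1 := by
  have h := ProbabilityTheory.variance_id_gaussianReal (μ := 0) (v := 1)
  rw [ProbabilityTheory.variance_eq_integral measurable_id.aemeasurable] at h
  simpa [ProbabilityTheory.integral_id_gaussianReal, g_m1] using h

lemma int_h (μ : Measure ℝ) (i0 : Integrable (fun _ : ℝ => (1:ℝ)) μ)
    (i1 : Integrable (fun x : ℝ => x) μ) (i2 : Integrable (fun x : ℝ => x ^ 2) μ) :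
    ∫ x, (x + 1) ^ 2 / 2 ∂μ = (1/2) * (∫ x, x ^ 2 ∂μ) + (∫ x, x ∂μ) + (1/2) * ∫ _x, (1:ℝ) ∂μ := by
  have e : (fun x : ℝ => (x + 1) ^ 2 / 2) = fun x => ((1/2) * x ^ 2 + x) + (1/2) * 1 := by
    ext x; ring
  have a1 : Integrable (fun x : ℝ => (1/2) * x ^ 2) μ := i2.const_mul _
  have a2 : Integrable (fun x : ℝ => (1/2) * x ^ 2 + x) μ := a1.add i1
  have a3 : Integrable (fun _ : ℝ => (1/2) * (1:ℝ)) μ := i0.const_mul _
  rw [e, integral_add a2 a3, integral_add a1 i1, integral_const_mul, integral_const_mul]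

lemma weighted_real (s : Ω → ℝ) [Nonempty Ω] (h0 : ∑ x, s x = 0) (I : ℝ) (hI : 0 < I)
    (h2 : ∑ x, s x ^ 2 = I * Fintype.card Ω) (h : ℝ → ℝ) (hc : Continuous h) (hnn : 0 ≤ h)
    (hint : Integrable h γ) (hγ : ∫ x, h x ∂γ = 1)
    (hν : ∀ B : ℕ, 1 ≤ B → ∑ ω : Fin B → Ω, h (S s I B ω) = (Fintype.card Ω : ℝ) ^ B)
    (A : Set ℝ) (hA : MeasurableSet A) (hfr : γ (frontier A) = 0) :
    Tendsto (fun B : ℕ => (∑ ω : Fin B → Ω, Set.indicator A h (S s I B ω))
      / (Fintype.card Ω : ℝ) ^ B) atTop (𝓝 (∫ x in A, h x ∂γ)) := by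
  have hN : ∀ B : ℕ, (0:ℝ) < (Fintype.card Ω : ℝ) ^ B := fun B => by
    have : (0:ℝ) < Fintype.card Ω := by exact_mod_cast Fintype.card_pos
    positivity
  have w := weighted s h0 I hI h2 h hc hnn ?_ ?_ A hA hfr
  · have e : ∫ x in A, h x ∂γ = (∫⁻ x in A, ENNReal.ofReal (h x) ∂γ).toReal := by
      rw [integral_eq_lintegral_of_nonneg_ae (Eventually.of_forall hnn)
        hc.aestronglyMeasurable]
    have hfin : ∫⁻ x in A, ENNReal.ofReal (h x) ∂γ ≠ ⊤ := by
      have h1 : ∫⁻ x in A, ENNReal.ofReal (h x) ∂γ ≤ ∫⁻ x, ENNReal.ofReal (h x) ∂γ :=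
        setLIntegral_le_lintegral _ _
      have h2 := hint.lintegral_lt_top
      exact ne_of_lt (lt_of_le_of_lt h1 h2)
    rw [e]
    refine (((ENNReal.tendsto_toReal hfin).comp w)).congr ?_
    intro B
    simp only [Function.comp]
    rw [← lintegral_indicator hA, nu_lintegral, ENNReal.toReal_sum]
    · rw [Finset.sum_div]
      apply Finset.sum_congr rfl; intro ω _
      rw [ENNReal.toReal_mul, ENNReal.toReal_ofReal (by positivity)]
      by_cases hS : S s I B ω ∈ A
      · rw [Set.indicator_of_mem hS, Set.indicator_of_mem hS, ENNReal.toReal_ofReal (hnn _)]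
        field_simp
      · rw [Set.indicator_of_notMem hS, Set.indicator_of_notMem hS]; simp
    · intro ω _
      by_cases hS : S s I B ω ∈ A
      · rw [Set.indicator_of_mem hS]
        exact ENNReal.mul_ne_top ENNReal.ofReal_ne_top ENNReal.ofReal_ne_top
      · rw [Set.indicator_of_notMem hS]; simp
  · rw [← ofReal_integral_eq_lintegral_ofReal hint (Eventually.of_forall hnn), hγ,
      ENNReal.ofReal_one]
  · intro B hB
    rw [nu_lintegral]
    have : ∀ ω : Fin B → Ω, ENNReal.ofReal (((Fintype.card Ω : ℝ) ^ B)⁻¹) *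
        ENNReal.ofReal (h (S s I B ω))
        = ENNReal.ofReal (((Fintype.card Ω : ℝ) ^ B)⁻¹ * h (S s I B ω)) := by
      intro ω; rw [ENNReal.ofReal_mul (by positivity)]
    simp only [this]
    rw [← ENNReal.ofReal_sum_of_nonneg, ← Finset.mul_sum, hν B hB,
      inv_mul_cancel₀ (hN B).ne', ENNReal.ofReal_one]
    intro ω _
    exact mul_nonneg (by positivity) (hnn _)

lemma card_sum (B : ℕ) : ∑ _ω : Fin B → Ω, (1:ℝ) = (Fintype.card Ω : ℝ) ^ B := by
  simp

theorem transfer {Ω : Type} [Fintype Ω] [Nonempty Ω] (s : Ω → ℝ) (h0 : ∑ x, s x = 0)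
    (I : ℝ) (hI : 0 < I) (h2 : ∑ x, s x ^ 2 = I * Fintype.card Ω)
    (A : Set ℝ) (hA : MeasurableSet A) (hfr : γ (frontier A) = 0) (k : ℕ) (hk : k ≤ 2) :
    Tendsto (fun B : ℕ => (∑ ω : Fin B → Ω,
        Set.indicator A (fun u : ℝ => u ^ k) ((∑ j, s (ω j)) / Real.sqrt (B * I)))
          / (Fintype.card Ω : ℝ) ^ B) atTop (𝓝 (∫ x in A, x ^ k ∂γ)) := by
  have T0 := weighted_real s h0 I hI h2 (fun _ => 1) continuous_const (fun _ => zero_le_one)
    (integrable_const 1) (by simp) (fun B _ => card_sum B) A hA hfr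
  have T2 := weighted_real s h0 I hI h2 (fun x => x ^ 2) (by fun_prop) (fun x => sq_nonneg x)
    g_int2 g_m2 (fun B hB => S_sum2 s h0 I hI h2 B hB) A hA hfr
  have T1 := weighted_real s h0 I hI h2 (fun x => (x + 1) ^ 2 / 2) (by fun_prop)
    (fun x => by positivity)
    (by
      have : (fun x : ℝ => (x + 1) ^ 2 / 2) = fun x => (1/2) * x ^ 2 + x + 1/2 := by
        ext x; ring
      rw [this]
      exact ((g_int2.const_mul _).add g_int1).add (integrable_const _))
    (by
      rw [int_h γ (integrable_const _) g_int1 g_int2, g_m1, g_m2]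
      simp; norm_num)
    (fun B hB => by
      have : ∀ ω : Fin B → Ω, (S s I B ω + 1) ^ 2 / 2
        = (1/2) * S s I B ω ^ 2 + S s I B ω + (1/2) * 1 := fun ω => by ring
      simp only [this, Finset.sum_add_distrib, ← Finset.mul_sum]
      rw [S_sum1 s h0, S_sum2 s h0 I hI h2 B hB, card_sum]; ring) A hA hfr
  have hk' : k = 0 ∨ k = 1 ∨ k = 2 := by omega
  rcases hk' with rfl | rfl | rfl
  · simpa only [pow_zero, S] using T0
  · have hlim : ∫ x in A, x ^ 1 ∂γ = (∫ x in A, (x + 1) ^ 2 / 2 ∂γ)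
        - (1/2) * (∫ x in A, x ^ 2 ∂γ) - (1/2) * ∫ x in A, (1:ℝ) ∂γ := by
      have i1 : Integrable (fun x : ℝ => x) (γ.restrict A) := g_int1.restrict
      have i2 : Integrable (fun x : ℝ => x ^ 2) (γ.restrict A) := g_int2.restrict
      have i0 : Integrable (fun _ : ℝ => (1:ℝ)) (γ.restrict A) := integrable_const _
      rw [int_h _ i0 i1 i2]
      simp only [pow_one]; ring
    rw [hlim]
    refine ((T1.sub (T2.const_mul (1/2))).sub (T0.const_mul (1/2))).congr ?_
    intro B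
    rw [← mul_div_assoc, ← mul_div_assoc, ← sub_div, ← sub_div]
    congr 1
    rw [Finset.mul_sum, Finset.mul_sum, ← Finset.sum_sub_distrib, ← Finset.sum_sub_distrib]
    apply Finset.sum_congr rfl; intro ω _
    change _ = Set.indicator A (fun u : ℝ => u ^ 1) (S s I B ω)
    by_cases hS : S s I B ω ∈ A
    · simp only [Set.indicator_of_mem hS]; ring
    · simp only [Set.indicator_of_notMem hS]; ring
  · exact T2

end CLT
end Crest.Agent.KG
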