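import Crest.Agent.KG.Defs

/-! Row 63, module III: fourth moment of a block score. -/

set_option autoImplicit false
open scoped BigOperators

namespace Crest.Agent.KG

variable {Ω : Type} [Fintype Ω] [Nonempty Ω]

/-- average over `Fin B → Ω` -/
noncomputable def avB (B : ℕ) (f : (Fin B → Ω) → ℝ) : ℝ :=
  (∑ ω : Fin B → Ω, f ω) / (Fintype.card Ω : ℝ) ^ B

theorem avB_succ (B : ℕ) (s : Ω → ℝ) (f : ℝ → ℝ) :
    avB (B + 1) (fun ω : Fin (B + 1) → Ω => f (∑ j, s (ω j))) =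
      (∑ a, avB B (fun ω : Fin B → Ω => f (s a + ∑ j, s (ω j)))) / Fintype.card Ω := by
  unfold avB
  rw [← (Fin.consEquiv (fun _ : Fin (B + 1) => Ω)).sum_comp, Fintype.sum_prod_type,
    ← Finset.sum_div, div_div, pow_succ]
  congr 1
  refine Finset.sum_congr rfl fun a _ => Finset.sum_congr rfl fun ω _ => ?_
  change f (∑ j, s ((Fin.cons a ω : Fin (B + 1) → Ω) j)) = _
  rw [Fin.sum_univ_succ]
  simp only [Fin.cons_zero, Fin.cons_succ]

theorem avB_zero (s : Ω → ℝ) (f : ℝ → ℝ) :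
    avB 0 (fun ω : Fin 0 → Ω => f (∑ j, s (ω j))) = f 0 := by
  unfold avB
  simp

theorem avB_add (B : ℕ) (f g : (Fin B → Ω) → ℝ) :
    avB B (fun ω => f ω + g ω) = avB B f + avB B g := by
  unfold avB
  rw [Finset.sum_add_distrib, add_div]

theorem avB_smul (B : ℕ) (c : ℝ) (f : (Fin B → Ω) → ℝ) :
    avB B (fun ω => c * f ω) = c * avB B f := by
  unfold avB
  rw [← Finset.mul_sum, mul_div_assoc]

theorem avB_const (B : ℕ) (c : ℝ) : avB B (fun _ : Fin B → Ω => c) = c := by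
  unfold avB
  have h : (Fintype.card Ω : ℝ) ≠ 0 := by
    exact_mod_cast Fintype.card_ne_zero
  rw [Finset.sum_const, Finset.card_univ, Fintype.card_fun, Fintype.card_fin, nsmul_eq_mul,
    Nat.cast_pow]
  field_simp

/-- the moments of the sum -/
theorem avB_moments (s : Ω → ℝ) (h0 : ∑ x, s x = 0) (B : ℕ) :
    avB B (fun ω : Fin B → Ω => ∑ j, s (ω j)) = 0 ∧
    avB B (fun ω : Fin B → Ω => (∑ j, s (ω j)) ^ 2) = B * ((∑ x, s x ^ 2) / Fintype.card Ω) ∧
    avB B (fun ω : Fin B → Ω => (∑ j, s (ω j)) ^ 4) ≤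
      B * ((∑ x, s x ^ 4) / Fintype.card Ω) +
        3 * (B : ℝ) ^ 2 * ((∑ x, s x ^ 2) / Fintype.card Ω) ^ 2 := by
  have hc : (Fintype.card Ω : ℝ) ≠ 0 := by
    exact_mod_cast Fintype.card_ne_zero
  induction B with
  | zero =>
    refine ⟨?_, ?_, ?_⟩
    · exact (avB_zero s (fun t => t)).trans rfl
    · rw [avB_zero s (fun t => t ^ 2)]; simp
    · rw [avB_zero s (fun t => t ^ 4)]; simp
  | succ B ih =>
    obtain ⟨i1, i2, i4⟩ := ih
    set m2 : ℝ := (∑ x, s x ^ 2) / Fintype.card Ω with hm2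
    set m4 : ℝ := (∑ x, s x ^ 4) / Fintype.card Ω with hm4
    have k1 : ∀ a, avB B (fun ω : Fin B → Ω => s a + ∑ j, s (ω j)) = s a := by
      intro a
      rw [avB_add, avB_const, i1, add_zero]
    have k2 : ∀ a, avB B (fun ω : Fin B → Ω => (s a + ∑ j, s (ω j)) ^ 2) = s a ^ 2 + B * m2 := by
      intro a
      have h : ∀ ω : Fin B → Ω, (s a + ∑ j, s (ω j)) ^ 2 =
          s a ^ 2 + ((2 * s a) * (∑ j, s (ω j)) + (∑ j, s (ω j)) ^ 2) := fun ω => by ring
      rw [funext h, avB_add, avB_add, avB_const, avB_smul, i1, i2]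
      ring
    have k4 : ∀ a, avB B (fun ω : Fin B → Ω => (s a + ∑ j, s (ω j)) ^ 4) =
        s a ^ 4 + 6 * s a ^ 2 * (B * m2) + 4 * s a * avB B (fun ω : Fin B → Ω => (∑ j, s (ω j)) ^ 3)
          + avB B (fun ω : Fin B → Ω => (∑ j, s (ω j)) ^ 4) := by
      intro a
      have h : ∀ ω : Fin B → Ω, (s a + ∑ j, s (ω j)) ^ 4 =
          s a ^ 4 + ((4 * s a ^ 3) * (∑ j, s (ω j)) + ((6 * s a ^ 2) * (∑ j, s (ω j)) ^ 2 +
            ((4 * s a) * (∑ j, s (ω j)) ^ 3 + (∑ j, s (ω j)) ^ 4))) := fun ω => by ring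
      rw [funext h, avB_add, avB_add, avB_add, avB_add, avB_const, avB_smul, avB_smul, avB_smul,
        i1, i2]
      ring
    refine ⟨?_, ?_, ?_⟩
    · rw [avB_succ B s (fun t => t), Finset.sum_congr rfl fun a _ => k1 a, h0, zero_div]
    · rw [avB_succ B s (fun t => t ^ 2), Finset.sum_congr rfl fun a _ => k2 a,
        Finset.sum_add_distrib, Finset.sum_const, Finset.card_univ, nsmul_eq_mul, add_div, ← hm2]
      push_cast
      field_simp
      ring
    · rw [avB_succ B s (fun t => t ^ 4), Finset.sum_congr rfl fun a _ => k4 a,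
        Finset.sum_add_distrib, Finset.sum_add_distrib, Finset.sum_add_distrib,
        ← Finset.sum_mul, ← Finset.sum_mul, ← Finset.mul_sum, ← Finset.mul_sum, h0,
        Finset.sum_const, Finset.card_univ, nsmul_eq_mul, mul_zero, zero_mul, add_zero]
      have e1 : (∑ x, s x ^ 2) = m2 * Fintype.card Ω := by rw [hm2]; field_simp
      have e2 : (∑ x, s x ^ 4) = m4 * Fintype.card Ω := by rw [hm4]; field_simp
      rw [e1, e2]
      have e3 : (m4 * (Fintype.card Ω : ℝ) + 6 * (m2 * Fintype.card Ω) * (B * m2) +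
          Fintype.card Ω * avB B (fun ω : Fin B → Ω => (∑ j, s (ω j)) ^ 4)) / Fintype.card Ω =
          m4 + 6 * m2 * (B * m2) + avB B (fun ω : Fin B → Ω => (∑ j, s (ω j)) ^ 4) := by
        field_simp
      rw [e3]
      push_cast
      nlinarith [i4, sq_nonneg m2]

/-- normalised fourth moment: bounded for all `B` -/
theorem m4_bound (s : Ω → ℝ) (h0 : ∑ x, s x = 0) (I : ℝ) (hI : 0 < I)
    (h2 : ∑ x, s x ^ 2 = I * Fintype.card Ω) (B : ℕ) :
    (∑ ω : Fin B → Ω, ((∑ j, s (ω j)) / Real.sqrt (B * I)) ^ 4) / (Fintype.card Ω : ℝ) ^ B ≤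
      ((∑ x, s x ^ 4) / Fintype.card Ω) / I ^ 2 + 3 := by
  have hc : (Fintype.card Ω : ℝ) ≠ 0 := by
    exact_mod_cast Fintype.card_ne_zero
  have h4nn : 0 ≤ (∑ x, s x ^ 4) / (Fintype.card Ω : ℝ) :=
    div_nonneg (Finset.sum_nonneg fun x _ => by positivity) (by positivity)
  rcases Nat.eq_zero_or_pos B with rfl | hB
  · simp only [Nat.cast_zero, zero_mul, Real.sqrt_zero, div_zero]
    have : 0 ≤ ((∑ x, s x ^ 4) / (Fintype.card Ω : ℝ)) / I ^ 2 := by positivity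
    simp
    linarith
  · have hB' : (1 : ℝ) ≤ B := by exact_mod_cast hB
    have hBI : 0 < (B : ℝ) * I := by positivity
    have hsq : Real.sqrt (B * I) ^ 4 = (B * I) ^ 2 := by
      have h := Real.sq_sqrt hBI.le
      calc Real.sqrt (B * I) ^ 4 = (Real.sqrt (B * I) ^ 2) ^ 2 := by ring
        _ = (B * I) ^ 2 := by rw [h]
    have h := (avB_moments s h0 B).2.2
    have hm2 : (∑ x, s x ^ 2) / (Fintype.card Ω : ℝ) = I := by rw [h2]; field_simp
    rw [hm2] at h
    have h5 : (∑ ω : Fin B → Ω, ((∑ j, s (ω j)) / Real.sqrt (B * I)) ^ 4) /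
        (Fintype.card Ω : ℝ) ^ B = avB B (fun ω : Fin B → Ω => (∑ j, s (ω j)) ^ 4) /
          (B * I) ^ 2 := by
      unfold avB
      simp only [div_pow, hsq]
      rw [← Finset.sum_div, div_div, div_div, mul_comm]
    rw [h5, div_le_iff₀ (by positivity)]
    refine h.trans ?_
    have e1 : (((∑ x, s x ^ 4) / (Fintype.card Ω : ℝ)) / I ^ 2 + 3) * (B * I) ^ 2 =
        ((∑ x, s x ^ 4) / (Fintype.card Ω : ℝ)) * (B : ℝ) ^ 2 + 3 * (B : ℝ) ^ 2 * I ^ 2 := by
      field_simp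
    rw [e1]
    have e2 : (B : ℝ) * ((∑ x, s x ^ 4) / (Fintype.card Ω : ℝ)) ≤
        ((∑ x, s x ^ 4) / (Fintype.card Ω : ℝ)) * (B : ℝ) ^ 2 := by
      rw [mul_comm]
      refine mul_le_mul_of_nonneg_left ?_ h4nn
      nlinarith
    linarith

end Crest.Agent.KG
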