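import Crest.Agent.KG.JD

/-!
# Row 63 (S0085): definitions and interfaces.  Paper proof: ideas id 579 (helper28).

`JD d` : real functions on a product `∀ i, A i` which are sums of functions of at most `d`
coordinates ("junta degree at most d").  For `A i = Bool` this is real degree at most `d`.
-/

set_option autoImplicit false
open scoped BigOperators
open MeasureTheory

namespace Crest.Agent.KG

theorem JD_of_dep {ι : Type} {A : ι → Type} {d : ℕ} {g : (∀ i, A i) → ℝ} (D : Finset ι)
    (hD : D.card ≤ d) (hg : ∀ x y : (∀ i, A i), (∀ i ∈ D, x i = y i) → g x = g y) :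
    g ∈ (JD d : Submodule ℝ ((∀ i, A i) → ℝ)) :=
  Submodule.subset_span ⟨D, hD, hg⟩

/-- real valued indicator of a Boolean function -/
def bR {Ω : Type} (F : Ω → Bool) : Ω → ℝ := fun z => if F z then 1 else 0

/-- The index type of the gadget: `m` x-coordinates, `b` y-coordinates, `r * (m-2)` repair
coordinates.  `t + 1 = m - 2`. -/
abbrev Idx (m b r : ℕ) : Type := (Fin m ⊕ Fin b) ⊕ (Fin r × Fin (m - 2))

/-- words over `Fin K` (all coordinates have the same alphabet; the x- and q-coordinates
only use the letters `0` (= true) and `1` (= false)) -/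
def emb {m b r K : ℕ} (hK : 2 ≤ K) (x : Fin m → Bool) (y : Fin b → Fin K)
    (q : Fin r × Fin (m - 2) → Bool) : Idx m b r → Fin K :=
  Sum.elim (Sum.elim (fun i => if x i then ⟨0, by omega⟩ else ⟨1, by omega⟩) y)
    (fun l => if q l then ⟨0, by omega⟩ else ⟨1, by omega⟩)

/-- number of `true`s -/
def cnt {m : ℕ} (x : Fin m → Bool) : ℕ := (Finset.univ.filter (fun i => x i = true)).card

/-- entropy bound of the rounding theorem -/
noncomputable def Aent (m b K : ℕ) : ℝ :=
  (m : ℝ) * 2 ^ m * ((b : ℝ) + 4) *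
    ∑ j ∈ Finset.range (m - 2), (Nat.choose b j : ℝ) * ((K : ℝ) - 1) ^ (b - j)

/-- The term of a word `w` in the gadget inequality: `E[(T - (∑ S_i - c)^2) ; word = w]` for
independent scores with letter data `p, e1, e2` (probability, first and second moment of the
score on the cell). -/
noncomputable def gterm {ι : Type} [Fintype ι] [DecidableEq ι] {K : ℕ}
    (p e1 e2 : ι → Fin K → ℝ) (T c : ℝ) (w : ι → Fin K) : ℝ :=
  (T - c ^ 2) * (∏ i, p i (w i))
    + 2 * c * ∑ i, e1 i (w i) * ∏ j ∈ Finset.univ.erase i, p j (w j)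
    - ∑ i, e2 i (w i) * ∏ j ∈ Finset.univ.erase i, p j (w j)
    - ∑ i, ∑ j ∈ Finset.univ.erase i, e1 i (w i) * e1 j (w j) *
        ∏ k ∈ (Finset.univ.erase i).erase j, p k (w k)

/-- standard normal law -/
noncomputable abbrev γ : Measure ℝ := ProbabilityTheory.gaussianReal 0 1

/-- A gadget for i.i.d. standard normal coordinates. -/
structure Gadget where
  ι : Type
  [fι : Fintype ι]
  [dι : DecidableEq ι]
  K : ℕ
  t : ℕ
  ht : t + 1 ≤ Fintype.card ι
  cell : ι → ℝ → Fin K
  hmeas : ∀ i a, MeasurableSet {x | cell i x = a}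
  hfr : ∀ i a, γ (frontier {x | cell i x = a}) = 0
  c : ℝ
  U : (ι → Fin K) → Bool
  hJD : bR U ∈ (JD (Fintype.card ι - (t + 1)) : Submodule ℝ ((∀ _ : ι, Fin K) → ℝ))
  ineq : 0 < ∑ w : ι → Fin K, if U w then
      gterm (fun i a => (γ {x | cell i x = a}).toReal)
        (fun i a => ∫ x in {x | cell i x = a}, x ∂γ)
        (fun i a => ∫ x in {x | cell i x = a}, x ^ 2 ∂γ) ((t : ℝ) + 1) c w else 0

end Crest.Agent.KG
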