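import Crest.Agent.KG.Defs

/-! R63-GASY: the asymptotic comparison.  With `b = ⌈12 K log K⌉`,
`S / K^b = ∑_{j<m-2} C(b,j) K^{-j} (1-1/K)^{b-j} ≤ m (1+b/K)^m (1-1/K)^{b-m} ≤ m (1+b/K)^m e^{-(b-m)/K}`
so the left side is `K^{3.5} polylog K * K^{-6}`, the right side `≥ c K^{-1.5} / polylog K`. -/

set_option autoImplicit false
open scoped BigOperators

namespace Crest.Agent.KG

/-- the number of y-coordinates -/
noncomputable def bK (K : ℕ) : ℕ := ⌈12 * (K : ℝ) * Real.log K⌉₊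

/-- the polynomial comparison `u^n ≤ (12 n + 2)^n x` for `u = 12 log x + 2` -/
theorem asy_log (n : ℕ) (hn : 1 ≤ n) (x : ℝ) (hx : 1 ≤ x) :
    (12 * Real.log x + 2) ^ n ≤ (12 * (n : ℝ) + 2) ^ n * x := by
  have hn0 : (0 : ℝ) < n := by exact_mod_cast hn
  have h1 : Real.log x ≤ n * x ^ ((1 : ℝ) / n) := by
    have h := Real.log_le_rpow_div (x := x) (by linarith) (ε := 1 / (n : ℝ)) (by positivity)
    have h2 : x ^ ((1 : ℝ) / n) / (1 / (n : ℝ)) = n * x ^ ((1 : ℝ) / n) := by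
      field_simp
    rwa [h2] at h
  have h3 : 1 ≤ x ^ ((1 : ℝ) / n) := Real.one_le_rpow hx (by positivity)
  have h4 : 12 * Real.log x + 2 ≤ (12 * (n : ℝ) + 2) * x ^ ((1 : ℝ) / n) := by nlinarith
  have h5 : 0 ≤ 12 * Real.log x + 2 := by
    have := Real.log_nonneg hx
    linarith
  calc (12 * Real.log x + 2) ^ n ≤ ((12 * (n : ℝ) + 2) * x ^ ((1 : ℝ) / n)) ^ n :=
        pow_le_pow_left₀ h5 h4 n
    _ = (12 * (n : ℝ) + 2) ^ n * x := by
        rw [mul_pow, ← Real.rpow_natCast (x ^ ((1 : ℝ) / n)) n, ← Real.rpow_mul (by linarith)]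
        rw [one_div_mul_cancel hn0.ne', Real.rpow_one]

/-- the term bound -/
theorem asy_term (m b j : ℕ) (x u : ℝ) (hx : 3 ≤ x) (hu : 1 ≤ u) (hb : (b : ℝ) ≤ x * u)
    (hb1 : 12 * x * Real.log x ≤ b) (hmb : m ≤ b) (hj : j ≤ m) :
    (Nat.choose b j : ℝ) * (x - 1) ^ (b - j) ≤
      x ^ b * ((2 * u) ^ m * Real.exp m / x ^ 12) := by
  have hx0 : 0 < x := by linarith
  have hjb : j ≤ b := hj.trans hmb
  have h1 : (Nat.choose b j : ℝ) ≤ (b : ℝ) ^ j := by exact_mod_cast Nat.choose_le_pow b j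
  have h2 : (b : ℝ) ^ j ≤ (x * u) ^ j := pow_le_pow_left₀ (Nat.cast_nonneg _) hb j
  have h3 : x - 1 ≤ x * Real.exp (-(1 / x)) := by
    have h := Real.add_one_le_exp (-(1 / x))
    have h' : x * (-(1 / x) + 1) = x - 1 := by field_simp; ring
    rw [← h']
    exact mul_le_mul_of_nonneg_left h hx0.le
  have h4 : (x - 1) ^ (b - j) ≤ (x * Real.exp (-(1 / x))) ^ (b - j) :=
    pow_le_pow_left₀ (by linarith) h3 _
  have h5 : Real.exp (-(1 / x)) ^ (b - j) ≤ Real.exp m / x ^ 12 := by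
    rw [← Real.exp_nat_mul, le_div_iff₀ (by positivity)]
    have h6 : x ^ 12 = Real.exp (12 * Real.log x) := by
      rw [mul_comm, Real.exp_mul, Real.exp_log hx0]
      norm_cast
    rw [h6, ← Real.exp_add, Real.exp_le_exp]
    rw [Nat.cast_sub hjb]
    have h7 : 12 * Real.log x ≤ b / x := by
      rw [le_div_iff₀ hx0]; linarith
    have h8 : (j : ℝ) / x ≤ m := by
      rw [div_le_iff₀ hx0]
      have : (j : ℝ) ≤ m := by exact_mod_cast hj
      nlinarith [Nat.cast_nonneg (α := ℝ) m]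
    have h9 : ((b : ℝ) - j) * -(1 / x) = -(b / x) + j / x := by ring
    rw [h9]
    linarith
  have h10 : (x * u) ^ j * x ^ (b - j) ≤ x ^ b * (2 * u) ^ m := by
    have h11 : (x * u) ^ j * x ^ (b - j) = x ^ b * u ^ j := by
      rw [mul_pow]
      have : x ^ b = x ^ j * x ^ (b - j) := by
        rw [← pow_add]; congr 1; omega
      rw [this]; ring
    rw [h11]
    refine mul_le_mul_of_nonneg_left ?_ (by positivity)
    calc u ^ j ≤ u ^ m := pow_le_pow_right₀ hu hj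
      _ ≤ (2 * u) ^ m := pow_le_pow_left₀ (by linarith) (by linarith) m
  calc (Nat.choose b j : ℝ) * (x - 1) ^ (b - j)
      ≤ (x * u) ^ j * (x * Real.exp (-(1 / x))) ^ (b - j) :=
        mul_le_mul (h1.trans h2) h4 (pow_nonneg (by linarith) _) (by positivity)
    _ = ((x * u) ^ j * x ^ (b - j)) * Real.exp (-(1 / x)) ^ (b - j) := by
        rw [mul_pow x]; ring
    _ ≤ (x ^ b * (2 * u) ^ m) * (Real.exp m / x ^ 12) :=
        mul_le_mul h10 h5 (by positivity) (by positivity)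
    _ = x ^ b * ((2 * u) ^ m * Real.exp m / x ^ 12) := by ring

theorem asy (m : ℕ) (hm : 3 ≤ m) (C2 C3 : ℝ) (h2 : 0 < C2) (h3 : 0 < C3) (K0 : ℕ) :
    ∃ K : ℕ, K0 ≤ K ∧ 3 ≤ K ∧
      C2 * ((bK K : ℝ) ^ 2 * K + 1) *
        Real.sqrt (2 * Aent m (bK K) K * (2 ^ m * (K : ℝ) ^ (bK K))) / (K : ℝ) ^ (bK K)
      < C3 / ((bK K : ℝ) * Real.sqrt K + 1) := by
  -- the constants
  set n := m + 7 with hn
  set D : ℝ := 160 * C2 ^ 2 * m ^ 2 * 8 ^ m * Real.exp m with hD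
  set D2 : ℝ := D * (12 * (n : ℝ) + 2) ^ n with hD2
  set K : ℕ := max (max K0 3) (max m (⌈D2 / C3 ^ 2⌉₊ + 1)) with hK
  have hK0 : K0 ≤ K := (le_max_left _ _).trans (le_max_left _ _)
  have hK3 : 3 ≤ K := (le_max_right _ _).trans (le_max_left _ _)
  have hKm : m ≤ K := (le_max_left _ _).trans (le_max_right _ _)
  have hKD : ⌈D2 / C3 ^ 2⌉₊ + 1 ≤ K := (le_max_right _ _).trans (le_max_right _ _)
  refine ⟨K, hK0, hK3, ?_⟩
  set b := bK K with hb
  set x : ℝ := (K : ℝ) with hx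
  have hx3 : 3 ≤ x := by rw [hx]; exact_mod_cast hK3
  have hx0 : 0 < x := by linarith
  have hlog : 1 ≤ Real.log x := by
    rw [Real.le_log_iff_exp_le hx0]
    have := Real.exp_one_lt_d9
    linarith
  have hb1 : 12 * x * Real.log x ≤ b := Nat.le_ceil _
  have hb2 : (b : ℝ) ≤ 12 * x * Real.log x + 1 := by
    have : (b : ℝ) < 12 * x * Real.log x + 1 := Nat.ceil_lt_add_one (by positivity)
    exact this.le
  set u : ℝ := 12 * Real.log x + 2 with hu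
  have hu1 : 1 ≤ u := by linarith
  have hbu : (b : ℝ) ≤ x * u := by rw [hu]; nlinarith
  have hmb : m ≤ b := by
    have h4 : (m : ℝ) ≤ b := by
      have h5 : (m : ℝ) ≤ x := by rw [hx]; exact_mod_cast hKm
      nlinarith
    exact_mod_cast h4
  have hxD : D2 / C3 ^ 2 < x := by
    have h4 : D2 / C3 ^ 2 ≤ ⌈D2 / C3 ^ 2⌉₊ := Nat.le_ceil _
    have h5 : ((⌈D2 / C3 ^ 2⌉₊ : ℝ)) + 1 ≤ x := by rw [hx]; exact_mod_cast hKD
    linarith
  have hb0 : (0 : ℝ) ≤ b := Nat.cast_nonneg _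
  -- the sum
  have hS : ∑ j ∈ Finset.range (m - 2), (Nat.choose b j : ℝ) * (x - 1) ^ (b - j) ≤
      m * (x ^ b * ((2 * u) ^ m * Real.exp m / x ^ 12)) := by
    calc ∑ j ∈ Finset.range (m - 2), (Nat.choose b j : ℝ) * (x - 1) ^ (b - j)
        ≤ ∑ j ∈ Finset.range (m - 2), x ^ b * ((2 * u) ^ m * Real.exp m / x ^ 12) := by
          refine Finset.sum_le_sum fun j hj => ?_
          have hj' := Finset.mem_range.1 hj
          exact asy_term m b j x u hx3 hu1 hbu hb1 hmb (by omega)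
      _ = ((m - 2 : ℕ) : ℝ) * (x ^ b * ((2 * u) ^ m * Real.exp m / x ^ 12)) := by
          rw [Finset.sum_const, Finset.card_range, nsmul_eq_mul]
      _ ≤ m * (x ^ b * ((2 * u) ^ m * Real.exp m / x ^ 12)) := by
          refine mul_le_mul_of_nonneg_right ?_ (by positivity)
          exact_mod_cast Nat.sub_le m 2
  have hA : Aent m b K ≤ m * 2 ^ m * (5 * x * u) *
      (m * (x ^ b * ((2 * u) ^ m * Real.exp m / x ^ 12))) := by
    unfold Aent
    have h4 : (b : ℝ) + 4 ≤ 5 * x * u := by nlinarith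
    refine mul_le_mul (mul_le_mul_of_nonneg_left h4 (by positivity)) hS ?_ (by positivity)
    refine Finset.sum_nonneg fun j _ => ?_
    have : (0 : ℝ) ≤ x - 1 := by linarith
    positivity
  have hA0 : 0 ≤ Aent m b K := by
    unfold Aent
    refine mul_nonneg (by positivity) (Finset.sum_nonneg fun j _ => ?_)
    have : (0 : ℝ) ≤ (K : ℝ) - 1 := by rw [← hx]; linarith
    positivity
  -- the square of the root
  set R : ℝ := Real.sqrt (2 * Aent m b K * (2 ^ m * x ^ b)) with hR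
  have hR0 : 0 ≤ R := Real.sqrt_nonneg _
  have hR2 : R ^ 2 = 2 * Aent m b K * (2 ^ m * x ^ b) := Real.sq_sqrt (by positivity)
  have hRle : (R / x ^ b) ^ 2 ≤ 10 * m ^ 2 * 8 ^ m * Real.exp m * u ^ (m + 1) / x ^ 11 := by
    rw [div_pow, hR2, div_le_iff₀ (by positivity)]
    calc 2 * Aent m b K * (2 ^ m * x ^ b) ≤ 2 * (m * 2 ^ m * (5 * x * u) *
          (m * (x ^ b * ((2 * u) ^ m * Real.exp m / x ^ 12)))) * (2 ^ m * x ^ b) :=
          mul_le_mul_of_nonneg_right (mul_le_mul_of_nonneg_left hA (by norm_num)) (by positivity)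
      _ = 10 * m ^ 2 * 8 ^ m * Real.exp m * u ^ (m + 1) / x ^ 11 * (x ^ b) ^ 2 := by
          have h8 : (8 : ℝ) ^ m = 2 ^ m * 2 ^ m * 2 ^ m := by
            rw [← mul_pow, ← mul_pow]; norm_num
          rw [h8, mul_pow]
          field_simp
          ring
  rw [lt_div_iff₀ (by positivity)]
  have hsx : Real.sqrt x ^ 2 = x := Real.sq_sqrt hx0.le
  have hsx1 : 1 ≤ Real.sqrt x := by
    rw [Real.one_le_sqrt]; linarith
  have hxu : 1 ≤ x * u := by nlinarith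
  have hP1 : (b : ℝ) ^ 2 * x + 1 ≤ 2 * x ^ 3 * u ^ 2 := by
    have h4 : (b : ℝ) ^ 2 ≤ (x * u) ^ 2 := pow_le_pow_left₀ hb0 hbu 2
    have h5 : 1 ≤ (x * u) ^ 2 * x := by
      have : 1 ≤ (x * u) ^ 2 := one_le_pow₀ hxu
      nlinarith
    have h6 : (b : ℝ) ^ 2 * x ≤ (x * u) ^ 2 * x := mul_le_mul_of_nonneg_right h4 hx0.le
    calc (b : ℝ) ^ 2 * x + 1 ≤ (x * u) ^ 2 * x + (x * u) ^ 2 * x := add_le_add h6 h5
      _ = 2 * x ^ 3 * u ^ 2 := by ring
  have hP2 : (b : ℝ) * Real.sqrt x + 1 ≤ 2 * (x * u * Real.sqrt x) := by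
    have h4 : (b : ℝ) * Real.sqrt x ≤ x * u * Real.sqrt x :=
      mul_le_mul_of_nonneg_right hbu (by positivity)
    have h5 : 1 ≤ x * u * Real.sqrt x := by nlinarith
    linarith
  have hfin : (C2 * ((b : ℝ) ^ 2 * x + 1) * R / x ^ b * ((b : ℝ) * Real.sqrt x + 1)) ^ 2 <
      C3 ^ 2 := by
    have e1 : (C2 * ((b : ℝ) ^ 2 * x + 1) * R / x ^ b * ((b : ℝ) * Real.sqrt x + 1)) ^ 2 =
        C2 ^ 2 * ((b : ℝ) ^ 2 * x + 1) ^ 2 * (R / x ^ b) ^ 2 *
          ((b : ℝ) * Real.sqrt x + 1) ^ 2 := by ring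
    have e2 : ((b : ℝ) ^ 2 * x + 1) ^ 2 ≤ (2 * x ^ 3 * u ^ 2) ^ 2 :=
      pow_le_pow_left₀ (by positivity) hP1 2
    have e3 : ((b : ℝ) * Real.sqrt x + 1) ^ 2 ≤ (2 * (x * u * Real.sqrt x)) ^ 2 :=
      pow_le_pow_left₀ (by positivity) hP2 2
    have e4 : C2 ^ 2 * ((b : ℝ) ^ 2 * x + 1) ^ 2 * (R / x ^ b) ^ 2 *
          ((b : ℝ) * Real.sqrt x + 1) ^ 2 ≤
        C2 ^ 2 * (2 * x ^ 3 * u ^ 2) ^ 2 *
          (10 * m ^ 2 * 8 ^ m * Real.exp m * u ^ (m + 1) / x ^ 11) *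
          (2 * (x * u * Real.sqrt x)) ^ 2 := by
      gcongr
    have e5 : C2 ^ 2 * (2 * x ^ 3 * u ^ 2) ^ 2 *
          (10 * m ^ 2 * 8 ^ m * Real.exp m * u ^ (m + 1) / x ^ 11) *
          (2 * (x * u * Real.sqrt x)) ^ 2 = D * u ^ n / x ^ 2 := by
      have : (2 * (x * u * Real.sqrt x)) ^ 2 = 4 * x ^ 3 * u ^ 2 := by
        calc (2 * (x * u * Real.sqrt x)) ^ 2 = 4 * x ^ 2 * u ^ 2 * Real.sqrt x ^ 2 := by ring
          _ = 4 * x ^ 3 * u ^ 2 := by rw [hsx]; ring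
      rw [this, hD, hn, pow_add u m 7, pow_succ u m]
      field_simp
      ring
    have e6 : D * u ^ n / x ^ 2 ≤ D2 / x := by
      have h4 := asy_log n (by omega) x (by linarith)
      rw [div_le_div_iff₀ (by positivity) hx0]
      have hD0 : 0 ≤ D := by positivity
      calc D * u ^ n * x ≤ D * ((12 * (n : ℝ) + 2) ^ n * x) * x :=
            mul_le_mul_of_nonneg_right (mul_le_mul_of_nonneg_left h4 hD0) hx0.le
        _ = D2 * x ^ 2 := by rw [hD2]; ring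
    have e7 : D2 / x < C3 ^ 2 := by
      rw [div_lt_iff₀ hx0]
      rw [div_lt_iff₀ (by positivity)] at hxD
      linarith
    rw [e1]
    calc _ ≤ _ := e4
      _ = _ := e5
      _ ≤ _ := e6
      _ < _ := e7
  exact lt_of_pow_lt_pow_left₀ 2 h3.le hfin

end Crest.Agent.KG
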