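import Crest.Agent.KG.GCore

set_option autoImplicit false
open scoped BigOperators
open MeasureTheory

namespace Crest.Agent.KG

theorem sum_prod_bool {κ : Type} [Fintype κ] [DecidableEq κ] (π : ℝ) :
    ∑ q : κ → Bool, ∏ l, (if q l then π else 1 - π) = 1 := by
  have h := Finset.prod_univ_sum (t := fun _ : κ => (Finset.univ : Finset Bool))
    (f := fun (_ : κ) (b : Bool) => if b then π else 1 - π)
  rw [Fintype.piFinset_univ] at h
  rw [← h]
  simp

theorem bern_nonneg {m : ℕ} {p : ℝ} (h0 : 0 ≤ p) (h1 : p ≤ 1) (x : Fin m → Bool) :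
    0 ≤ bern p x := by
  unfold bern
  apply Finset.prod_nonneg
  intro i _
  split_ifs <;> linarith

theorem bern_le {m : ℕ} {p : ℝ} (h0 : 0 ≤ p) (h1 : p ≤ 1) (x : Fin m → Bool) :
    bern p x ≤ 1 := by
  unfold bern
  apply Finset.prod_le_one
  · intro i _
    split_ifs <;> linarith
  · intro i _
    split_ifs <;> linarith

theorem psi_sum {m : ℕ} (x : Fin m → Bool) (u w : ℝ) :
    ∑ i, (if x i then u else w) = m * w + (u - w) * cnt x := by
  have : ∀ i, (if x i then u else w) = w + (u - w) * (if x i = true then 1 else 0) := by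
    intro i; cases x i <;> simp
  simp only [this, Finset.sum_add_distrib, ← Finset.mul_sum, Finset.sum_boole]
  simp [cnt]

theorem xsum (m : ℕ) (px E2 σ A : ℝ) (hpx : 0 < px) (hpx1 : px < 1)
    (hσ : σ ^ 2 = m * px * (1 - px)) :
    ∑ x : Fin m → Bool, bern px x * ((cnt x : ℝ) - (m * px + σ)) ^ 2 *
      (A - ∑ i, (if x i then E2 / px else (1 - E2) / (1 - px)))
    = 2 * σ ^ 2 * (A - m - (E2 / px - (1 - E2) / (1 - px)) * (1 - 2 * px) / 2
        + (E2 / px - (1 - E2) / (1 - px)) * σ) := by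
  obtain ⟨-, h2, h3⟩ := bern_mom m px (m * px + σ)
  set Δ := E2 / px - (1 - E2) / (1 - px) with hΔ
  have e : ∀ x : Fin m → Bool, bern px x * ((cnt x : ℝ) - (m * px + σ)) ^ 2 *
      (A - ∑ i, (if x i then E2 / px else (1 - E2) / (1 - px)))
      = (A - m) * (bern px x * ((cnt x : ℝ) - (m * px + σ)) ^ 2)
        - Δ * (bern px x * ((cnt x : ℝ) - (m * px + σ)) ^ 2 * ((cnt x : ℝ) - m * px)) := by
    intro x
    rw [psi_sum]
    have hm : (m : ℝ) * ((1 - E2) / (1 - px)) = m - Δ * (m * px) := by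
      have h1 : (1 - px) ≠ 0 := by linarith
      rw [hΔ]; field_simp; ring
    rw [hm, ← hΔ]; ring
  simp only [e, Finset.sum_sub_distrib, ← Finset.mul_sum]
  rw [h2, h3]
  have : (m : ℝ) * px - (m * px + σ) = -σ := by ring
  rw [this, ← hσ]
  ring

/-- sup bound for the reward -/
theorem J_bound {m b r K : ℕ} {hK : 2 ≤ K} {p e1 e2 : Idx m b r → Fin K → ℝ}
    {px E2 π w0 : ℝ} {mm v : Fin K → ℝ} (h : DataOK hK p e1 e2 px E2 π w0 mm v)
    (hm : 3 ≤ m)
    (hpx : 0 < px) (hpx1 : px < 1) (hπ : 0 < π) (hπ1 : π < 1)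
    (hE0 : 0 ≤ E2) (hE1 : E2 ≤ 1) (hw0 : 0 ≤ w0) (hw1 : w0 ≤ 1)
    (c : ℝ) (hc : |c| ≤ b * Real.sqrt K + 1)
    (hmm : ∀ a, |mm a| ≤ Real.sqrt K) (hv0 : ∀ a, 0 ≤ v a) (hv1 : ∀ a, v a ≤ K)
    (x : Fin m → Bool) (y : Fin b → Fin K) :
    ∑ q : Fin r × Fin (m - 2) → Bool, |gterm p e1 e2 ((m : ℝ) - 2) c (emb hK x y q)|
    ≤ (1 / (K : ℝ)) ^ b * ((11 + m + m * (E2 / px + (1 - E2) / (1 - px))
        + (r * (m - 2 : ℕ) : ℝ) * (w0 / π + (1 - w0) / (1 - π))) * ((b : ℝ) ^ 2 * K + 1)) := by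
  have hKr : (0 : ℝ) < K := by
    have : 0 < K := by omega
    exact_mod_cast this
  have px' : (0 : ℝ) < 1 - px := by linarith
  have pπ' : (0 : ℝ) < 1 - π := by linarith
  set A1 := E2 / px + (1 - E2) / (1 - px) with hA1
  set A2 := w0 / π + (1 - w0) / (1 - π) with hA2
  have hp1 : 0 ≤ E2 / px := by positivity
  have hp2 : 0 ≤ (1 - E2) / (1 - px) := div_nonneg (by linarith) px'.le
  have hp3 : 0 ≤ w0 / π := by positivity
  have hp4 : 0 ≤ (1 - w0) / (1 - π) := div_nonneg (by linarith) pπ'.le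
  set C1 := 11 + (m : ℝ) + m * A1 + (r * (m - 2 : ℕ) : ℝ) * A2 with hC1
  have hm0 : (0 : ℝ) ≤ m := by positivity
  have hbK : (0 : ℝ) ≤ (b : ℝ) ^ 2 * K := by positivity
  -- pointwise
  have key : ∀ q : Fin r × Fin (m - 2) → Bool,
      |gterm p e1 e2 ((m : ℝ) - 2) c (emb hK x y q)|
      ≤ ((1 / (K : ℝ)) ^ b * (C1 * ((b : ℝ) ^ 2 * K + 1))) *
        ∏ l, (if q l then π else 1 - π) := by
    intro q
    rw [J_formula h hpx hpx1 hπ hπ1]
    set Q := ∏ l, (if q l then π else 1 - π) with hQ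
    have hQ0 : 0 ≤ Q := Finset.prod_nonneg (fun l _ => by split_ifs <;> linarith)
    have hB0 := bern_nonneg hpx.le hpx1.le x
    have hB1 := bern_le hpx.le hpx1.le x
    have hS1 : |∑ j, mm (y j)| ≤ b * Real.sqrt K := by
      calc |∑ j, mm (y j)| ≤ ∑ j, |mm (y j)| := Finset.abs_sum_le_sum_abs _ _
        _ ≤ ∑ _j : Fin b, Real.sqrt K := Finset.sum_le_sum (fun j _ => hmm _)
        _ = b * Real.sqrt K := by simp
    have hS2 : |∑ j, mm (y j) - c| ≤ 2 * (b * Real.sqrt K) + 1 := by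
      calc |∑ j, mm (y j) - c| ≤ |∑ j, mm (y j)| + |c| := abs_sub _ _
        _ ≤ _ := by linarith
    have hS3 : (∑ j, mm (y j) - c) ^ 2 ≤ 8 * ((b : ℝ) ^ 2 * K) + 2 := by
      have h1 : (∑ j, mm (y j) - c) ^ 2 ≤ (2 * (b * Real.sqrt K) + 1) ^ 2 := by
        rw [← sq_abs]
        exact pow_le_pow_left₀ (abs_nonneg _) hS2 2
      have h2 : (b * Real.sqrt K) ^ 2 = (b : ℝ) ^ 2 * K := by
        rw [mul_pow, Real.sq_sqrt hKr.le]
      nlinarith [sq_nonneg (2 * (b * Real.sqrt K) - 1)]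
    have hV0 : 0 ≤ ∑ j, v (y j) := Finset.sum_nonneg (fun j _ => hv0 _)
    have hV1 : ∑ j, v (y j) ≤ (b : ℝ) ^ 2 * K := by
      calc ∑ j, v (y j) ≤ ∑ _j : Fin b, (K : ℝ) := Finset.sum_le_sum (fun j _ => hv1 _)
        _ = b * K := by simp
        _ ≤ (b : ℝ) ^ 2 * K := by
            have : (b : ℝ) ≤ (b : ℝ) ^ 2 := by
              rcases Nat.eq_zero_or_pos b with hb | hb
              · simp [hb]
              · have : (1 : ℝ) ≤ b := by exact_mod_cast hb
                nlinarith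
            nlinarith
    have hX0 : 0 ≤ ∑ i, (if x i then E2 / px else (1 - E2) / (1 - px)) :=
      Finset.sum_nonneg (fun i _ => by split_ifs <;> assumption)
    have hX1 : ∑ i, (if x i then E2 / px else (1 - E2) / (1 - px)) ≤ m * A1 := by
      calc _ ≤ ∑ _i : Fin m, A1 := Finset.sum_le_sum (fun i _ => by split_ifs <;> linarith)
        _ = m * A1 := by simp
    have hq0 : 0 ≤ ∑ l, (if q l then w0 / π else (1 - w0) / (1 - π)) :=
      Finset.sum_nonneg (fun i _ => by split_ifs <;> assumption)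
    have hq1 : ∑ l, (if q l then w0 / π else (1 - w0) / (1 - π))
        ≤ (r * (m - 2 : ℕ) : ℝ) * A2 := by
      calc _ ≤ ∑ _l : Fin r × Fin (m - 2), A2 :=
            Finset.sum_le_sum (fun i _ => by split_ifs <;> linarith)
        _ = (r * (m - 2 : ℕ) : ℝ) * A2 := by simp
    have hm2 : (3 : ℝ) ≤ m := by exact_mod_cast hm
    have habs : |(m : ℝ) - 2 - (∑ j, mm (y j) - c) ^ 2 -
        (∑ i, (if x i then E2 / px else (1 - E2) / (1 - px))
        + ∑ j, v (y j) + ∑ l, (if q l then w0 / π else (1 - w0) / (1 - π)))|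
        ≤ C1 * ((b : ℝ) ^ 2 * K + 1) := by
      have hsq := sq_nonneg (∑ j, mm (y j) - c)
      have hA1' : 0 ≤ (m : ℝ) * A1 := mul_nonneg hm0 (by linarith)
      have hA2' : 0 ≤ (r * (m - 2 : ℕ) : ℝ) * A2 := mul_nonneg (by positivity) (by linarith)
      have hexp : 11 + (m : ℝ) + m * A1 + (r * (m - 2 : ℕ) : ℝ) * A2 + 9 * ((b : ℝ) ^ 2 * K)
          ≤ C1 * ((b : ℝ) ^ 2 * K + 1) := by
        rw [hC1]
        nlinarith [mul_nonneg hA1' hbK, mul_nonneg hA2' hbK, mul_nonneg hm0 hbK]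
      rw [abs_le]
      constructor
      · linarith
      · linarith
    rw [abs_mul]
    have hpos : 0 ≤ bern px x * (1 / (K : ℝ)) ^ b * Q := by positivity
    rw [abs_of_nonneg hpos]
    have h1K : 0 ≤ (1 / (K : ℝ)) ^ b := by positivity
    calc bern px x * (1 / (K : ℝ)) ^ b * Q * _
        ≤ (1 * (1 / (K : ℝ)) ^ b * Q) * (C1 * ((b : ℝ) ^ 2 * K + 1)) := by
          apply mul_le_mul _ habs (abs_nonneg _) (by positivity)
          apply mul_le_mul_of_nonneg_right _ hQ0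
          apply mul_le_mul_of_nonneg_right hB1 h1K
      _ = _ := by ring
  calc _ ≤ ∑ q : Fin r × Fin (m - 2) → Bool, ((1 / (K : ℝ)) ^ b * (C1 * ((b : ℝ) ^ 2 * K + 1))) *
        ∏ l, (if q l then π else 1 - π) := Finset.sum_le_sum (fun q _ => key q)
    _ = _ := by rw [← Finset.mul_sum, sum_prod_bool, mul_one]

end Crest.Agent.KG
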