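import Crest.Agent.KG.Defs

/-! R63-GMOM: central moments of the binomial law, written over the cube `Fin m → Bool`.
Proof idea: induction on `m` (`Fin.consEquiv`/`Fin.snocEquiv` or `Fintype.sum_pow`-style), or expand
`cnt x = ∑ i, [x i]` and use independence.  Suggested: prove by induction on `m` the four identities
E 1 = 1, E N = mp, E (N-mp)^2 = mp(1-p), E (N-mp)^3 = mp(1-p)(1-2p); then expand. -/

set_option autoImplicit false
open scoped BigOperators

namespace Crest.Agent.KG

/-- Bernoulli weight -/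
noncomputable def bern {m : ℕ} (p : ℝ) (x : Fin m → Bool) : ℝ := ∏ i, (if x i then p else 1 - p)

theorem cnt_cons {m : ℕ} (a : Bool) (x : Fin m → Bool) :
    cnt (Fin.cons a x : Fin (m + 1) → Bool) = (if a = true then 1 else 0) + cnt x := by
  unfold cnt
  rw [Finset.card_filter, Finset.card_filter, Fin.sum_univ_succ]
  simp only [Fin.cons_zero, Fin.cons_succ]

theorem bern_cons {m : ℕ} (p : ℝ) (a : Bool) (x : Fin m → Bool) :
    bern p (Fin.cons a x : Fin (m + 1) → Bool) = (if a = true then p else 1 - p) * bern p x := by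
  unfold bern
  rw [Fin.prod_univ_succ]
  simp only [Fin.cons_zero, Fin.cons_succ]

theorem bern_succ (m : ℕ) (p : ℝ) (f : ℝ → ℝ) :
    ∑ x : Fin (m + 1) → Bool, bern p x * f (cnt x : ℝ) =
      p * (∑ x : Fin m → Bool, bern p x * f ((cnt x : ℝ) + 1)) +
        (1 - p) * ∑ x : Fin m → Bool, bern p x * f (cnt x : ℝ) := by
  rw [← (Fin.consEquiv (fun _ : Fin (m + 1) => Bool)).sum_comp, Fintype.sum_prod_type,
    Fintype.sum_bool, Finset.mul_sum, Finset.mul_sum]
  congr 1
  · refine Finset.sum_congr rfl fun x _ => ?_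
    change bern p (Fin.cons true x : Fin (m + 1) → Bool) *
      f ((cnt (Fin.cons true x : Fin (m + 1) → Bool) : ℕ) : ℝ) = _
    rw [bern_cons, cnt_cons, if_pos rfl, if_pos rfl, Nat.cast_add, Nat.cast_one, add_comm (1 : ℝ),
      mul_assoc]
  · refine Finset.sum_congr rfl fun x _ => ?_
    change bern p (Fin.cons false x : Fin (m + 1) → Bool) *
      f ((cnt (Fin.cons false x : Fin (m + 1) → Bool) : ℕ) : ℝ) = _
    rw [bern_cons, cnt_cons, if_neg (by decide), if_neg (by decide), Nat.zero_add, mul_assoc]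

theorem bern_all (m : ℕ) (p : ℝ) :
    (∑ x : Fin m → Bool, bern p x = 1) ∧
    (∀ c : ℝ, ∑ x : Fin m → Bool, bern p x * ((cnt x : ℝ) - c) = m * p - c) ∧
    (∀ c : ℝ, ∑ x : Fin m → Bool, bern p x * ((cnt x : ℝ) - c) ^ 2
      = m * p * (1 - p) + (m * p - c) ^ 2) ∧
    (∀ c : ℝ, ∑ x : Fin m → Bool, bern p x * ((cnt x : ℝ) - c) ^ 3
      = m * p * (1 - p) * (1 - 2 * p) + 3 * (m * p - c) * (m * p * (1 - p)) + (m * p - c) ^ 3) := by
  induction m with
  | zero =>
    have h1 : ∀ f : ℝ → ℝ, ∑ x : Fin 0 → Bool, bern p x * f (cnt x : ℝ) = f 0 := by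
      intro f
      have h2 : ∀ x : Fin 0 → Bool, cnt x = 0 := by
        intro x
        unfold cnt
        simp
      have h3 : ∀ x : Fin 0 → Bool, bern p x = 1 := by
        intro x
        unfold bern
        simp
      simp [h2, h3]
    refine ⟨?_, fun c => ?_, fun c => ?_, fun c => ?_⟩
    · have := h1 (fun _ => 1)
      simpa using this
    · rw [h1 (fun t => t - c)]; push_cast; ring
    · rw [h1 (fun t => (t - c) ^ 2)]; push_cast; ring
    · rw [h1 (fun t => (t - c) ^ 3)]; push_cast; ring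
  | succ m ih =>
    obtain ⟨i0, i1, i2, i3⟩ := ih
    refine ⟨?_, fun c => ?_, fun c => ?_, fun c => ?_⟩
    · have h := bern_succ m p (fun _ => 1)
      simp only [mul_one] at h
      rw [h, i0]; ring
    · rw [bern_succ m p (fun t => t - c), i1]
      have h : ∀ x : Fin m → Bool, bern p x * ((cnt x : ℝ) + 1 - c) =
          bern p x * ((cnt x : ℝ) - (c - 1)) := fun x => by ring
      rw [Finset.sum_congr rfl fun x _ => h x, i1]
      push_cast; ring
    · rw [bern_succ m p (fun t => (t - c) ^ 2), i2]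
      have h : ∀ x : Fin m → Bool, bern p x * ((cnt x : ℝ) + 1 - c) ^ 2 =
          bern p x * ((cnt x : ℝ) - (c - 1)) ^ 2 := fun x => by ring
      rw [Finset.sum_congr rfl fun x _ => h x, i2]
      push_cast; ring
    · rw [bern_succ m p (fun t => (t - c) ^ 3), i3]
      have h : ∀ x : Fin m → Bool, bern p x * ((cnt x : ℝ) + 1 - c) ^ 3 =
          bern p x * ((cnt x : ℝ) - (c - 1)) ^ 3 := fun x => by ring
      rw [Finset.sum_congr rfl fun x _ => h x, i3]
      push_cast; ring

theorem bern_mom (m : ℕ) (p c : ℝ) :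
    (∑ x : Fin m → Bool, bern p x = 1) ∧
    (∑ x : Fin m → Bool, bern p x * ((cnt x : ℝ) - c) ^ 2
      = m * p * (1 - p) + (m * p - c) ^ 2) ∧
    (∑ x : Fin m → Bool, bern p x * ((cnt x : ℝ) - c) ^ 2 * ((cnt x : ℝ) - m * p)
      = m * p * (1 - p) * (1 - 2 * p) - 2 * (c - m * p) * (m * p * (1 - p))) := by
  obtain ⟨h0, _, h2, h3⟩ := bern_all m p
  refine ⟨h0, h2 c, ?_⟩
  have h : ∀ x : Fin m → Bool, bern p x * ((cnt x : ℝ) - c) ^ 2 * ((cnt x : ℝ) - m * p) =
      bern p x * ((cnt x : ℝ) - c) ^ 3 + (c - m * p) * (bern p x * ((cnt x : ℝ) - c) ^ 2) :=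
    fun x => by ring
  rw [Finset.sum_congr rfl fun x _ => h x, Finset.sum_add_distrib, ← Finset.mul_sum, h2 c, h3 c]
  ring

end Crest.Agent.KG
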