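import Crest.Agent.KG.GWord
import Crest.Agent.KG.GMom

set_option autoImplicit false
open scoped BigOperators
open MeasureTheory

namespace Crest.Agent.KG

/-- letter data of the gadget -/
structure DataOK {m b r K : ℕ} (hK : 2 ≤ K) (p e1 e2 : Idx m b r → Fin K → ℝ)
    (px E2 π w0 : ℝ) (mm v : Fin K → ℝ) : Prop where
  x0 : ∀ i, p (Sum.inl (Sum.inl i)) ⟨0, by omega⟩ = px ∧ e1 (Sum.inl (Sum.inl i)) ⟨0, by omega⟩ = 0 ∧
    e2 (Sum.inl (Sum.inl i)) ⟨0, by omega⟩ = E2
  x1 : ∀ i, p (Sum.inl (Sum.inl i)) ⟨1, by omega⟩ = 1 - px ∧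
    e1 (Sum.inl (Sum.inl i)) ⟨1, by omega⟩ = 0 ∧ e2 (Sum.inl (Sum.inl i)) ⟨1, by omega⟩ = 1 - E2
  y0 : ∀ j a, p (Sum.inl (Sum.inr j)) a = 1 / K ∧ e1 (Sum.inl (Sum.inr j)) a = mm a / K ∧
    e2 (Sum.inl (Sum.inr j)) a = (mm a ^ 2 + v a) / K
  q0 : ∀ i, p (Sum.inr i) ⟨0, by omega⟩ = π ∧ e1 (Sum.inr i) ⟨0, by omega⟩ = 0 ∧
    e2 (Sum.inr i) ⟨0, by omega⟩ = w0
  q1 : ∀ i, p (Sum.inr i) ⟨1, by omega⟩ = 1 - π ∧
    e1 (Sum.inr i) ⟨1, by omega⟩ = 0 ∧ e2 (Sum.inr i) ⟨1, by omega⟩ = 1 - w0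

theorem J_formula {m b r K : ℕ} {hK : 2 ≤ K} {p e1 e2 : Idx m b r → Fin K → ℝ}
    {px E2 π w0 : ℝ} {mm v : Fin K → ℝ} (h : DataOK hK p e1 e2 px E2 π w0 mm v)
    (hpx : 0 < px) (hpx1 : px < 1) (hπ : 0 < π) (hπ1 : π < 1) (T c : ℝ)
    (x : Fin m → Bool) (y : Fin b → Fin K) (q : Fin r × Fin (m - 2) → Bool) :
    gterm p e1 e2 T c (emb hK x y q) =
      (bern px x * (1 / (K : ℝ)) ^ b * ∏ l, (if q l then π else 1 - π)) *
      (T - (∑ j, mm (y j) - c) ^ 2 - (∑ i, (if x i then E2 / px else (1 - E2) / (1 - px))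
        + ∑ j, v (y j) + ∑ l, (if q l then w0 / π else (1 - w0) / (1 - π)))) := by
  have hKr : (0 : ℝ) < K := by
    have : 0 < K := by omega
    exact_mod_cast this
  have px' : (0 : ℝ) < 1 - px := by linarith
  have pπ' : (0 : ℝ) < 1 - π := by linarith
  have Px : ∀ i, p (Sum.inl (Sum.inl i)) (emb hK x y q (Sum.inl (Sum.inl i)))
      = if x i then px else 1 - px := by
    intro i
    simp only [emb, Sum.elim_inl]
    cases x i
    · simpa using (h.x1 i).1
    · simpa using (h.x0 i).1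
  have Ex1 : ∀ i, e1 (Sum.inl (Sum.inl i)) (emb hK x y q (Sum.inl (Sum.inl i))) = 0 := by
    intro i
    simp only [emb, Sum.elim_inl]
    cases x i
    · simpa using (h.x1 i).2.1
    · simpa using (h.x0 i).2.1
  have Ex2 : ∀ i, e2 (Sum.inl (Sum.inl i)) (emb hK x y q (Sum.inl (Sum.inl i)))
      = if x i then E2 else 1 - E2 := by
    intro i
    simp only [emb, Sum.elim_inl]
    cases x i
    · simpa using (h.x1 i).2.2
    · simpa using (h.x0 i).2.2
  have Pq : ∀ i, p (Sum.inr i) (emb hK x y q (Sum.inr i)) = if q i then π else 1 - π := by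
    intro i
    simp only [emb, Sum.elim_inr]
    cases q i
    · simpa using (h.q1 i).1
    · simpa using (h.q0 i).1
  have Eq1 : ∀ i, e1 (Sum.inr i) (emb hK x y q (Sum.inr i)) = 0 := by
    intro i
    simp only [emb, Sum.elim_inr]
    cases q i
    · simpa using (h.q1 i).2.1
    · simpa using (h.q0 i).2.1
  have Eq2 : ∀ i, e2 (Sum.inr i) (emb hK x y q (Sum.inr i)) = if q i then w0 else 1 - w0 := by
    intro i
    simp only [emb, Sum.elim_inr]
    cases q i
    · simpa using (h.q1 i).2.2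
    · simpa using (h.q0 i).2.2
  have Py : ∀ j, p (Sum.inl (Sum.inr j)) (emb hK x y q (Sum.inl (Sum.inr j))) = 1 / K := by
    intro j; exact (h.y0 j _).1
  have Ey1 : ∀ j, e1 (Sum.inl (Sum.inr j)) (emb hK x y q (Sum.inl (Sum.inr j)))
      = mm (y j) / K := by
    intro j; simp only [emb, Sum.elim_inl, Sum.elim_inr]; exact (h.y0 j _).2.1
  have Ey2 : ∀ j, e2 (Sum.inl (Sum.inr j)) (emb hK x y q (Sum.inl (Sum.inr j)))
      = (mm (y j) ^ 2 + v (y j)) / K := by
    intro j; simp only [emb, Sum.elim_inl, Sum.elim_inr]; exact (h.y0 j _).2.2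
  rw [gterm_prod]
  · rw [Fintype.prod_sum_type, Fintype.prod_sum_type, Fintype.sum_sum_type,
      Fintype.sum_sum_type, Fintype.sum_sum_type, Fintype.sum_sum_type]
    simp only [Px, Ex1, Ex2, Pq, Eq1, Eq2, Py, Ey1, Ey2]
    have a1 : ∀ i : Fin m, (if x i then E2 else 1 - E2) / (if x i then px else 1 - px)
        - (0 / (if x i then px else 1 - px)) ^ 2
        = (if x i then E2 / px else (1 - E2) / (1 - px)) := by
      intro i; cases x i <;> simp
    have a2 : ∀ i : Fin r × Fin (m - 2), (if q i then w0 else 1 - w0) / (if q i then π else 1 - π)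
        - (0 / (if q i then π else 1 - π)) ^ 2
        = (if q i then w0 / π else (1 - w0) / (1 - π)) := by
      intro i; cases q i <;> simp
    have a3 : ∀ j : Fin b, (mm (y j) ^ 2 + v (y j)) / (K : ℝ) / (1 / K) - (mm (y j) / K / (1 / K)) ^ 2
        = v (y j) := by
      intro j; field_simp; ring
    have a4 : ∀ j : Fin b, mm (y j) / (K : ℝ) / (1 / K) = mm (y j) := by
      intro j; field_simp
    simp only [a1]
    simp only [a2]
    simp only [a3]
    simp only [a4]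
    simp only [zero_div, Finset.sum_const_zero, zero_add, add_zero,
      Finset.prod_const, Finset.card_univ, Fintype.card_fin]
    unfold bern
    ring
  · intro i
    rcases i with (i | j) | l
    · rw [Px]; cases x i <;> simp <;> linarith
    · rw [Py]; positivity
    · rw [Pq]; cases q l <;> simp <;> linarith

end Crest.Agent.KG
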