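import Crest.Agent.KG.GMain

set_option autoImplicit false
open scoped BigOperators
open MeasureTheory

namespace Crest.Agent.KG

theorem gadget_exists : ∃ G : Gadget, (letI := G.fι; G.t + 1 < Fintype.card G.ι) := by
  obtain ⟨C, hC, hquant⟩ := quantiser
  obtain ⟨px0, px1, hE, hE1, hpn, hEn⟩ := gauss_x
  set px := (γ {x : ℝ | 1 < |x|}).toReal with hpx
  set E2 := ∫ x in {x : ℝ | 1 < |x|}, x ^ 2 ∂γ with hE2
  have px' : 0 < 1 - px := by linarith
  have hE0 : 0 ≤ E2 := by linarith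
  set Δ := E2 / px - (1 - E2) / (1 - px) with hΔ
  have hΔ0 : 0 < Δ := by
    have h1 : 1 < E2 / px := by rw [lt_div_iff₀ px0]; linarith
    have h2 : (1 - E2) / (1 - px) < 1 := by rw [div_lt_iff₀ px']; linarith
    rw [hΔ]; linarith
  set S0 := (Δ / 2 + 5 + 26 * C) / Δ with hS0
  have hS00 : 0 < S0 := by rw [hS0]; positivity
  obtain ⟨m0, hm0⟩ := exists_nat_ge (S0 ^ 2 / (px * (1 - px)))
  set m := m0 + 3 with hm
  have hm3 : 3 ≤ m := by omega
  have hmr : (m : ℝ) = m0 + 3 := by rw [hm]; push_cast; ring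
  set σ := Real.sqrt (m * px * (1 - px)) with hσd
  have hσarg : 0 < (m : ℝ) * px * (1 - px) := by
    have : (0 : ℝ) < m := by rw [hmr]; positivity
    positivity
  have hσ0 : 0 < σ := Real.sqrt_pos.2 hσarg
  have hσ : σ ^ 2 = m * px * (1 - px) := Real.sq_sqrt hσarg.le
  have hσS : S0 ≤ σ := by
    apply Real.le_sqrt_of_sq_le
    have h1 : S0 ^ 2 ≤ (m0 : ℝ) * (px * (1 - px)) := by
      rwa [div_le_iff₀ (by positivity)] at hm0
    have h2 : 0 < px * (1 - px) := by positivity
    rw [hmr]; nlinarith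
  have hΔσ : Δ / 2 + 5 + 26 * C ≤ Δ * σ := by
    have : Δ * S0 = Δ / 2 + 5 + 26 * C := by rw [hS0]; field_simp
    rw [← this]; exact mul_le_mul_of_nonneg_left hσS hΔ0.le
  set r := m ^ 2 + 1 with hr
  set b1 : ℕ := r * (m - 2) with hb1
  set ε : ℝ := 1 / (b1 + 1) with hε
  have hε0 : 0 < ε := by rw [hε]; positivity
  obtain ⟨hπ0, hπ1, hw0, hw1, hπn, hwn⟩ := gauss_q ε hε0
  set π := (γ {x : ℝ | |x| ≤ ε}).toReal with hπ
  set w0 := ∫ x in {x : ℝ | |x| ≤ ε}, x ^ 2 ∂γ with hw
  have pπ' : 0 < 1 - π := by linarith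
  have hε1 : ε ≤ 1 := by
    rw [hε, div_le_one (by positivity)]
    have : (0 : ℝ) ≤ b1 := by positivity
    linarith
  have hε2 : ε ^ 2 ≤ 1 := by nlinarith
  have hw01 : w0 ≤ 1 := by nlinarith
  have hbw : (r * (m - 2 : ℕ) : ℝ) * (w0 / π) ≤ 1 := by
    have h1 : w0 / π ≤ ε ^ 2 := by rw [div_le_iff₀ hπ0]; exact hw1
    have h2 : ((r * (m - 2 : ℕ) : ℝ)) = (b1 : ℝ) := by rw [hb1]; push_cast; ring
    rw [h2]
    have hb0 : (0 : ℝ) ≤ b1 := by positivity
    calc (b1 : ℝ) * (w0 / π) ≤ b1 * ε ^ 2 := mul_le_mul_of_nonneg_left h1 hb0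
      _ ≤ 1 := by
        rw [hε, div_pow, one_pow, mul_one_div, div_le_one (by positivity)]
        nlinarith
  set C1 := (11 + m + m * (E2 / px + (1 - E2) / (1 - px))
        + (r * (m - 2 : ℕ) : ℝ) * (w0 / π + (1 - w0) / (1 - π))) with hC1
  have hC1pos : 0 < C1 := by
    have hp1 : 0 ≤ E2 / px := by positivity
    have hp2 : 0 ≤ (1 - E2) / (1 - px) := div_nonneg (by linarith) px'.le
    have hp3 : 0 ≤ w0 / π := by positivity
    have hp4 : 0 ≤ (1 - w0) / (1 - π) := div_nonneg (by linarith) pπ'.le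
    have : 0 ≤ (m : ℝ) * (E2 / px + (1 - E2) / (1 - px)) := by positivity
    have : 0 ≤ (r * (m - 2 : ℕ) : ℝ) * (w0 / π + (1 - w0) / (1 - π)) := by positivity
    rw [hC1]; positivity
  obtain ⟨K, -, hK3, hasy⟩ := asy m hm3 (4 * ((m : ℝ) ^ 2 + m + 1) * C1)
    (1 / ((m * px + σ) ^ 2 + (m : ℝ) ^ 2) * π ^ (r * (m - 2)) * (2 * σ ^ 2) / 4)
    (by positivity) (by positivity) 3
  have hK : 2 ≤ K := by omega
  have hKr : (3 : ℝ) ≤ K := by exact_mod_cast hK3
  obtain ⟨cy, hcm, hcf, hcp, hcv⟩ := hquant K hK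
  set mm : Fin K → ℝ := fun a => K * ∫ x in {x | cy x = a}, x ∂γ with hmm
  set v : Fin K → ℝ := fun a => K * (∫ x in {x | cy x = a}, x ^ 2 ∂γ)
    - (K * ∫ x in {x | cy x = a}, x ∂γ) ^ 2 with hv
  have hlogK : 1 ≤ Real.log K := by
    have h3 : Real.log (Real.exp 1) ≤ Real.log K :=
      Real.log_le_log (Real.exp_pos 1) (by
        have := Real.exp_one_lt_d9
        linarith)
    rwa [Real.log_exp] at h3
  set V := C / (K * Real.log K) with hV
  have hKl : 1 ≤ K * Real.log K := by nlinarith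
  have hbV : 2 * (bK K : ℝ) * V ≤ 26 * C := by
    have h1 : (bK K : ℝ) ≤ 12 * (K * Real.log K) + 1 := by
      have : (bK K : ℝ) < 12 * (K : ℝ) * Real.log K + 1 := by
        unfold bK
        apply Nat.ceil_lt_add_one
        positivity
      linarith
    rw [hV, ← mul_div_assoc, div_le_iff₀ (by linarith)]
    nlinarith
  have hmmb : ∀ a, |mm a| ≤ Real.sqrt K := fun a =>
    (gauss_cell _ (hcm a) K (by omega) (hcp a)).1
  have hv0 : ∀ a, 0 ≤ v a := fun a => (gauss_cell _ (hcm a) K (by omega) (hcp a)).2.1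
  have hv1 : ∀ a, v a ≤ K := fun a => by
    have := (gauss_cell _ (hcm a) K (by omega) (hcp a)).2.2
    have h2 := sq_nonneg (K * ∫ x in {x | cy x = a}, x ∂γ)
    simp only [hv]; linarith
  have hdata : DataOK (m := m) (b := bK K) (r := r) hK
      (fun i a => (γ {x | gcell m (bK K) r hK cy ε i x = a}).toReal)
      (fun i a => ∫ x in {x | gcell m (bK K) r hK cy ε i x = a}, x ∂γ)
      (fun i a => ∫ x in {x | gcell m (bK K) r hK cy ε i x = a}, x ^ 2 ∂γ)
      px E2 π w0 mm v := by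
    obtain ⟨cx0, cx1, -⟩ := cell2 hK (fun x : ℝ => 1 < |x|)
    obtain ⟨cq0, cq1, -⟩ := cell2 hK (fun x : ℝ => |x| ≤ ε)
    have mx : MeasurableSet {x : ℝ | 1 < |x|} := measurableSet_lt measurable_const (by fun_prop)
    have mq : MeasurableSet {x : ℝ | |x| ≤ ε} := measurableSet_le (by fun_prop) measurable_const
    refine ⟨?_, ?_, ?_, ?_, ?_⟩
    · intro i
      simp only [gcell, cx0]
      exact ⟨rfl, gauss_even _ mx (by intro x; simp), rfl⟩
    · intro i
      simp only [gcell, cx1]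
      exact ⟨hpn, gauss_even _ mx.compl (by intro x; simp), hEn⟩
    · intro j a
      simp only [gcell]
      refine ⟨hcp a, ?_, ?_⟩
      · simp only [hmm]; field_simp
      · simp only [hmm, hv]; field_simp; ring
    · intro i
      simp only [gcell, cq0]
      exact ⟨rfl, gauss_even _ mq (by intro x; simp), rfl⟩
    · intro i
      simp only [gcell, cq1]
      exact ⟨hπn, gauss_even _ mq.compl (by intro x; simp), hwn⟩
  have hz : ∀ (l : Idx m (bK K) r) (a : Fin K), (∀ j, l ≠ Sum.inl (Sum.inr j)) → 2 ≤ a.val →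
      (γ {x | gcell m (bK K) r hK cy ε l x = a}).toReal = 0 ∧
      (∫ x in {x | gcell m (bK K) r hK cy ε l x = a}, x ∂γ) = 0 ∧
      (∫ x in {x | gcell m (bK K) r hK cy ε l x = a}, x ^ 2 ∂γ) = 0 := by
    obtain ⟨-, -, cx2⟩ := cell2 hK (fun x : ℝ => 1 < |x|)
    obtain ⟨-, -, cq2⟩ := cell2 hK (fun x : ℝ => |x| ≤ ε)
    intro l a hl ha
    have hempty : {x | gcell m (bK K) r hK cy ε l x = a} = ∅ := by
      rcases l with (i | j) | l
      · simp only [gcell]; exact cx2 a ha
      · exact absurd rfl (hl j)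
      · simp only [gcell]; exact cq2 a ha
    rw [hempty]; simp
  obtain ⟨c, U, hU, hineq⟩ := numbers hdata hz hm3 (by omega) (by omega) px0 px1 hπ0 hπ1 hE0
    hE1.le hw0 hw01 hmmb hv0 hv1 σ hσ0 hσ V
    (by
      have : (K : ℝ) * V = C / Real.log K := by rw [hV]; field_simp
      rw [this]; exact hcv)
    (by
      have h1 : S0 = 1 / 2 + (5 + 26 * C) / Δ := by rw [hS0]; field_simp; ring
      have h2 : 0 ≤ (5 + 26 * C) / Δ := by positivity
      have h3 : 0 ≤ (m : ℝ) * px := by positivity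
      linarith)
    (by
      have : Δ * (1 - 2 * px) / 2 ≤ Δ / 2 := by nlinarith
      linarith)
    hasy
  have hcard : m - 3 + 1 = m - 2 := by omega
  refine ⟨{ ι := Idx m (bK K) r, K := K, t := m - 3, ht := ?_,
            cell := gcell m (bK K) r hK cy ε, hmeas := ?_, hfr := ?_, c := c, U := U,
            hJD := ?_, ineq := ?_ }, ?_⟩
  · simp only [Fintype.card_sum, Fintype.card_prod, Fintype.card_fin]; omega
  · intro i a
    obtain ⟨cx0, cx1, cx2⟩ := cell2 hK (fun x : ℝ => 1 < |x|)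
    obtain ⟨cq0, cq1, cq2⟩ := cell2 hK (fun x : ℝ => |x| ≤ ε)
    have mx : MeasurableSet {x : ℝ | 1 < |x|} := measurableSet_lt measurable_const (by fun_prop)
    have mq : MeasurableSet {x : ℝ | |x| ≤ ε} := measurableSet_le (by fun_prop) measurable_const
    have ha : a = ⟨0, by omega⟩ ∨ a = ⟨1, by omega⟩ ∨ 2 ≤ a.val := by
      rcases Nat.lt_or_ge a.val 2 with h | h
      · interval_cases h' : a.val
        · left; exact Fin.ext h'
        · right; left; exact Fin.ext h'
      · right; right; exact h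
    rcases i with (i | j) | l
    · simp only [gcell]
      rcases ha with rfl | rfl | ha
      · rw [cx0]; exact mx
      · rw [cx1]; exact mx.compl
      · rw [cx2 a ha]; exact MeasurableSet.empty
    · simp only [gcell]; exact hcm a
    · simp only [gcell]
      rcases ha with rfl | rfl | ha
      · rw [cq0]; exact mq
      · rw [cq1]; exact mq.compl
      · rw [cq2 a ha]; exact MeasurableSet.empty
  · intro i a
    obtain ⟨cx0, cx1, cx2⟩ := cell2 hK (fun x : ℝ => 1 < |x|)
    obtain ⟨cq0, cq1, cq2⟩ := cell2 hK (fun x : ℝ => |x| ≤ ε)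
    obtain ⟨-, -, f3, f4⟩ := gauss_fr 1 one_pos
    obtain ⟨f1, f2, -, -⟩ := gauss_fr ε hε0
    have ha : a = ⟨0, by omega⟩ ∨ a = ⟨1, by omega⟩ ∨ 2 ≤ a.val := by
      rcases Nat.lt_or_ge a.val 2 with h | h
      · interval_cases h' : a.val
        · left; exact Fin.ext h'
        · right; left; exact Fin.ext h'
      · right; right; exact h
    rcases i with (i | j) | l
    · simp only [gcell]
      rcases ha with rfl | rfl | ha
      · rw [cx0]; exact f3
      · rw [cx1]; exact f4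
      · rw [cx2 a ha]; simp
    · simp only [gcell]; exact hcf a
    · simp only [gcell]
      rcases ha with rfl | rfl | ha
      · rw [cq0]; exact f1
      · rw [cq1]; exact f2
      · rw [cq2 a ha]; simp
  · rw [hcard]; convert hU using 2
  · have ht : ((m - 3 : ℕ) : ℝ) + 1 = (m : ℝ) - 2 := by
      rw [Nat.cast_sub hm3]; push_cast; ring
    rw [ht]
    convert hineq using 2
  · show m - 3 + 1 < Fintype.card (Idx m (bK K) r)
    simp only [Fintype.card_sum, Fintype.card_prod, Fintype.card_fin]; omega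

end Crest.Agent.KG
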