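import Crest.Agent.KG.Defs

/-! R63-GGAU: facts on the standard normal law for the two-letter coordinates. -/

set_option autoImplicit false
open scoped BigOperators
open MeasureTheory

namespace Crest.Agent.KG

theorem gg_int2 : Integrable (fun x : ℝ => x ^ 2) γ :=
  (ProbabilityTheory.memLp_id_gaussianReal (μ := 0) (v := 1) 2).integrable_sq

theorem gg_int1 : Integrable (fun x : ℝ => x) γ :=
  (ProbabilityTheory.memLp_id_gaussianReal (μ := 0) (v := 1) 1).integrable (by norm_num)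

theorem gg_pos {A : Set ℝ} (hA : (interior A).Nonempty) : 0 < γ A := by
  have h1 : (0 : ENNReal) < volume (interior A) := isOpen_interior.measure_pos _ hA
  have h2 : γ (interior A) ≠ 0 := fun h =>
    h1.ne' (ProbabilityTheory.gaussianReal_absolutelyContinuous' 0 (one_ne_zero) h)
  exact (pos_iff_ne_zero.2 h2).trans_le (measure_mono interior_subset)

theorem gg_pos' {A : Set ℝ} (hA : (interior A).Nonempty) : 0 < (γ A).toReal :=
  ENNReal.toReal_pos (gg_pos hA).ne' (measure_ne_top _ _)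

theorem gg_compl {A : Set ℝ} (hA : MeasurableSet A) : (γ Aᶜ).toReal = 1 - (γ A).toReal := by
  have := probReal_compl_eq_one_sub (μ := γ) hA
  exact this

theorem gauss_total : ∫ x, x ^ 2 ∂γ = 1 := by
  have h := ProbabilityTheory.variance_id_gaussianReal (μ := 0) (v := 1)
  rw [ProbabilityTheory.variance_eq_sub (ProbabilityTheory.memLp_id_gaussianReal 2)] at h
  have h2 : ∫ x, id x ∂(ProbabilityTheory.gaussianReal 0 1) = 0 :=
    ProbabilityTheory.integral_id_gaussianReal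
  rw [h2] at h
  simpa using h

/-- even events have zero first moment -/
theorem gauss_even (A : Set ℝ) (hA : MeasurableSet A) (hs : ∀ x, x ∈ A ↔ -x ∈ A) :
    ∫ x in A, x ∂γ = 0 := by
  have hm : Measure.map (fun x : ℝ => -x) γ = γ := by
    have := ProbabilityTheory.gaussianReal_map_neg (μ := 0) (v := 1)
    simpa using this
  have h1 : ∫ x in A, x ∂γ = ∫ x in (fun x : ℝ => -x) ⁻¹' A, -x ∂γ := by
    conv_lhs => rw [← hm]
    exact setIntegral_map (f := fun x : ℝ => x) hA measurable_id.aestronglyMeasurable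
      measurable_neg.aemeasurable
  have h2 : (fun x : ℝ => -x) ⁻¹' A = A := by
    ext x; exact (hs x).symm
  rw [h2, integral_neg] at h1
  linarith

theorem gg_compl2 {A : Set ℝ} (hA : MeasurableSet A) :
    (∫ x in Aᶜ, x ^ 2 ∂γ) = 1 - ∫ x in A, x ^ 2 ∂γ := by
  have := integral_add_compl hA gg_int2
  rw [gauss_total] at this
  linarith

/-- the x-letter `{|x| > 1}` : probability in `(0,1)`, conditional second moment `> 1` -/
theorem gauss_x : 0 < (γ {x : ℝ | 1 < |x|}).toReal ∧ (γ {x : ℝ | 1 < |x|}).toReal < 1 ∧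
    (γ {x : ℝ | 1 < |x|}).toReal < ∫ x in {x : ℝ | 1 < |x|}, x ^ 2 ∂γ ∧
    (∫ x in {x : ℝ | 1 < |x|}, x ^ 2 ∂γ) < 1 ∧
    (γ {x : ℝ | ¬ 1 < |x|}).toReal = 1 - (γ {x : ℝ | 1 < |x|}).toReal ∧
    (∫ x in {x : ℝ | ¬ 1 < |x|}, x ^ 2 ∂γ) = 1 - ∫ x in {x : ℝ | 1 < |x|}, x ^ 2 ∂γ := by
  have ho : IsOpen {x : ℝ | 1 < |x|} := isOpen_lt continuous_const continuous_abs
  have hA : MeasurableSet {x : ℝ | 1 < |x|} := ho.measurableSet
  have hne : (interior {x : ℝ | 1 < |x|}).Nonempty := by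
    rw [ho.interior_eq]; exact ⟨2, by norm_num⟩
  have hc : {x : ℝ | ¬ 1 < |x|} = {x : ℝ | 1 < |x|}ᶜ := rfl
  have hsub : Set.Ioo (0 : ℝ) 1 ⊆ {x : ℝ | 1 < |x|}ᶜ := by
    intro x hx
    simp only [Set.mem_compl_iff, Set.mem_ofPred_eq, not_lt]
    rw [abs_of_pos hx.1]; exact hx.2.le
  have hne2 : (interior {x : ℝ | 1 < |x|}ᶜ).Nonempty :=
    ⟨1 / 2, interior_maximal hsub isOpen_Ioo ⟨by norm_num, by norm_num⟩⟩
  have h5 := gg_compl hA
  have h6 := gg_compl2 hA
  have h7 := gg_pos' hne2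
  refine ⟨gg_pos' hne, by linarith, ?_, ?_, by rw [hc]; exact h5, by rw [hc]; exact h6⟩
  · have e1 : (γ {x : ℝ | 1 < |x|}).toReal = ∫ x in {x : ℝ | 1 < |x|}, (1 : ℝ) ∂γ := by
      rw [setIntegral_const]; simp [Measure.real]
    rw [e1, ← sub_pos, ← integral_sub gg_int2.integrableOn (integrable_const _).integrableOn]
    rw [setIntegral_pos_iff_support_of_nonneg_ae]
    · refine (gg_pos hne).trans_le (measure_mono fun x hx => ⟨?_, hx⟩)
      simp only [Function.mem_support]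
      have : 1 < |x| := hx
      have h2 : 1 < x ^ 2 := by rw [← sq_abs]; nlinarith
      linarith
    · refine (ae_restrict_iff' hA).2 (Filter.Eventually.of_forall fun x hx => ?_)
      have : 1 < |x| := hx
      have h2 : 1 < x ^ 2 := by rw [← sq_abs]; nlinarith
      simp only [Pi.zero_apply]
      linarith
    · exact (gg_int2.sub (integrable_const _)).integrableOn
  · have h8 : 0 < ∫ x in {x : ℝ | 1 < |x|}ᶜ, x ^ 2 ∂γ := by
      rw [setIntegral_pos_iff_support_of_nonneg_ae]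
      · have h9 : 0 < γ (Set.Ioo (0 : ℝ) 1) :=
          gg_pos ⟨1 / 2, by rw [isOpen_Ioo.interior_eq]; exact ⟨by norm_num, by norm_num⟩⟩
        refine h9.trans_le (measure_mono fun x hx => ⟨?_, hsub hx⟩)
        simp only [Function.mem_support]
        exact pow_ne_zero 2 hx.1.ne'
      · exact Filter.Eventually.of_forall fun x => by positivity
      · exact gg_int2.integrableOn
    linarith

/-- the q-letter `{|x| ≤ ε}` -/
theorem gauss_q (ε : ℝ) (hε : 0 < ε) : 0 < (γ {x : ℝ | |x| ≤ ε}).toReal ∧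
    (γ {x : ℝ | |x| ≤ ε}).toReal < 1 ∧
    0 ≤ (∫ x in {x : ℝ | |x| ≤ ε}, x ^ 2 ∂γ) ∧
    (∫ x in {x : ℝ | |x| ≤ ε}, x ^ 2 ∂γ) ≤ ε ^ 2 * (γ {x : ℝ | |x| ≤ ε}).toReal ∧
    (γ {x : ℝ | ¬ |x| ≤ ε}).toReal = 1 - (γ {x : ℝ | |x| ≤ ε}).toReal ∧
    (∫ x in {x : ℝ | ¬ |x| ≤ ε}, x ^ 2 ∂γ) = 1 - ∫ x in {x : ℝ | |x| ≤ ε}, x ^ 2 ∂γ := by
  have hcl : IsClosed {x : ℝ | |x| ≤ ε} := isClosed_le continuous_abs continuous_const
  have hA : MeasurableSet {x : ℝ | |x| ≤ ε} := hcl.measurableSet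
  have hc : {x : ℝ | ¬ |x| ≤ ε} = {x : ℝ | |x| ≤ ε}ᶜ := rfl
  have hsub : Set.Ioo (0 : ℝ) ε ⊆ {x : ℝ | |x| ≤ ε} := by
    intro x hx
    simp only [Set.mem_ofPred_eq]
    rw [abs_of_pos hx.1]; exact hx.2.le
  have hne : (interior {x : ℝ | |x| ≤ ε}).Nonempty :=
    ⟨ε / 2, interior_maximal hsub isOpen_Ioo ⟨by linarith, by linarith⟩⟩
  have hne2 : (interior {x : ℝ | |x| ≤ ε}ᶜ).Nonempty := by
    rw [hcl.isOpen_compl.interior_eq]
    refine ⟨2 * ε, ?_⟩
    simp only [Set.mem_compl_iff, Set.mem_ofPred_eq, not_le]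
    rw [abs_of_pos (by linarith)]; linarith
  have h5 := gg_compl hA
  have h6 := gg_compl2 hA
  have h7 := gg_pos' hne2
  refine ⟨gg_pos' hne, by linarith, setIntegral_nonneg hA fun x _ => by positivity, ?_,
    by rw [hc]; exact h5, by rw [hc]; exact h6⟩
  have e1 : ε ^ 2 * (γ {x : ℝ | |x| ≤ ε}).toReal = ∫ x in {x : ℝ | |x| ≤ ε}, ε ^ 2 ∂γ := by
    rw [setIntegral_const]; simp [Measure.real, mul_comm]
  rw [e1]
  refine setIntegral_mono_on gg_int2.integrableOn (integrable_const _).integrableOn hA ?_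
  intro x hx
  have : |x| ≤ ε := hx
  rw [← sq_abs]
  exact pow_le_pow_left₀ (abs_nonneg _) this 2

/-- boundaries are null -/
theorem gauss_fr (ε : ℝ) (hε : 0 < ε) : γ (frontier {x : ℝ | |x| ≤ ε}) = 0 ∧
    γ (frontier {x : ℝ | ¬ |x| ≤ ε}) = 0 ∧ γ (frontier {x : ℝ | ε < |x|}) = 0 ∧
    γ (frontier {x : ℝ | ¬ ε < |x|}) = 0 := by
  have hI : {x : ℝ | |x| ≤ ε} = Set.Icc (-ε) ε := by
    ext x; simp [abs_le]
  have h1 : γ (frontier {x : ℝ | |x| ≤ ε}) = 0 := by
    rw [hI, frontier_Icc (by linarith)]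
    refine ProbabilityTheory.gaussianReal_absolutelyContinuous 0 one_ne_zero ?_
    exact (Set.toFinite _).measure_zero volume
  have hc : {x : ℝ | ¬ |x| ≤ ε} = {x : ℝ | |x| ≤ ε}ᶜ := rfl
  have hc2 : {x : ℝ | ε < |x|} = {x : ℝ | |x| ≤ ε}ᶜ := by
    ext x; simp
  have hc3 : {x : ℝ | ¬ ε < |x|} = {x : ℝ | |x| ≤ ε} := by
    ext x; simp
  refine ⟨h1, ?_, ?_, ?_⟩
  · rw [hc, frontier_compl]; exact h1
  · rw [hc2, frontier_compl]; exact h1
  · rw [hc3]; exact h1

/-- Cauchy-Schwarz on a cell of probability `1/K`: the conditional mean is at most `√K`, the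
conditional variance is nonnegative and the conditional second moment is at most `K`. -/
theorem gauss_cell (A : Set ℝ) (hA : MeasurableSet A) (K : ℕ) (hK : 1 ≤ K)
    (hp : (γ A).toReal = 1 / K) :
    |K * ∫ x in A, x ∂γ| ≤ Real.sqrt K ∧
    0 ≤ K * (∫ x in A, x ^ 2 ∂γ) - (K * ∫ x in A, x ∂γ) ^ 2 ∧
    K * (∫ x in A, x ^ 2 ∂γ) ≤ K := by
  have hK0 : (0 : ℝ) < K := by exact_mod_cast hK
  set m := ∫ x in A, x ∂γ with hm
  set q := ∫ x in A, x ^ 2 ∂γ with hq
  have hq1 : q ≤ 1 := by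
    rw [← gauss_total]
    exact setIntegral_le_integral gg_int2 (Filter.Eventually.of_forall fun x => by positivity)
  have hcs : 0 ≤ q - 2 * (K * m) * m + (K * m) ^ 2 * (1 / K) := by
    have h0 : 0 ≤ ∫ x in A, (x - K * m) ^ 2 ∂γ := setIntegral_nonneg hA fun x _ => by positivity
    have e : ∫ x in A, (x - K * m) ^ 2 ∂γ = q - 2 * (K * m) * m + (K * m) ^ 2 * (1 / K) := by
      have e1 : ∀ x : ℝ, (x - K * m) ^ 2 = (x ^ 2 - (2 * (K * m)) * x) + (K * m) ^ 2 := by
        intro x; ring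
      simp only [e1]
      have i1 : IntegrableOn (fun x : ℝ => x ^ 2) A γ := gg_int2.integrableOn
      have i2 : IntegrableOn (fun x : ℝ => (2 * (K * m)) * x) A γ :=
        (gg_int1.const_mul _).integrableOn
      have i3 : IntegrableOn (fun _ : ℝ => (K * m) ^ 2) A γ := (integrable_const _).integrableOn
      have i4 : IntegrableOn (fun x : ℝ => x ^ 2 - (2 * (K * m)) * x) A γ := i1.sub i2
      rw [integral_add i4 i3, integral_sub i1 i2, integral_const_mul, setIntegral_const]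
      have : (γ.real A) = 1 / K := hp
      rw [this, smul_eq_mul]
      ring
    rwa [e] at h0
  have h2 : 0 ≤ K * q - (K * m) ^ 2 := by
    have : K * (q - 2 * (K * m) * m + (K * m) ^ 2 * (1 / K)) = K * q - (K * m) ^ 2 := by
      field_simp; ring
    rw [← this]
    exact mul_nonneg hK0.le hcs
  have h3 : K * q ≤ K := by nlinarith
  exact ⟨Real.abs_le_sqrt (by linarith), h2, h3⟩

end Crest.Agent.KG
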