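import Crest.Agent.KG.Defs

/-! R63-GPIG: the slab `Y` by pigeonhole.  Markov: at least half of the words have
`∑ v (y j) ≤ 2 b V` where `V = (∑ v)/K`; the sums `∑ mm (y j)` lie in `[-bR, bR]`, which is covered
by at most `b R + 1` intervals of length `2`. -/

set_option autoImplicit false
open scoped BigOperators

namespace Crest.Agent.KG

private theorem pig_sum (b K : ℕ) (j : Fin b) (v : Fin K → ℝ) :
    (K : ℝ) * ∑ y : Fin b → Fin K, v (y j) = (K : ℝ) ^ b * ∑ a, v a := by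
  have h1 : ∑ y : Fin b → Fin K, v (y j) =
      ∑ p : Fin K × ({x // x ≠ j} → Fin K), v p.1 :=
    Fintype.sum_equiv (Equiv.funSplitAt j (Fin K)) _ _ fun y => rfl
  have h2 : (Fintype.card (Fin b → Fin K)) =
      K * Fintype.card ({x // x ≠ j} → Fin K) := by
    rw [Fintype.card_congr (Equiv.funSplitAt j (Fin K)), Fintype.card_prod, Fintype.card_fin]
  rw [Fintype.card_fun, Fintype.card_fin, Fintype.card_fin] at h2
  have h3 : (K : ℝ) ^ b = (K : ℝ) * (Fintype.card ({x // x ≠ j} → Fin K) : ℝ) := by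
    exact_mod_cast h2
  rw [h1, Fintype.sum_prod_type, h3]
  simp only [Finset.sum_const, Finset.card_univ, nsmul_eq_mul]
  rw [← Finset.mul_sum]
  ring

theorem pigeon (b K : ℕ) (hK : 1 ≤ K) (mm v : Fin K → ℝ) (R V : ℝ) (hR : 0 ≤ R)
    (hmR : ∀ a, |mm a| ≤ R) (hv : ∀ a, 0 ≤ v a) (hV : ∑ a, v a ≤ K * V) :
    ∃ (c : ℝ) (Y : Finset (Fin b → Fin K)), |c| ≤ b * R + 1 ∧
      (∀ y ∈ Y, |∑ j, mm (y j) - c| ≤ 1 ∧ ∑ j, v (y j) ≤ 2 * b * V) ∧
      (K : ℝ) ^ b ≤ 4 * (b * R + 1) * Y.card := by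
  classical
  have hK0 : (0 : ℝ) < K := by exact_mod_cast hK
  have hbR : 0 ≤ (b : ℝ) * R := mul_nonneg b.cast_nonneg hR
  have hV0 : 0 ≤ V := by
    have h1 : 0 ≤ ∑ a, v a := Finset.sum_nonneg fun a _ => hv a
    have h2 : 0 ≤ (K : ℝ) * V := h1.trans hV
    exact nonneg_of_mul_nonneg_right h2 hK0
  -- Markov
  have htot : ∑ y : Fin b → Fin K, ∑ j, v (y j) ≤ (K : ℝ) ^ b * (b * V) := by
    rw [Finset.sum_comm]
    have h1 : ∀ j : Fin b, ∑ y : Fin b → Fin K, v (y j) ≤ (K : ℝ) ^ b * V := by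
      intro j
      have h2 := pig_sum b K j v
      have h3 : (K : ℝ) ^ b * ∑ a, v a ≤ (K : ℝ) ^ b * (K * V) :=
        mul_le_mul_of_nonneg_left hV (by positivity)
      rw [← h2] at h3
      have h4 : (K : ℝ) * ∑ y : Fin b → Fin K, v (y j) ≤ K * ((K : ℝ) ^ b * V) := by
        calc _ ≤ _ := h3
          _ = _ := by ring
      exact le_of_mul_le_mul_left h4 hK0
    calc ∑ j : Fin b, ∑ y : Fin b → Fin K, v (y j) ≤ ∑ j : Fin b, (K : ℝ) ^ b * V :=
          Finset.sum_le_sum fun j _ => h1 j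
      _ = (K : ℝ) ^ b * (b * V) := by
          rw [Finset.sum_const, Finset.card_univ, Fintype.card_fin, nsmul_eq_mul]
          ring
  set Gd : Finset (Fin b → Fin K) := Finset.univ.filter fun y => ∑ j, v (y j) ≤ 2 * b * V with hGd
  set Bd : Finset (Fin b → Fin K) := Finset.univ.filter fun y => ¬ ∑ j, v (y j) ≤ 2 * b * V
    with hBd
  have hcard : (Gd.card : ℝ) + Bd.card = (K : ℝ) ^ b := by
    have h1 := Finset.card_filter_add_card_filter_not (s := (Finset.univ : Finset (Fin b → Fin K)))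
      (fun y => ∑ j, v (y j) ≤ 2 * b * V)
    rw [Finset.card_univ, Fintype.card_fun, Fintype.card_fin, Fintype.card_fin] at h1
    rw [← Nat.cast_add, ← Nat.cast_pow]
    exact congrArg Nat.cast h1
  have hbad : 2 * (Bd.card : ℝ) ≤ (K : ℝ) ^ b := by
    have hnn : ∀ y : Fin b → Fin K, 0 ≤ ∑ j, v (y j) := fun y => Finset.sum_nonneg fun j _ => hv _
    have h1 : ∑ y ∈ Bd, ∑ j, v (y j) ≤ (K : ℝ) ^ b * (b * V) :=
      (Finset.sum_le_univ_sum_of_nonneg fun y => hnn y).trans htot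
    have h2 : (Bd.card : ℝ) * (2 * b * V) ≤ ∑ y ∈ Bd, ∑ j, v (y j) := by
      rw [← nsmul_eq_mul]
      refine Finset.card_nsmul_le_sum _ _ _ fun y hy => ?_
      rw [hBd, Finset.mem_filter] at hy
      exact (not_le.1 hy.2).le
    rcases (mul_nonneg b.cast_nonneg hV0 : 0 ≤ (b : ℝ) * V).eq_or_lt with h0 | h0
    · have hB : Bd = ∅ := by
        rw [Finset.eq_empty_iff_forall_notMem]
        intro y hy
        have h3 : ∑ j, v (y j) ≤ 0 := by
          have h4 : ∑ j, v (y j) ≤ ∑ y ∈ Bd, ∑ j, v (y j) :=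
            Finset.single_le_sum (f := fun y : Fin b → Fin K => ∑ j, v (y j))
              (fun y _ => hnn y) hy
          have h5 := h4.trans h1
          rw [← h0, mul_zero] at h5
          exact h5
        rw [hBd, Finset.mem_filter] at hy
        refine hy.2 ?_
        have : 2 * (b : ℝ) * V = 0 := by rw [mul_assoc, ← h0, mul_zero]
        rw [this]
        exact h3
      rw [hB]
      simp
    · have h3 : (2 * (Bd.card : ℝ)) * (b * V) ≤ (K : ℝ) ^ b * (b * V) := by
        calc (2 * (Bd.card : ℝ)) * (b * V) = (Bd.card : ℝ) * (2 * b * V) := by ring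
          _ ≤ _ := h2.trans h1
      exact le_of_mul_le_mul_right h3 h0
  have hgood : (K : ℝ) ^ b ≤ 2 * Gd.card := by linarith
  -- pigeonhole
  set N : ℕ := ⌊(b : ℝ) * R⌋₊ with hN
  have hNle : (N : ℝ) ≤ b * R := Nat.floor_le hbR
  have hsum : ∀ y : Fin b → Fin K, |∑ j, mm (y j)| ≤ b * R := by
    intro y
    calc |∑ j, mm (y j)| ≤ ∑ j, |mm (y j)| := Finset.abs_sum_le_sum_abs _ _
      _ ≤ ∑ _j : Fin b, R := Finset.sum_le_sum fun j _ => hmR _
      _ = b * R := by rw [Finset.sum_const, Finset.card_univ, Fintype.card_fin, nsmul_eq_mul]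
  let ix : (Fin b → Fin K) → ℕ := fun y => ⌊(∑ j, mm (y j) + b * R) / 2⌋₊
  have hix0 : ∀ y : Fin b → Fin K, 0 ≤ (∑ j, mm (y j) + b * R) / 2 := by
    intro y
    have := (abs_le.1 (hsum y)).1
    linarith
  have hmaps : ∀ y ∈ Gd, ix y ∈ Finset.range (N + 1) := by
    intro y _
    rw [Finset.mem_range, Nat.lt_succ_iff]
    refine Nat.floor_le_floor ?_
    have := (abs_le.1 (hsum y)).2
    linarith
  have hfib := Finset.card_eq_sum_card_fiberwise hmaps
  obtain ⟨i, hi, hmax⟩ := Finset.exists_max_image (Finset.range (N + 1))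
    (fun i => (Gd.filter fun y => ix y = i).card) ⟨0, by simp⟩
  have hle : Gd.card ≤ (N + 1) * (Gd.filter fun y => ix y = i).card := by
    rw [hfib]
    refine (Finset.sum_le_card_nsmul _ _ _ hmax).trans ?_
    rw [Finset.card_range, smul_eq_mul]
  refine ⟨-(b * R) + 2 * i + 1, Gd.filter fun y => ix y = i, ?_, ?_, ?_⟩
  · have hi' : (i : ℝ) ≤ N := by
      have := Finset.mem_range.1 hi
      exact_mod_cast Nat.lt_succ_iff.1 this
    have hi0 : (0 : ℝ) ≤ i := i.cast_nonneg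
    rw [abs_le]
    constructor <;> linarith
  · intro y hy
    rw [Finset.mem_filter] at hy
    obtain ⟨hyG, hyi⟩ := hy
    rw [hGd, Finset.mem_filter] at hyG
    refine ⟨?_, hyG.2⟩
    have h1 : (i : ℝ) ≤ (∑ j, mm (y j) + b * R) / 2 := by
      rw [← hyi]
      exact Nat.floor_le (hix0 y)
    have h2 : (∑ j, mm (y j) + b * R) / 2 < i + 1 := by
      rw [← hyi]
      exact Nat.lt_floor_add_one _
    rw [abs_le]
    constructor <;> linarith
  · have h1 : (Gd.card : ℝ) ≤ (N + 1) * ((Gd.filter fun y => ix y = i).card : ℝ) := by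
      exact_mod_cast hle
    have h2 : ((N : ℝ) + 1) * ((Gd.filter fun y => ix y = i).card : ℝ) ≤
        (b * R + 1) * ((Gd.filter fun y => ix y = i).card : ℝ) :=
      mul_le_mul_of_nonneg_right (by linarith) (Nat.cast_nonneg _)
    have h3 : 0 ≤ (b * R + 1) * ((Gd.filter fun y => ix y = i).card : ℝ) :=
      mul_nonneg (by linarith) (Nat.cast_nonneg _)
    calc (K : ℝ) ^ b ≤ 2 * Gd.card := hgood
      _ ≤ 2 * ((b * R + 1) * ((Gd.filter fun y => ix y = i).card : ℝ)) := by linarith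
      _ ≤ 4 * (b * R + 1) * ((Gd.filter fun y => ix y = i).card : ℝ) := by linarith

end Crest.Agent.KG
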