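import Crest.Agent.KG.RndDefs

set_option autoImplicit false

namespace Crest.Agent.KG

open Finset

/-- the set of wrong groups -/
def repW {r s : ℕ} (q : Fin r × Fin s → Bool) : Finset (Fin r) :=
  univ.filter (fun j => ∃ l, q (j, l) = false)

lemma mem_repW {r s : ℕ} (q : Fin r × Fin s → Bool) (j : Fin r) :
    j ∈ repW q ↔ ∃ l, q (j, l) = false := by
  simp [repW]

lemma repD_mem {r s : ℕ} (j : Fin r) (A : Finset (Fin r)) :
    (fun q : (∀ _ : Fin r × Fin s, Bool) => if (repW q).erase j = A then (1 : ℝ) else 0) ∈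
      (JD (r * s - s) : Submodule ℝ ((∀ _ : Fin r × Fin s, Bool) → ℝ)) := by
  refine mem_JD_of_dep (S := (univ.erase j) ×ˢ (univ : Finset (Fin s))) ?_ ?_
  · rw [card_product, card_erase_of_mem (mem_univ _)]
    simp only [card_univ, Fintype.card_fin]
    rw [Nat.sub_mul, one_mul]
  · intro x y hxy
    have : (repW x).erase j = (repW y).erase j := by
      ext i
      simp only [mem_erase, mem_repW]
      refine and_congr_right fun hi => ?_
      have h : ∀ l, x (i, l) = y (i, l) := fun l => hxy (i, l) (by simp [hi])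
      simp only [h]
    simp only [this]

lemma repE_mem {r s : ℕ} (A : Finset (Fin r)) :
    (fun q : (∀ _ : Fin r × Fin s, Bool) => (if repW q = A then (1 : ℝ) else 0) -
      (-1) ^ A.card * (if repW q = ∅ then 1 else 0)) ∈
      (JD (r * s - s) : Submodule ℝ ((∀ _ : Fin r × Fin s, Bool) → ℝ)) := by
  induction A using Finset.induction_on with
  | empty =>
    have : (fun q : (∀ _ : Fin r × Fin s, Bool) => (if repW q = ∅ then (1 : ℝ) else 0) -
      (-1) ^ (∅ : Finset (Fin r)).card * (if repW q = ∅ then 1 else 0)) = 0 := by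
      ext q; simp
    rw [this]
    exact Submodule.zero_mem _
  | insert j A hj ih =>
    have : (fun q : (∀ _ : Fin r × Fin s, Bool) => (if repW q = insert j A then (1 : ℝ) else 0) -
      (-1) ^ (insert j A).card * (if repW q = ∅ then 1 else 0)) =
      (fun q : (∀ _ : Fin r × Fin s, Bool) => if (repW q).erase j = A then (1 : ℝ) else 0) -
      (fun q : (∀ _ : Fin r × Fin s, Bool) => (if repW q = A then (1 : ℝ) else 0) -
      (-1) ^ A.card * (if repW q = ∅ then 1 else 0)) := by
      ext q
      rw [card_insert_of_notMem hj, pow_succ]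
      simp only [Pi.sub_apply]
      have key : (if (repW q).erase j = A then (1 : ℝ) else 0) =
          (if repW q = insert j A then (1 : ℝ) else 0) + (if repW q = A then (1 : ℝ) else 0) := by
        by_cases h1 : repW q = A
        · have h2 : repW q ≠ insert j A := by
            rw [h1]; intro h; exact hj (h ▸ mem_insert_self j A)
          rw [if_neg h2, if_pos h1, h1, erase_eq_of_notMem hj]
          simp
        · by_cases h2 : repW q = insert j A
          · rw [if_neg h1, if_pos h2, h2, erase_insert hj]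
            simp
          · rw [if_neg h1, if_neg h2, if_neg]
            · simp
            · intro h3
              by_cases h4 : j ∈ repW q
              · exact h2 (by rw [← h3, insert_erase h4])
              · exact h1 (by rw [← h3, erase_eq_of_notMem h4])
      rw [key]
      ring
    rw [this]
    exact Submodule.sub_mem _ (repD_mem j A) ih

lemma repFam {r : ℕ} (hr : 1 ≤ r) (k : ℤ) (hk : |k| ≤ r) :
    ∃ F : Finset (Finset (Fin r)), (∑ A ∈ F, (-1 : ℝ) ^ A.card = k) ∧ (k = 0 → F = ∅) ∧
      (k = 1 → F = {∅}) := by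
  rw [abs_le] at hk
  rcases lt_trichotomy k 0 with h | h | h
  · have hc : k.natAbs ≤ (univ : Finset (Fin r)).card := by
      rw [card_univ, Fintype.card_fin]; omega
    obtain ⟨T, -, hT⟩ := Finset.exists_subset_card_eq hc
    refine ⟨T.image (fun j => {j}), ?_, fun h' => by omega, fun h' => by omega⟩
    rw [sum_image (fun a _ b _ hab => by simpa using hab)]
    simp only [card_singleton, pow_one, sum_neg_distrib, sum_const, hT, nsmul_eq_mul, mul_one]
    have : ((k.natAbs : ℕ) : ℤ) = -k := by omega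
    have h2 : ((k.natAbs : ℕ) : ℝ) = -(k : ℝ) := by
      rw [← Int.cast_natCast (R := ℝ), this]; push_cast; ring
    rw [h2]; ring
  · subst h
    exact ⟨∅, by simp, fun _ => rfl, fun h' => by omega⟩
  · rcases eq_or_ne k 1 with h1 | h1
    · subst h1
      exact ⟨{∅}, by simp, fun h' => by omega, fun _ => rfl⟩
    · let o : Fin r := ⟨0, by omega⟩
      have hc : k.natAbs - 1 ≤ ((univ : Finset (Fin r)).erase o).card := by
        rw [card_erase_of_mem (mem_univ _), card_univ, Fintype.card_fin]; omega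
      obtain ⟨T, hTs, hT⟩ := Finset.exists_subset_card_eq hc
      have hTo : ∀ j ∈ T, j ≠ o := fun j hj => (mem_erase.1 (hTs hj)).1
      refine ⟨insert ∅ (T.image (fun j => {o, j})), ?_, fun h' => by omega, fun h' => by omega⟩
      rw [sum_insert, sum_image]
      · have : ∀ j ∈ T, (-1 : ℝ) ^ ({o, j} : Finset (Fin r)).card = 1 := by
          intro j hj
          rw [card_pair (hTo j hj).symm]; norm_num
        rw [sum_congr rfl this]
        simp only [card_empty, pow_zero, sum_const, hT, nsmul_eq_mul, mul_one]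
        have h3 : ((k.natAbs - 1 : ℕ) : ℤ) = k - 1 := by omega
        have h2 : ((k.natAbs - 1 : ℕ) : ℝ) = (k : ℝ) - 1 := by exact_mod_cast h3
        rw [h2]; ring
      · intro a ha b hb hab
        have hab' : ({o, a} : Finset (Fin r)) = {o, b} := hab
        have h3 : a ∈ ({o, b} : Finset (Fin r)) := by rw [← hab']; simp
        simp only [mem_insert, mem_singleton] at h3
        rcases h3 with h3 | h3
        · exact absurd h3 (hTo a ha)
        · exact h3
      · intro h3
        obtain ⟨j, -, hj⟩ := mem_image.1 h3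
        have : o ∈ (∅ : Finset (Fin r)) := by rw [← hj]; simp
        simp at this

lemma repR_mem {r s : ℕ} (F : Finset (Finset (Fin r))) :
    (fun q : (∀ _ : Fin r × Fin s, Bool) => (if repW q ∈ F then (1 : ℝ) else 0) -
      (∑ A ∈ F, (-1 : ℝ) ^ A.card) * (if repW q = ∅ then 1 else 0)) ∈
      (JD (r * s - s) : Submodule ℝ ((∀ _ : Fin r × Fin s, Bool) → ℝ)) := by
  have : (fun q : (∀ _ : Fin r × Fin s, Bool) => (if repW q ∈ F then (1 : ℝ) else 0) -
      (∑ A ∈ F, (-1 : ℝ) ^ A.card) * (if repW q = ∅ then 1 else 0)) =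
      ∑ A ∈ F, (fun q : (∀ _ : Fin r × Fin s, Bool) => (if repW q = A then (1 : ℝ) else 0) -
      (-1) ^ A.card * (if repW q = ∅ then 1 else 0)) := by
    ext q
    rw [Finset.sum_apply]
    simp only [sum_sub_distrib, sum_ite_eq]
    rw [sum_mul]
  rw [this]
  exact Submodule.sum_mem _ fun A _ => repE_mem A

theorem repair {ι : Type} [Fintype ι] [DecidableEq ι] {A : ι → Type} (r s : ℕ) (hs : 1 ≤ s)
    {d : ℕ} (hd : d + s = Fintype.card ι)
    (Fz : (∀ i, A i) → ℤ) (hF : (fun z => (Fz z : ℝ)) ∈ (JD d : Submodule ℝ ((∀ i, A i) → ℝ)))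
    (hFr : ∀ z, |Fz z| ≤ r) :
    ∃ U : (∀ i, A i) → (Fin r × Fin s → Bool) → Bool,
      (∀ z, Fz z = 0 → ∀ q, U z q = false) ∧
      (∀ z, Fz z = 1 → ∀ q, U z q = true ↔ q = fun _ => true) ∧
      (fun x : (∀ j : ι ⊕ (Fin r × Fin s), Sum.elim A (fun _ => Bool) j) =>
        if U (fun i => x (Sum.inl i)) (fun j => x (Sum.inr j)) = true then (1 : ℝ) else 0) ∈
        (JD (Fintype.card ι + r * s - s) :
          Submodule ℝ ((∀ j : ι ⊕ (Fin r × Fin s), Sum.elim A (fun _ => Bool) j) → ℝ)) := by
  classical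
  rcases Nat.eq_zero_or_pos r with hr | hr
  · subst hr
    refine ⟨fun _ _ => false, fun _ _ _ => rfl, ?_, ?_⟩
    · intro z hz
      have := hFr z
      rw [hz] at this
      norm_num at this
    · have : (fun x : (∀ j : ι ⊕ (Fin 0 × Fin s), Sum.elim A (fun _ => Bool) j) =>
        if (fun (_ : (∀ i, A i)) (_ : Fin 0 × Fin s → Bool) => false) (fun i => x (Sum.inl i))
          (fun j => x (Sum.inr j)) = true then (1 : ℝ) else 0) = 0 := by
        ext x; simp
      rw [this]
      exact Submodule.zero_mem _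
  have hfam : ∀ k : ℤ, ∃ F : Finset (Finset (Fin r)), |k| ≤ r →
      (∑ A ∈ F, (-1 : ℝ) ^ A.card = k) ∧ (k = 0 → F = ∅) ∧ (k = 1 → F = {∅}) := by
    intro k
    by_cases hk : |k| ≤ r
    · obtain ⟨F, hF⟩ := repFam hr k hk
      exact ⟨F, fun _ => hF⟩
    · exact ⟨∅, fun h => absurd h hk⟩
  choose 𝒜 h𝒜 using hfam
  refine ⟨fun z q => decide (repW q ∈ 𝒜 (Fz z)), ?_, ?_, ?_⟩
  · intro z hz q
    have := (h𝒜 (Fz z) (hFr z)).2.1 hz
    simp [this]
  · intro z hz q
    have := (h𝒜 (Fz z) (hFr z)).2.2 hz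
    rw [decide_eq_true_iff, this, mem_singleton]
    constructor
    · intro h
      funext ⟨j, l⟩
      by_contra hne
      have : j ∈ repW q := (mem_repW q j).2 ⟨l, by simpa using hne⟩
      rw [h] at this
      simp at this
    · intro h
      subst h
      ext j
      simp [mem_repW]
  · have hdelta : (fun x : (∀ j : ι ⊕ (Fin r × Fin s), Sum.elim A (fun _ => Bool) j) =>
        ((Fz (fun i => x (Sum.inl i)) : ℤ) : ℝ) *
          (if repW (fun j => x (Sum.inr j)) = ∅ then (1 : ℝ) else 0)) ∈
        (JD (d + r * s) : Submodule ℝ ((∀ j : ι ⊕ (Fin r × Fin s), Sum.elim A (fun _ => Bool) j) → ℝ)) := by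
      refine mul_mem_JD ?_ ?_
      · exact comp_mem_JD (A := Sum.elim A (fun _ : Fin r × Fin s => Bool)) (B := A)
          (fun i : ι => (Sum.inl i : ι ⊕ (Fin r × Fin s))) (fun _ a => a) hF
      · refine comp_mem_JD (A := Sum.elim A (fun _ : Fin r × Fin s => Bool))
          (B := fun _ : Fin r × Fin s => Bool)
          (fun j : Fin r × Fin s => (Sum.inr j : ι ⊕ (Fin r × Fin s))) (fun _ a => a)
          (f := fun q : (∀ _ : Fin r × Fin s, Bool) => if repW q = ∅ then (1 : ℝ) else 0) ?_
        exact mem_JD_card (by simp) _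
    have hR : ∀ k : ℤ, (fun x : (∀ j : ι ⊕ (Fin r × Fin s), Sum.elim A (fun _ => Bool) j) =>
        (if Fz (fun i => x (Sum.inl i)) = k then (1 : ℝ) else 0) *
          ((if repW (fun j => x (Sum.inr j)) ∈ 𝒜 k then (1 : ℝ) else 0) -
            (∑ A ∈ 𝒜 k, (-1 : ℝ) ^ A.card) *
              (if repW (fun j => x (Sum.inr j)) = ∅ then (1 : ℝ) else 0))) ∈
        (JD (Fintype.card ι + (r * s - s)) :
          Submodule ℝ ((∀ j : ι ⊕ (Fin r × Fin s), Sum.elim A (fun _ => Bool) j) → ℝ)) := by
      intro k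
      refine mul_mem_JD ?_ ?_
      · refine comp_mem_JD (A := Sum.elim A (fun _ : Fin r × Fin s => Bool)) (B := A)
          (fun i : ι => (Sum.inl i : ι ⊕ (Fin r × Fin s))) (fun _ a => a)
          (f := fun z => if Fz z = k then (1 : ℝ) else 0) ?_
        exact mem_JD_card le_rfl _
      · exact comp_mem_JD (A := Sum.elim A (fun _ : Fin r × Fin s => Bool))
          (B := fun _ : Fin r × Fin s => Bool)
          (fun j : Fin r × Fin s => (Sum.inr j : ι ⊕ (Fin r × Fin s))) (fun _ a => a)
          (repR_mem (𝒜 k))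
    have hsum : (fun x : (∀ j : ι ⊕ (Fin r × Fin s), Sum.elim A (fun _ => Bool) j) =>
        if decide (repW (fun j => x (Sum.inr j)) ∈ 𝒜 (Fz (fun i => x (Sum.inl i)))) = true
          then (1 : ℝ) else 0) =
        (fun x : (∀ j : ι ⊕ (Fin r × Fin s), Sum.elim A (fun _ => Bool) j) =>
        ((Fz (fun i => x (Sum.inl i)) : ℤ) : ℝ) *
          (if repW (fun j => x (Sum.inr j)) = ∅ then (1 : ℝ) else 0)) +
        ∑ k ∈ Finset.Icc (-(r : ℤ)) r,
          (fun x : (∀ j : ι ⊕ (Fin r × Fin s), Sum.elim A (fun _ => Bool) j) =>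
          (if Fz (fun i => x (Sum.inl i)) = k then (1 : ℝ) else 0) *
          ((if repW (fun j => x (Sum.inr j)) ∈ 𝒜 k then (1 : ℝ) else 0) -
            (∑ A ∈ 𝒜 k, (-1 : ℝ) ^ A.card) *
              (if repW (fun j => x (Sum.inr j)) = ∅ then (1 : ℝ) else 0))) := by
      ext x
      rw [Pi.add_apply, Finset.sum_apply]
      have hb := hFr (fun i => x (Sum.inl i))
      have hmem : Fz (fun i => x (Sum.inl i)) ∈ Finset.Icc (-(r : ℤ)) r := by
        rw [Finset.mem_Icc]; exact abs_le.1 hb
      simp only [ite_mul, one_mul, zero_mul]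
      rw [Finset.sum_ite_eq, if_pos hmem, (h𝒜 _ hb).1]
      simp only [decide_eq_true_eq]
      ring
    rw [hsum]
    refine Submodule.add_mem _ (JD_mono ?_ hdelta) (Submodule.sum_mem _ fun k _ => JD_mono ?_ (hR k))
    · have : s ≤ r * s := Nat.le_mul_of_pos_left s hr
      omega
    · have : s ≤ r * s := Nat.le_mul_of_pos_left s hr
      omega

end Crest.Agent.KG
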