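import Crest.Agent.KG.RndNear

set_option autoImplicit false

namespace Crest.Agent.KG

open Finset

/-- marginals of a product measure on labels -/
theorem marg {Ω L : Type} [Fintype Ω] [DecidableEq Ω] [Fintype L] [DecidableEq L]
    (P : Ω → L → ℝ) (hP : ∀ z, ∑ l, P z l = 1) (χ : L → Bool) (φ : (Ω → Bool) → ℝ) :
    ∑ lab : Ω → L, (∏ z, P z (lab z)) * φ (fun z => χ (lab z)) =
      ∑ F : Ω → Bool, bw (fun z => ∑ l ∈ Finset.univ.filter (fun l => χ l = true), P z l) F * φ F := by
  have h1 : ∀ F : Ω → Bool, bw (fun z => ∑ l ∈ Finset.univ.filter (fun l => χ l = true), P z l) F =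
      ∑ lab : Ω → L, if (fun z => χ (lab z)) = F then ∏ z, P z (lab z) else 0 := by
    intro F
    unfold bw
    have h2 : ∀ z, (if F z = true then ∑ l ∈ Finset.univ.filter (fun l => χ l = true), P z l
        else 1 - ∑ l ∈ Finset.univ.filter (fun l => χ l = true), P z l) =
        ∑ l, if χ l = F z then P z l else 0 := by
      intro z
      rw [← Finset.sum_filter]
      cases hF : F z
      · simp only [Bool.false_eq_true, if_false]
        have := Finset.sum_filter_add_sum_filter_not Finset.univ (fun l => χ l = true) (P z)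
        rw [hP z] at this
        have h3 : (Finset.univ.filter fun l => ¬ χ l = true) =
            Finset.univ.filter (fun l => χ l = false) := by
          ext l; simp
        rw [h3] at this
        linarith
      · simp
    simp only [h2]
    rw [Finset.prod_univ_sum]
    simp only [Fintype.piFinset_univ]
    refine Finset.sum_congr rfl fun lab _ => ?_
    by_cases h : (fun z => χ (lab z)) = F
    · rw [if_pos h]
      refine Finset.prod_congr rfl fun z _ => ?_
      rw [if_pos (congrFun h z)]
    · rw [if_neg h]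
      obtain ⟨z, hz⟩ := Function.ne_iff.1 h
      exact Finset.prod_eq_zero (Finset.mem_univ z) (if_neg hz)
  simp only [h1, Finset.sum_mul]
  rw [Finset.sum_comm]
  refine Finset.sum_congr rfl fun lab _ => ?_
  rw [Finset.sum_eq_single (fun z => χ (lab z))]
  · rw [if_pos rfl]
  · intro F _ hF
    rw [if_neg (fun h => hF h.symm), zero_mul]
  · intro h; exact absurd (Finset.mem_univ _) h

/-- one-coordinate marginal of a product measure on labels -/
theorem marg_one {Ω L : Type} [Fintype Ω] [DecidableEq Ω] [Fintype L] [DecidableEq L]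
    (P : Ω → L → ℝ) (hP : ∀ z, ∑ l, P z l = 1) (z₀ : Ω) (ψ : L → ℝ) :
    ∑ lab : Ω → L, (∏ z, P z (lab z)) * ψ (lab z₀) = ∑ l, P z₀ l * ψ l := by
  have h1 : ∀ lab : Ω → L, (∏ z, P z (lab z)) * ψ (lab z₀) =
      ∏ z, (P z (lab z) * (if z = z₀ then ψ (lab z) else 1)) := by
    intro lab
    rw [Finset.prod_mul_distrib]
    congr 1
    rw [Finset.prod_ite_eq' Finset.univ z₀ (fun z => ψ (lab z))]
    simp
  simp only [h1]
  have h2 := (Finset.prod_univ_sum (fun _ : Ω => (Finset.univ : Finset L))
    (fun z l => P z l * (if z = z₀ then ψ l else 1))).symm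
  simp only [Fintype.piFinset_univ] at h2
  rw [h2]
  rw [Finset.prod_eq_single z₀]
  · simp
  · intro z _ hz
    simp only [if_neg hz, mul_one]
    exact hP z
  · intro h; exact absurd (Finset.mem_univ _) h

/-- the total mass of a product measure on labels -/
theorem marg_total {Ω L : Type} [Fintype Ω] [DecidableEq Ω] [Fintype L] [DecidableEq L]
    (P : Ω → L → ℝ) (hP : ∀ z, ∑ l, P z l = 1) :
    ∑ lab : Ω → L, (∏ z, P z (lab z)) = 1 := by
  have h2 := (Finset.prod_univ_sum (fun _ : Ω => (Finset.univ : Finset L)) P).symm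
  simp only [Fintype.piFinset_univ] at h2
  rw [h2]
  exact Finset.prod_eq_one fun z _ => hP z

section sup

variable {α β : Type} [DecidableEq α] [DecidableEq β]

/-- the label has first component `j` -/
def chiH (j : α) : Option (α × Option β) → Bool
  | some (j', _) => decide (j' = j)
  | none => false

/-- the label has second component `l` -/
def chiG (l : Option β) : Option (α × Option β) → Bool
  | some (_, l') => decide (l' = l)
  | none => false

/-- the mass of the right side labels -/
def massS {Ω : Type} (g : β → Ω → ℝ) (P0 : Ω → ℝ) : Option β → Ω → ℝ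
  | some i => g i
  | none => P0

/-- the label distribution -/
noncomputable def labP [Fintype α] {Ω : Type} (h : α → Ω → ℝ) (g : β → Ω → ℝ) (P0 : Ω → ℝ) (z : Ω) :
    Option (α × Option β) → ℝ
  | some (j, l) => h j z * massS g P0 l z / ∑ j, h j z
  | none => 1 - ∑ j, h j z

lemma lab_exact [Fintype α] [Fintype β] (lb : Option (α × Option β)) :
    ((∑ j : α, if chiH j lb = true then (1 : ℤ) else 0) -
        ∑ i : β, if chiG (some i) lb = true then (1 : ℤ) else 0) =
      if chiG none lb = true then 1 else 0 := by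
  rcases lb with _ | ⟨j, l⟩
  · simp [chiH, chiG]
  · rcases l with _ | i
    · simp [chiH, chiG]
    · simp [chiH, chiG]

end sup

theorem sup_round {Ω : Type} [Fintype Ω] [DecidableEq Ω] (V : Submodule ℝ (Ω → ℝ))
    (N : (Ω → Bool) → (Ω → Bool)) (hN : ∀ F, ind (N F) ∈ V)
    {α β : Type} [Fintype α] [DecidableEq α] [Fintype β] [DecidableEq β]
    (h : α → Ω → ℝ) (g : β → Ω → ℝ) (P0 : Ω → ℝ) (hh : ∀ j z, 0 ≤ h j z)
    (hg : ∀ i z, 0 ≤ g i z) (hP : ∀ z, 0 ≤ P0 z)
    (heq : ∀ z, ∑ j, h j z = P0 z + ∑ i, g i z) (hle : ∀ z, ∑ j, h j z ≤ 1) (ε : ℝ)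
    (h1 : ∀ j, ∑ F : Ω → Bool, bw (h j) F * (hd F (N F) : ℝ) ≤ ε)
    (h2 : ∀ i, ∑ F : Ω → Bool, bw (g i) F * (hd F (N F) : ℝ) ≤ ε)
    (R : Ω → ℤ → ℝ) (M : ℝ) (hR0 : ∀ z, R z 0 = 0) (hRM : ∀ z k, |R z k| ≤ M) (hM : 0 ≤ M) :
    ∃ F' : Ω → ℤ, (fun z => (F' z : ℝ)) ∈ V ∧
      (∀ z, -(Fintype.card β : ℤ) ≤ F' z ∧ F' z ≤ (Fintype.card α : ℤ)) ∧
      ∑ z, P0 z * R z 1 - 2 * M * (((Fintype.card α : ℝ) + Fintype.card β) * ε) ≤
        ∑ z, R z (F' z) := by
  classical
  set L := Option (α × Option β) with hL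
  set P : Ω → L → ℝ := labP h g P0 with hPdef
  have hmass0 : ∀ l z, 0 ≤ massS g P0 l z := by
    intro l z
    cases l with
    | none => exact hP z
    | some i => exact hg i z
  have hmassS : ∀ z, ∑ l, massS g P0 l z = ∑ j, h j z := by
    intro z
    rw [Fintype.sum_option, heq z]
    rfl
  have hS0 : ∀ z, 0 ≤ ∑ j, h j z := fun z => Finset.sum_nonneg fun j _ => hh j z
  have hPnn : ∀ z l, 0 ≤ P z l := by
    intro z l
    cases l with
    | none =>
      show 0 ≤ 1 - ∑ j, h j z
      linarith [hle z]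
    | some p =>
      obtain ⟨j, l⟩ := p
      show 0 ≤ h j z * massS g P0 l z / ∑ j, h j z
      exact div_nonneg (mul_nonneg (hh j z) (hmass0 l z)) (hS0 z)
  have hPj : ∀ z j, ∑ l, P z (some (j, l)) = h j z := by
    intro z j
    show ∑ l, h j z * massS g P0 l z / ∑ j, h j z = h j z
    rw [← Finset.sum_div, ← Finset.mul_sum, hmassS z]
    by_cases h0 : ∑ j, h j z = 0
    · have : h j z = 0 := (Finset.sum_eq_zero_iff_of_nonneg (fun j _ => hh j z)).1 h0 j
        (Finset.mem_univ j)
      rw [this]; simp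
    · field_simp
  have hPl : ∀ z l, ∑ j, P z (some (j, l)) = massS g P0 l z := by
    intro z l
    show ∑ j, h j z * massS g P0 l z / ∑ j, h j z = massS g P0 l z
    rw [← Finset.sum_div, ← Finset.sum_mul]
    by_cases h0 : ∑ j, h j z = 0
    · have h3 : ∑ l, massS g P0 l z = 0 := by rw [hmassS z, h0]
      have : massS g P0 l z = 0 :=
        (Finset.sum_eq_zero_iff_of_nonneg (fun l _ => hmass0 l z)).1 h3 l (Finset.mem_univ l)
      rw [this]; simp
    · field_simp
  have hPsum : ∀ z, ∑ l, P z l = 1 := by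
    intro z
    rw [Fintype.sum_option, Fintype.sum_prod_type]
    simp only [hPj]
    show 1 - ∑ j, h j z + ∑ j, h j z = 1
    ring
  have hχH : ∀ j z, ∑ l ∈ Finset.univ.filter (fun l : L => chiH j l = true), P z l = h j z := by
    intro j z
    rw [Finset.sum_filter, Fintype.sum_option, Fintype.sum_prod_type]
    simp only [chiH, Bool.false_eq_true, if_false, decide_eq_true_eq, zero_add]
    rw [Finset.sum_eq_single j]
    · simp only [if_true]
      exact hPj z j
    · intro j' _ hj'
      exact Finset.sum_eq_zero fun l _ => if_neg hj'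
    · intro h; exact absurd (Finset.mem_univ _) h
  have hχG : ∀ l z, ∑ lb ∈ Finset.univ.filter (fun lb : L => chiG l lb = true), P z lb =
      massS g P0 l z := by
    intro l z
    rw [Finset.sum_filter, Fintype.sum_option, Fintype.sum_prod_type, Finset.sum_comm]
    simp only [chiG, Bool.false_eq_true, if_false, decide_eq_true_eq, zero_add]
    rw [Finset.sum_eq_single l]
    · simp only [if_true]
      exact hPl z l
    · intro l' _ hl'
      exact Finset.sum_eq_zero fun j _ => if_neg hl'
    · intro h; exact absurd (Finset.mem_univ _) h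
  -- the integer function of a labelling
  let Hf : (Ω → L) → α → Ω → Bool := fun lab j z => chiH j (lab z)
  let Gf : (Ω → L) → β → Ω → Bool := fun lab i z => chiG (some i) (lab z)
  let F' : (Ω → L) → Ω → ℤ := fun lab z =>
    (∑ j, if N (Hf lab j) z = true then (1 : ℤ) else 0) -
      ∑ i, if N (Gf lab i) z = true then (1 : ℤ) else 0
  have hV : ∀ lab, (fun z => (F' lab z : ℝ)) ∈ V := by
    intro lab
    have : (fun z => (F' lab z : ℝ)) = (∑ j, ind (N (Hf lab j))) - ∑ i, ind (N (Gf lab i)) := by
      funext z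
      simp only [F', ind, Pi.sub_apply, Finset.sum_apply]
      push_cast
      rfl
    rw [this]
    exact Submodule.sub_mem _ (Submodule.sum_mem _ fun j _ => hN _)
      (Submodule.sum_mem _ fun i _ => hN _)
  have hrange : ∀ lab z, -(Fintype.card β : ℤ) ≤ F' lab z ∧ F' lab z ≤ (Fintype.card α : ℤ) := by
    intro lab z
    have a1 : (0 : ℤ) ≤ ∑ j, if N (Hf lab j) z = true then (1 : ℤ) else 0 :=
      Finset.sum_nonneg fun j _ => by split_ifs <;> norm_num
    have a2 : (0 : ℤ) ≤ ∑ i, if N (Gf lab i) z = true then (1 : ℤ) else 0 :=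
      Finset.sum_nonneg fun j _ => by split_ifs <;> norm_num
    have a3 : (∑ j : α, if N (Hf lab j) z = true then (1 : ℤ) else 0) ≤ Fintype.card α := by
      calc (∑ j : α, if N (Hf lab j) z = true then (1 : ℤ) else 0) ≤ ∑ j : α, (1 : ℤ) :=
            Finset.sum_le_sum fun j _ => by split_ifs <;> norm_num
        _ = _ := by simp
    have a4 : (∑ i : β, if N (Gf lab i) z = true then (1 : ℤ) else 0) ≤ Fintype.card β := by
      calc (∑ i : β, if N (Gf lab i) z = true then (1 : ℤ) else 0) ≤ ∑ i : β, (1 : ℤ) :=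
            Finset.sum_le_sum fun j _ => by split_ifs <;> norm_num
        _ = _ := by simp
    constructor
    · simp only [F']; linarith
    · simp only [F']; linarith
  have hexact : ∀ (lab : Ω → L) z,
      ((∑ j, if Hf lab j z = true then (1 : ℤ) else 0) -
        ∑ i, if Gf lab i z = true then (1 : ℤ) else 0) =
      if chiG none (lab z) = true then 1 else 0 := by
    intro lab z
    exact lab_exact (lab z)
  -- pointwise bound
  have hpt : ∀ (lab : Ω → L) z,
      (if chiG none (lab z) = true then (1 : ℝ) else 0) * R z 1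
        - 2 * M * ((∑ j, if Hf lab j z ≠ N (Hf lab j) z then (1 : ℝ) else 0) +
          ∑ i, if Gf lab i z ≠ N (Gf lab i) z then (1 : ℝ) else 0) ≤ R z (F' lab z) := by
    intro lab z
    have b1 : (0 : ℝ) ≤ ∑ j, if Hf lab j z ≠ N (Hf lab j) z then (1 : ℝ) else 0 :=
      Finset.sum_nonneg fun j _ => by split_ifs <;> norm_num
    have b2 : (0 : ℝ) ≤ ∑ i, if Gf lab i z ≠ N (Gf lab i) z then (1 : ℝ) else 0 :=
      Finset.sum_nonneg fun j _ => by split_ifs <;> norm_num
    by_cases hgood : (∀ j, Hf lab j z = N (Hf lab j) z) ∧ (∀ i, Gf lab i z = N (Gf lab i) z)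
    · have c1 : F' lab z = if chiG none (lab z) = true then 1 else 0 := by
        rw [← hexact lab z]
        simp only [F']
        congr 1
        · exact Finset.sum_congr rfl fun j _ => by rw [← hgood.1 j]
        · exact Finset.sum_congr rfl fun i _ => by rw [← hgood.2 i]
      have c2 : (if chiG none (lab z) = true then (1 : ℝ) else 0) * R z 1 = R z (F' lab z) := by
        rw [c1]
        split_ifs
        · rw [one_mul]
        · rw [zero_mul, hR0]
      rw [c2]
      nlinarith [mul_nonneg hM (add_nonneg b1 b2)]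
    · have d1 : (1 : ℝ) ≤ (∑ j, if Hf lab j z ≠ N (Hf lab j) z then (1 : ℝ) else 0) +
          ∑ i, if Gf lab i z ≠ N (Gf lab i) z then (1 : ℝ) else 0 := by
        rw [not_and_or] at hgood
        rcases hgood with hb | hb
        · obtain ⟨j, hj⟩ := not_forall.1 hb
          have : (1 : ℝ) ≤ ∑ j, if Hf lab j z ≠ N (Hf lab j) z then (1 : ℝ) else 0 := by
            have := Finset.single_le_sum (f := fun j => if Hf lab j z ≠ N (Hf lab j) z then (1 : ℝ) else 0)
              (fun j _ => by split_ifs <;> norm_num) (Finset.mem_univ j)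
            simp only [ne_eq] at this
            rw [if_pos hj] at this
            exact this
          linarith
        · obtain ⟨i, hi⟩ := not_forall.1 hb
          have : (1 : ℝ) ≤ ∑ i, if Gf lab i z ≠ N (Gf lab i) z then (1 : ℝ) else 0 := by
            have := Finset.single_le_sum (f := fun i => if Gf lab i z ≠ N (Gf lab i) z then (1 : ℝ) else 0)
              (fun j _ => by split_ifs <;> norm_num) (Finset.mem_univ i)
            simp only [ne_eq] at this
            rw [if_pos hi] at this
            exact this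
          linarith
      have e1 : -M ≤ R z (F' lab z) := (abs_le.1 (hRM z (F' lab z))).1
      have e2 : (if chiG none (lab z) = true then (1 : ℝ) else 0) * R z 1 ≤ M := by
        split_ifs
        · rw [one_mul]; exact (abs_le.1 (hRM z 1)).2
        · rw [zero_mul]; exact hM
      nlinarith [mul_le_mul_of_nonneg_left d1 hM]
  -- summed bound
  have hsum : ∀ lab : Ω → L,
      ∑ z, (if chiG none (lab z) = true then (1 : ℝ) else 0) * R z 1
        - 2 * M * ((∑ j, (hd (Hf lab j) (N (Hf lab j)) : ℝ)) +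
          ∑ i, (hd (Gf lab i) (N (Gf lab i)) : ℝ)) ≤ ∑ z, R z (F' lab z) := by
    intro lab
    have f1 := Finset.sum_le_sum (s := Finset.univ) fun z _ => hpt lab z
    rw [Finset.sum_sub_distrib, ← Finset.mul_sum, Finset.sum_add_distrib, Finset.sum_comm,
      Finset.sum_comm (s := (Finset.univ : Finset Ω)) (t := (Finset.univ : Finset β))] at f1
    have f2 : ∀ F G : Ω → Bool, (hd F G : ℝ) = ∑ z, if F z ≠ G z then (1 : ℝ) else 0 := by
      intro F G
      unfold hd
      rw [Finset.sum_boole]
    simp only [f2]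
    exact f1
  -- averaging
  let w : (Ω → L) → ℝ := fun lab => ∏ z, P z (lab z)
  have hw0 : ∀ lab, 0 ≤ w lab := fun lab => Finset.prod_nonneg fun z _ => hPnn z _
  have hw1 : ∑ lab, w lab = 1 := marg_total P hPsum
  have hE0 : ∀ z, ∑ lab, w lab * (if chiG none (lab z) = true then (1 : ℝ) else 0) = P0 z := by
    intro z
    rw [marg_one P hPsum z (fun l => if chiG none l = true then (1 : ℝ) else 0)]
    have := hχG none z
    rw [Finset.sum_filter] at this
    simp only [mul_ite, mul_one, mul_zero]
    exact this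
  have hEH : ∀ j, ∑ lab, w lab * (hd (Hf lab j) (N (Hf lab j)) : ℝ) ≤ ε := by
    intro j
    have := marg P hPsum (chiH j) (fun F => (hd F (N F) : ℝ))
    simp only [hχH] at this
    calc _ = ∑ F : Ω → Bool, bw (h j) F * (hd F (N F) : ℝ) := this
      _ ≤ ε := h1 j
  have hEG : ∀ i, ∑ lab, w lab * (hd (Gf lab i) (N (Gf lab i)) : ℝ) ≤ ε := by
    intro i
    have := marg P hPsum (chiG (some i)) (fun F => (hd F (N F) : ℝ))
    simp only [hχG] at this
    calc _ = ∑ F : Ω → Bool, bw (g i) F * (hd F (N F) : ℝ) := this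
      _ ≤ ε := h2 i
  have hEtot : ∑ z, P0 z * R z 1 - 2 * M * (((Fintype.card α : ℝ) + Fintype.card β) * ε) ≤
      ∑ lab, w lab * ∑ z, R z (F' lab z) := by
    have g1 : ∑ lab, w lab * (∑ z, (if chiG none (lab z) = true then (1 : ℝ) else 0) * R z 1
        - 2 * M * ((∑ j, (hd (Hf lab j) (N (Hf lab j)) : ℝ)) +
          ∑ i, (hd (Gf lab i) (N (Gf lab i)) : ℝ))) ≤ ∑ lab, w lab * ∑ z, R z (F' lab z) :=
      Finset.sum_le_sum fun lab _ => mul_le_mul_of_nonneg_left (hsum lab) (hw0 lab)
    refine le_trans ?_ g1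
    have g2 : ∑ lab, w lab * (∑ z, (if chiG none (lab z) = true then (1 : ℝ) else 0) * R z 1
        - 2 * M * ((∑ j, (hd (Hf lab j) (N (Hf lab j)) : ℝ)) +
          ∑ i, (hd (Gf lab i) (N (Gf lab i)) : ℝ))) =
        ∑ z, P0 z * R z 1 - 2 * M * ((∑ j, ∑ lab, w lab * (hd (Hf lab j) (N (Hf lab j)) : ℝ)) +
          ∑ i, ∑ lab, w lab * (hd (Gf lab i) (N (Gf lab i)) : ℝ)) := by
      simp only [mul_sub, Finset.sum_sub_distrib]
      congr 1
      · simp only [Finset.mul_sum]
        rw [Finset.sum_comm]
        refine Finset.sum_congr rfl fun z _ => ?_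
        rw [← hE0 z, Finset.sum_mul]
        exact Finset.sum_congr rfl fun lab _ => by ring
      · rw [Finset.sum_comm (s := (Finset.univ : Finset α)),
          Finset.sum_comm (s := (Finset.univ : Finset β)), ← Finset.sum_add_distrib,
          Finset.mul_sum]
        refine Finset.sum_congr rfl fun lab _ => ?_
        rw [← Finset.mul_sum, ← Finset.mul_sum]
        ring
    rw [g2]
    have g3 : (∑ j : α, ∑ lab, w lab * (hd (Hf lab j) (N (Hf lab j)) : ℝ)) ≤
        (Fintype.card α : ℝ) * ε := by
      calc _ ≤ ∑ j : α, ε := Finset.sum_le_sum fun j _ => hEH j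
        _ = _ := by simp
    have g4 : (∑ i : β, ∑ lab, w lab * (hd (Gf lab i) (N (Gf lab i)) : ℝ)) ≤
        (Fintype.card β : ℝ) * ε := by
      calc _ ≤ ∑ i : β, ε := Finset.sum_le_sum fun j _ => hEG j
        _ = _ := by simp
    have g5 := mul_le_mul_of_nonneg_left (add_le_add g3 g4) (mul_nonneg zero_le_two hM)
    nlinarith [g5]
  -- the best labelling
  have : Nonempty (Ω → L) := ⟨fun _ => none⟩
  obtain ⟨lab₀, hlab₀⟩ := Finite.exists_max (fun lab : Ω → L => ∑ z, R z (F' lab z))
  refine ⟨F' lab₀, hV lab₀, hrange lab₀, hEtot.trans ?_⟩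
  calc ∑ lab, w lab * ∑ z, R z (F' lab z) ≤ ∑ lab, w lab * ∑ z, R z (F' lab₀ z) :=
        Finset.sum_le_sum fun lab _ => mul_le_mul_of_nonneg_left (hlab₀ lab) (hw0 lab)
    _ = ∑ z, R z (F' lab₀ z) := by rw [← Finset.sum_mul, hw1, one_mul]

end Crest.Agent.KG
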