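import Crest.Agent.KG.Rnd3
import Crest.Agent.KG.Rnd_sup
import Crest.Agent.KG.Rnd_rep

set_option autoImplicit false

namespace Crest.Agent.KG

open Finset

/-- value of a bit -/
def bv (b : Bool) : ℝ := if b = true then 1 else 0

lemma bv_sq (b : Bool) : bv b ^ 2 = bv b := by cases b <;> simp [bv]
lemma bv_nonneg (b : Bool) : 0 ≤ bv b := by cases b <;> simp [bv]
lemma bv_le_one (b : Bool) : bv b ≤ 1 := by cases b <;> simp [bv]

lemma cnt_eq {m : ℕ} (x : Fin m → Bool) : (cnt x : ℝ) = ∑ i, bv (x i) := by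
  unfold cnt bv
  rw [Finset.card_filter]
  push_cast
  rfl

lemma cnt_sq {m : ℕ} (x : Fin m → Bool) :
    (cnt x : ℝ) ^ 2 = 2 * ∑ p : Pr m, bv (x p.1.1) * bv (x p.1.2) + cnt x := by
  rw [cnt_eq, pair_sum]
  simp only [bv_sq]

lemma cnt_le {m : ℕ} (x : Fin m → Bool) : (cnt x : ℝ) ≤ m := by
  have : cnt x ≤ m := by
    unfold cnt
    refine (Finset.card_filter_le _ _).trans ?_
    simp
  exact_mod_cast this

/-- the x-part and the y-part of a word -/
def xs {m b K : ℕ} (z : Om m b K) : Fin m → Bool := fun i => z (Sum.inl i)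
def ys {m b K : ℕ} (z : Om m b K) : Fin b → Fin K := fun j => z (Sum.inr j)

/-- a set of `b+2` coordinates containing all `y`'s and two given `x`'s -/
def DD {m b : ℕ} (i j : Fin m) : Finset (Fin m ⊕ Fin b) :=
  Finset.univ.map (Function.Embedding.inr) ∪ {Sum.inl i, Sum.inl j}

lemma DD_card {m b : ℕ} {i j : Fin m} (h : i ≠ j) : (DD (b := b) i j).card = b + 2 := by
  unfold DD
  rw [Finset.card_union_of_disjoint]
  · rw [Finset.card_map, Finset.card_univ, Fintype.card_fin, Finset.card_pair]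
    intro h'
    exact h (Sum.inl_injective h')
  · rw [Finset.disjoint_left]
    intro a ha hb
    rw [Finset.mem_map] at ha
    obtain ⟨c, _, rfl⟩ := ha
    simp at hb

lemma DD_inr {m b : ℕ} (i j : Fin m) (k : Fin b) : Sum.inr k ∈ DD (b := b) i j := by
  unfold DD
  rw [Finset.mem_union]
  left
  rw [Finset.mem_map]
  exact ⟨k, Finset.mem_univ _, rfl⟩

lemma DD_inl {m b : ℕ} (i j : Fin m) : Sum.inl i ∈ DD (b := b) i j := by
  unfold DD; simp

lemma DD_inl' {m b : ℕ} (i j : Fin m) : Sum.inl j ∈ DD (b := b) i j := by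
  unfold DD; simp

open Classical in
/-- indicator of `Y` -/
noncomputable def iY {b K : ℕ} (Y : Finset (Fin b → Fin K)) (y : Fin b → Fin K) : ℝ :=
  if y ∈ Y then 1 else 0

lemma iY_nonneg {b K : ℕ} (Y : Finset (Fin b → Fin K)) (y : Fin b → Fin K) : 0 ≤ iY Y y := by
  unfold iY; split_ifs <;> norm_num

lemma iY_le {b K : ℕ} (Y : Finset (Fin b → Fin K)) (y : Fin b → Fin K) : iY Y y ≤ 1 := by
  unfold iY; split_ifs <;> norm_num

section

variable {m b K : ℕ}

/-- positive profiles -/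
noncomputable def hfun (lam c0 : ℝ) (Y : Finset (Fin b → Fin K)) : Option (Pr m) → Om m b K → ℝ
  | none => fun z => lam * c0 ^ 2 * iY Y (ys z)
  | some p => fun z => 2 * lam * iY Y (ys z) * (bv (xs z p.1.1) * bv (xs z p.1.2))

noncomputable def gfun (lam c0 : ℝ) (Y : Finset (Fin b → Fin K)) (i : Fin m) : Om m b K → ℝ :=
  fun z => lam * (2 * c0 - 1) * iY Y (ys z) * bv (xs z i)

noncomputable def pfun (lam c0 : ℝ) (Y : Finset (Fin b → Fin K)) : Om m b K → ℝ :=
  fun z => lam * iY Y (ys z) * ((cnt (xs z) : ℝ) - c0) ^ 2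

lemma h_sum (lam c0 : ℝ) (Y : Finset (Fin b → Fin K)) (z : Om m b K) :
    ∑ j, hfun lam c0 Y j z = lam * iY Y (ys z) * ((cnt (xs z) : ℝ) ^ 2 - cnt (xs z) + c0 ^ 2) := by
  rw [Fintype.sum_option]
  show lam * c0 ^ 2 * iY Y (ys z) +
    ∑ p : Pr m, 2 * lam * iY Y (ys z) * (bv (xs z p.1.1) * bv (xs z p.1.2)) = _
  rw [← Finset.mul_sum, cnt_sq]
  ring

lemma hg_eq (lam c0 : ℝ) (Y : Finset (Fin b → Fin K)) (z : Om m b K) :
    ∑ j, hfun lam c0 Y j z = pfun lam c0 Y z + ∑ i, gfun lam c0 Y i z := by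
  rw [h_sum]
  have : ∑ i, gfun lam c0 Y i z = lam * (2 * c0 - 1) * iY Y (ys z) * cnt (xs z) := by
    rw [cnt_eq, Finset.mul_sum]
    rfl
  rw [this]
  unfold pfun
  ring

lemma ys_dep {D : Finset (Fin m ⊕ Fin b)} (hD : ∀ k : Fin b, Sum.inr k ∈ D) {z z' : Om m b K}
    (h : ∀ i ∈ D, z i = z' i) : ys z = ys z' := by
  funext k
  exact h _ (hD k)

end

/-- the reward of the first stage -/
noncomputable def rew {m b K : ℕ} {Q : Type} (M : ℝ)
    (J : (Fin m → Bool) → (Fin b → Fin K) → Q → ℝ) (q0 : Q) (z : Om m b K) (k : ℤ) : ℝ :=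
  if k = 0 then 0 else if k = 1 then J (xs z) (ys z) q0 else -M

theorem stage1 (m b K : ℕ) (hm : 3 ≤ m) (hK : 2 ≤ K)
    (c0 lam M : ℝ) (hc : 1 / 2 ≤ c0) (hl : 0 ≤ lam) (hl1 : lam * (c0 ^ 2 + (m : ℝ) ^ 2) ≤ 1)
    (hM0 : 0 ≤ M) (Y : Finset (Fin b → Fin K)) {Q : Type} [Fintype Q] (q0 : Q)
    (J : (Fin m → Bool) → (Fin b → Fin K) → Q → ℝ)
    (hM : ∀ x y, ∑ q, |J x y q| ≤ M) :
    ∃ F' : Om m b K → ℤ, (fun z => (F' z : ℝ)) ∈ (JD (b + 2) : Submodule ℝ (Om m b K → ℝ)) ∧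
      (∀ z, |F' z| ≤ ((m ^ 2 + 1 : ℕ) : ℤ)) ∧
      lam * (∑ x : Fin m → Bool, ∑ y ∈ Y, ((cnt x : ℝ) - c0) ^ 2 * J x y q0)
        - 4 * M * ((m : ℝ) ^ 2 + m + 1) * Real.sqrt (Aent m b K * (2 ^ m * (K : ℝ) ^ b))
      ≤ ∑ z : Om m b K, rew M J q0 z (F' z) := by
  classical
  obtain ⟨N, hN, hN'⟩ := exists_near (JD (b + 2) : Submodule ℝ (Om m b K → ℝ))
  have hJ0 : ∀ z : Om m b K, |J (xs z) (ys z) q0| ≤ M := by
    intro z
    refine le_trans ?_ (hM (xs z) (ys z))
    exact Finset.single_le_sum (f := fun q => |J (xs z) (ys z) q|) (fun q _ => abs_nonneg _)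
      (Finset.mem_univ q0)
  have hm' : (3 : ℝ) ≤ m := by exact_mod_cast hm
  have i0 : Fin m := ⟨0, by omega⟩
  have hle : ∀ z : Om m b K, ∑ j, hfun lam c0 Y j z ≤ 1 := by
    intro z
    rw [h_sum]
    have h1 := cnt_le (xs z)
    have h2 : (0 : ℝ) ≤ cnt (xs z) := Nat.cast_nonneg _
    have h3 : (cnt (xs z) : ℝ) ^ 2 ≤ (m : ℝ) ^ 2 := by nlinarith
    have h4 := iY_nonneg Y (ys z)
    have h5 := iY_le Y (ys z)
    have h6 : (0 : ℝ) ≤ (cnt (xs z) : ℝ) ^ 2 - cnt (xs z) + c0 ^ 2 := by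
      rw [cnt_sq]
      have : 0 ≤ ∑ p : Pr m, bv (xs z p.1.1) * bv (xs z p.1.2) :=
        Finset.sum_nonneg fun p _ => mul_nonneg (bv_nonneg _) (bv_nonneg _)
      nlinarith [sq_nonneg c0]
    calc lam * iY Y (ys z) * ((cnt (xs z) : ℝ) ^ 2 - cnt (xs z) + c0 ^ 2)
        ≤ lam * 1 * ((cnt (xs z) : ℝ) ^ 2 - cnt (xs z) + c0 ^ 2) := by
          refine mul_le_mul_of_nonneg_right ?_ h6
          exact mul_le_mul_of_nonneg_left h5 hl
      _ ≤ lam * (c0 ^ 2 + (m : ℝ) ^ 2) := by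
          rw [mul_one]
          refine mul_le_mul_of_nonneg_left ?_ hl
          linarith
      _ ≤ 1 := hl1
  have hh0 : ∀ j (z : Om m b K), 0 ≤ hfun lam c0 Y j z := by
    intro j z
    cases j with
    | none =>
      exact mul_nonneg (mul_nonneg hl (sq_nonneg _)) (iY_nonneg _ _)
    | some p =>
      exact mul_nonneg (mul_nonneg (mul_nonneg (by norm_num) hl) (iY_nonneg _ _))
        (mul_nonneg (bv_nonneg _) (bv_nonneg _))
  have hg0 : ∀ i (z : Om m b K), 0 ≤ gfun lam c0 Y i z := by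
    intro i z
    exact mul_nonneg (mul_nonneg (mul_nonneg hl (by linarith)) (iY_nonneg _ _)) (bv_nonneg _)
  have hp0 : ∀ z : Om m b K, 0 ≤ pfun lam c0 Y z := by
    intro z
    exact mul_nonneg (mul_nonneg hl (iY_nonneg _ _)) (sq_nonneg _)
  have hh1 : ∀ j (z : Om m b K), hfun lam c0 Y j z ≤ 1 := by
    intro j z
    refine le_trans ?_ (hle z)
    exact Finset.single_le_sum (f := fun j => hfun lam c0 Y j z) (fun j _ => hh0 j z)
      (Finset.mem_univ j)
  have hg1 : ∀ i (z : Om m b K), gfun lam c0 Y i z ≤ 1 := by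
    intro i z
    refine le_trans ?_ (hle z)
    rw [hg_eq]
    have := Finset.single_le_sum (f := fun i => gfun lam c0 Y i z) (fun i _ => hg0 i z)
      (Finset.mem_univ i)
    have h2 := hp0 z
    linarith
  set ε := 2 * Real.sqrt (aent m b K * (2 ^ m * (K : ℝ) ^ b)) with hε
  have hH : ∀ j, ∑ F : Om m b K → Bool, bw (hfun lam c0 Y j) F * (hd F (N F) : ℝ) ≤ ε := by
    intro j
    cases j with
    | none =>
      have h01 : (⟨0, by omega⟩ : Fin m) ≠ ⟨1, by omega⟩ := by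
        intro h; simp at h
      refine near_bound hm hK N hN hN' _ (hh0 none) (hh1 none)
        (DD ⟨0, by omega⟩ ⟨1, by omega⟩) (DD_card h01) (DD_inr _ _) ?_
      intro z z' h
      show lam * c0 ^ 2 * iY Y (ys z) = lam * c0 ^ 2 * iY Y (ys z')
      rw [ys_dep (DD_inr _ _) h]
    | some p =>
      refine near_bound hm hK N hN hN' _ (hh0 (some p)) (hh1 (some p))
        (DD p.1.1 p.1.2) (DD_card p.2.ne) (DD_inr _ _) ?_
      intro z z' h
      show 2 * lam * iY Y (ys z) * (bv (xs z p.1.1) * bv (xs z p.1.2))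
        = 2 * lam * iY Y (ys z') * (bv (xs z' p.1.1) * bv (xs z' p.1.2))
      have e1 : xs z p.1.1 = xs z' p.1.1 := h _ (DD_inl _ _)
      have e2 : xs z p.1.2 = xs z' p.1.2 := h _ (DD_inl' _ _)
      rw [ys_dep (DD_inr _ _) h, e1, e2]
  have hG : ∀ i, ∑ F : Om m b K → Bool, bw (gfun lam c0 Y i) F * (hd F (N F) : ℝ) ≤ ε := by
    intro i
    obtain ⟨j, hj⟩ : ∃ j : Fin m, i ≠ j := by
      by_cases h : i = ⟨0, by omega⟩
      · exact ⟨⟨1, by omega⟩, by rw [h]; intro h'; simp at h'⟩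
      · exact ⟨⟨0, by omega⟩, h⟩
    refine near_bound hm hK N hN hN' _ (hg0 i) (hg1 i)
        (DD i j) (DD_card hj) (DD_inr _ _) ?_
    intro z z' h
    show lam * (2 * c0 - 1) * iY Y (ys z) * bv (xs z i)
      = lam * (2 * c0 - 1) * iY Y (ys z') * bv (xs z' i)
    have e1 : xs z i = xs z' i := h _ (DD_inl _ _)
    rw [ys_dep (DD_inr _ _) h, e1]
  obtain ⟨F', hF1, hF2, hF3⟩ := sup_round (JD (b + 2) : Submodule ℝ (Om m b K → ℝ)) N hN
    (hfun lam c0 Y) (gfun lam c0 Y) (pfun lam c0 Y) hh0 hg0 hp0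
    (fun z => hg_eq lam c0 Y z) hle ε hH hG (rew M J q0) M
    (fun z => by simp [rew])
    (fun z k => by
      unfold rew
      split_ifs
      · simpa using hM0
      · exact hJ0 z
      · rw [abs_neg, abs_of_nonneg hM0]) hM0
  have hcard : (Fintype.card (Option (Pr m)) : ℝ) = ((m : ℝ) ^ 2 - m) / 2 + 1 := by
    rw [Fintype.card_option]
    push_cast
    have := card_Pr m
    linarith
  refine ⟨F', hF1, ?_, ?_⟩
  · intro z
    obtain ⟨h1, h2⟩ := hF2 z
    rw [Fintype.card_fin] at h1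
    have h3 : (Fintype.card (Option (Pr m)) : ℤ) ≤ ((m ^ 2 + 1 : ℕ) : ℤ) := by
      have : (Fintype.card (Option (Pr m)) : ℝ) ≤ ((m ^ 2 + 1 : ℕ) : ℝ) := by
        rw [hcard]; push_cast; nlinarith
      exact_mod_cast this
    have h4 : (m : ℤ) ≤ ((m ^ 2 + 1 : ℕ) : ℤ) := by
      push_cast; nlinarith
    rw [abs_le]
    constructor
    · linarith
    · linarith
  · refine le_trans ?_ hF3
    have e1 : ∑ z : Om m b K, pfun lam c0 Y z * rew M J q0 z 1
        = lam * (∑ x : Fin m → Bool, ∑ y ∈ Y, ((cnt x : ℝ) - c0) ^ 2 * J x y q0) := by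
      rw [← Equiv.sum_comp (omE m b K).symm, Fintype.sum_prod_type, Finset.mul_sum]
      refine Finset.sum_congr rfl fun x _ => ?_
      rw [Finset.mul_sum, ← Finset.sum_subset (Finset.subset_univ Y)]
      · refine Finset.sum_congr rfl fun y hy => ?_
        have ex : xs ((omE m b K).symm (x, y)) = x := rfl
        have ey : ys ((omE m b K).symm (x, y)) = y := rfl
        unfold pfun rew
        rw [ex, ey]
        unfold iY
        rw [if_pos hy, if_neg (by norm_num), if_pos rfl]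
        ring
      · intro y _ hy
        have ey : ys ((omE m b K).symm (x, y)) = y := rfl
        unfold pfun
        rw [ey]
        unfold iY
        rw [if_neg hy]
        ring
    rw [e1, hcard, Fintype.card_fin]
    have hA : aent m b K ≤ Aent m b K := by
      unfold aent Aent
      have hK' : (2 : ℝ) ≤ K := by exact_mod_cast hK
      have hS : 0 ≤ ∑ j ∈ Finset.range (m - 2), (Nat.choose b j : ℝ) * ((K : ℝ) - 1) ^ (b - j) := by
        refine Finset.sum_nonneg fun j _ => ?_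
        have : (0 : ℝ) ≤ (K : ℝ) - 1 := by linarith
        positivity
      refine mul_le_mul_of_nonneg_right ?_ hS
      refine mul_le_mul_of_nonneg_right ?_ (by positivity)
      refine mul_le_mul_of_nonneg_right ?_ (by positivity)
      linarith
    have hs : Real.sqrt (aent m b K * (2 ^ m * (K : ℝ) ^ b)) ≤
        Real.sqrt (Aent m b K * (2 ^ m * (K : ℝ) ^ b)) :=
      Real.sqrt_le_sqrt (mul_le_mul_of_nonneg_right hA (by positivity))
    have hs0 : 0 ≤ Real.sqrt (aent m b K * (2 ^ m * (K : ℝ) ^ b)) := Real.sqrt_nonneg _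
    have hfin : 2 * M * ((((m : ℝ) ^ 2 - m) / 2 + 1 + m) * ε) ≤
        4 * M * ((m : ℝ) ^ 2 + m + 1) * Real.sqrt (Aent m b K * (2 ^ m * (K : ℝ) ^ b)) := by
      rw [hε]
      have h1 : (((m : ℝ) ^ 2 - m) / 2 + 1 + m) ≤ (m : ℝ) ^ 2 + m + 1 := by nlinarith
      have h2 : 0 ≤ (((m : ℝ) ^ 2 - m) / 2 + 1 + m) := by nlinarith
      calc 2 * M * ((((m : ℝ) ^ 2 - m) / 2 + 1 + m) *
            (2 * Real.sqrt (aent m b K * (2 ^ m * (K : ℝ) ^ b))))
          = 4 * M * ((((m : ℝ) ^ 2 - m) / 2 + 1 + m) *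
            Real.sqrt (aent m b K * (2 ^ m * (K : ℝ) ^ b))) := by ring
        _ ≤ 4 * M * (((m : ℝ) ^ 2 + m + 1) *
            Real.sqrt (Aent m b K * (2 ^ m * (K : ℝ) ^ b))) := by
            refine mul_le_mul_of_nonneg_left ?_ (by linarith)
            exact mul_le_mul h1 hs hs0 (by nlinarith)
        _ = _ := by ring
    linarith

end Crest.Agent.KG
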