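import Crest.Agent.KG.Defs
import Crest.Agent.KG.Rnd4

/-! INTERFACE MODULE I (helper17): the rounding theorem with repair. -/

set_option autoImplicit false
open scoped BigOperators
open MeasureTheory

namespace Crest.Agent.KG

/-- letter map: `Fin K` to the alphabets of the two stages, `q`-letters compared with `q0` -/
def phiL {m b K r s : ℕ} (hK : 2 ≤ K) (q0 : Fin r × Fin s → Bool) :
    ∀ j : (Fin m ⊕ Fin b) ⊕ (Fin r × Fin s), Fin K → Sum.elim (A0 m b K) (fun _ => Bool) j
  | Sum.inl (Sum.inl _) => fun a => decide (a = (⟨0, by omega⟩ : Fin K))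
  | Sum.inl (Sum.inr _) => fun a => a
  | Sum.inr l => fun a => (decide (a = (⟨0, by omega⟩ : Fin K)) == q0 l)

/-- MODULE I output (L1-L4). `J x y q` is an arbitrary reward. -/
theorem round_gadget (m b K r : ℕ) (hm : 3 ≤ m) (hK : 2 ≤ K) (hr1 : 1 ≤ r)
    (hr : m ^ 2 + 1 ≤ r)
    (c0 lam M : ℝ) (hc : 1 / 2 ≤ c0) (hl : 0 ≤ lam) (hl1 : lam * (c0 ^ 2 + (m : ℝ) ^ 2) ≤ 1)
    (hM0 : 0 ≤ M) (Y : Finset (Fin b → Fin K)) (q0 : Fin r × Fin (m - 2) → Bool)
    (J : (Fin m → Bool) → (Fin b → Fin K) → (Fin r × Fin (m - 2) → Bool) → ℝ)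
    (hM : ∀ x y, ∑ q, |J x y q| ≤ M) :
    ∃ U : (Idx m b r → Fin K) → Bool,
      bR U ∈ (JD (Fintype.card (Idx m b r) - (m - 2)) :
        Submodule ℝ ((∀ _ : Idx m b r, Fin K) → ℝ)) ∧
      lam * (∑ x : Fin m → Bool, ∑ y ∈ Y, ((cnt x : ℝ) - c0) ^ 2 * J x y q0)
        - 4 * M * ((m : ℝ) ^ 2 + m + 1) * Real.sqrt (Aent m b K * (2 ^ m * (K : ℝ) ^ b))
      ≤ ∑ x : Fin m → Bool, ∑ y : Fin b → Fin K, ∑ q : Fin r × Fin (m - 2) → Bool,
          if U (emb hK x y q) then J x y q else 0 := by
  classical
  obtain ⟨F', hF1, hF2, hF3⟩ := stage1 m b K hm hK c0 lam M hc hl hl1 hM0 Y q0 J hM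
  obtain ⟨U0, hU0, hU1, hU2⟩ := repair (A := A0 m b K) r (m - 2) (by omega) (d := b + 2)
    (by simp; omega) F' hF1 (fun z => (hF2 z).trans (by exact_mod_cast hr))
  let dec : (Idx m b r → Fin K) → (∀ j : (Fin m ⊕ Fin b) ⊕ (Fin r × Fin (m - 2)),
      Sum.elim (A0 m b K) (fun _ => Bool) j) := fun w j => phiL hK q0 j (w j)
  let U : (Idx m b r → Fin K) → Bool := fun w =>
    U0 (fun i => dec w (Sum.inl i)) (fun j => dec w (Sum.inr j))
  refine ⟨U, ?_, ?_⟩
  · have h1 := comp_mem_JD (ι := Idx m b r) (A := fun _ => Fin K)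
      (κ := (Fin m ⊕ Fin b) ⊕ (Fin r × Fin (m - 2)))
      (B := Sum.elim (A0 m b K) (fun _ => Bool)) (fun j => j) (phiL hK q0) hU2
    have h2 : Fintype.card (Fin m ⊕ Fin b) + r * (m - 2) - (m - 2)
        = Fintype.card (Idx m b r) - (m - 2) := by
      simp [Idx]
    rw [h2] at h1
    exact h1
  · refine hF3.trans ?_
    rw [← Equiv.sum_comp (omE m b K).symm, Fintype.sum_prod_type]
    refine Finset.sum_le_sum fun x _ => Finset.sum_le_sum fun y _ => ?_
    set z : Om m b K := (omE m b K).symm (x, y) with hz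
    have ex : xs z = x := rfl
    have ey : ys z = y := rfl
    have hU : ∀ q, U (emb hK x y q) = U0 z (fun l => (q l == q0 l)) := by
      intro q
      show U0 (fun i => dec (emb hK x y q) (Sum.inl i)) (fun j => dec (emb hK x y q) (Sum.inr j)) = _
      congr 1
      · congr 1
        funext i
        rcases i with i | j
        · show decide ((if x i = true then (⟨0, by omega⟩ : Fin K) else ⟨1, by omega⟩)
            = (⟨0, by omega⟩ : Fin K)) = x i
          cases x i <;> simp
        · rfl
      · funext l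
        show (decide ((if q l = true then (⟨0, by omega⟩ : Fin K) else ⟨1, by omega⟩)
            = (⟨0, by omega⟩ : Fin K)) == q0 l) = (q l == q0 l)
        cases q l <;> simp
    have habs : ∀ q, |if U (emb hK x y q) = true then J x y q else 0| ≤ |J x y q| := by
      intro q
      split_ifs
      · exact le_rfl
      · rw [abs_zero]; exact abs_nonneg _
    have hlow : -M ≤ ∑ q : Fin r × Fin (m - 2) → Bool,
        if U (emb hK x y q) = true then J x y q else 0 := by
      have h3 : |∑ q : Fin r × Fin (m - 2) → Bool,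
          if U (emb hK x y q) = true then J x y q else 0| ≤ M :=
        (Finset.abs_sum_le_sum_abs _ _).trans
          ((Finset.sum_le_sum fun q _ => habs q).trans (hM x y))
      exact (abs_le.mp h3).1
    unfold rew
    rw [ex, ey]
    split_ifs with hk0 hk1
    · have : ∀ q, (if U (emb hK x y q) = true then J x y q else 0) = 0 := by
        intro q
        rw [hU q, hU0 z hk0]
        simp
      rw [Finset.sum_congr rfl (fun q _ => this q)]
      simp
    · have : ∀ q, (if U (emb hK x y q) = true then J x y q else 0)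
          = if q = q0 then J x y q else 0 := by
        intro q
        rw [hU q]
        have h4 := hU1 z hk1 (fun l => (q l == q0 l))
        have h5 : ((fun l => (q l == q0 l)) = fun _ => true) ↔ q = q0 := by
          constructor
          · intro h
            funext l
            have := congrFun h l
            simpa using this
          · rintro rfl
            funext l
            simp
        rw [h5] at h4
        by_cases hq : q = q0
        · rw [if_pos hq, if_pos (h4.mpr hq)]
        · rw [if_neg hq, if_neg (fun h => hq (h4.mp h))]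
      rw [Finset.sum_congr rfl (fun q _ => this q)]
      simp
    · exact hlow

end Crest.Agent.KG
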