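import Crest.Agent.KG.Defs

set_option autoImplicit false

namespace Crest.Agent.KG

open MeasureTheory ProbabilityTheory Filter Topology Set
open scoped Real ENNReal NNReal

namespace Quant

/-- standard normal density -/
noncomputable def gd (x : ℝ) : ℝ := gaussianPDFReal 0 1 x

lemma gd_eq (x : ℝ) : gd x = (√(2 * π))⁻¹ * Real.exp (-x ^ 2 / 2) := by
  simp [gd, gaussianPDFReal]

lemma gd_pos (x : ℝ) : 0 < gd x := gaussianPDFReal_pos _ _ _ one_ne_zero

lemma gd_hasDerivAt (x : ℝ) : HasDerivAt gd (-x * gd x) x := by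
  have h1 : HasDerivAt (fun x : ℝ => (√(2 * π))⁻¹ * Real.exp (-x ^ 2 / 2))
      ((√(2 * π))⁻¹ * (Real.exp (-x ^ 2 / 2) * (-(2 * x) / 2))) x := by
    have h2 : HasDerivAt (fun x : ℝ => -x ^ 2 / 2) (-(2 * x) / 2) x := by
      have := ((hasDerivAt_pow 2 x).neg).div_const 2
      simpa using this
    exact (h2.exp).const_mul _
  have h3 : gd = fun x : ℝ => (√(2 * π))⁻¹ * Real.exp (-x ^ 2 / 2) := by
    funext y; exact gd_eq y
  rw [h3]
  convert h1 using 1
  ring

lemma gd_continuous : Continuous gd := by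
  have h3 : gd = fun x : ℝ => (√(2 * π))⁻¹ * Real.exp (-x ^ 2 / 2) := by
    funext y; exact gd_eq y
  rw [h3]; fun_prop

lemma gd_neg (x : ℝ) : gd (-x) = gd x := by simp [gd_eq]

lemma gd_anti {a b : ℝ} (ha : 0 ≤ a) (hab : a ≤ b) : gd b ≤ gd a := by
  rw [gd_eq, gd_eq]
  have : a ^ 2 ≤ b ^ 2 := by nlinarith
  gcongr

lemma gd_abs_anti {x M : ℝ} (h : |x| ≤ M) : gd M ≤ gd x := by
  have h1 : gd x = gd |x| := by
    rw [gd_eq, gd_eq, sq_abs]
  rw [h1]
  exact gd_anti (abs_nonneg x) h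

/-- integrals against the normal law -/
lemma setInt_gam (s : Set ℝ) (hs : MeasurableSet s) (f : ℝ → ℝ) :
    ∫ x in s, f x ∂γ = ∫ x in s, gd x * f x := by
  have h1 : (γ.restrict s) = (volume.restrict s).withDensity (gaussianPDF 0 1) := by
    rw [γ, gaussianReal_of_var_ne_zero _ one_ne_zero, restrict_withDensity hs]
  rw [h1]
  have h2 : (gaussianPDF 0 1) = fun x => ENNReal.ofReal (gaussianPDFReal 0 1 x) := by
    funext x; rfl
  rw [h2, integral_withDensity_eq_integral_toReal_smul (by fun_prop)]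
  · apply integral_congr_ae
    refine Filter.Eventually.of_forall fun x => ?_
    simp only [smul_eq_mul]
    rw [ENNReal.toReal_ofReal (gaussianPDFReal_nonneg _ _ _)]
    rfl
  · exact Filter.Eventually.of_forall fun x => ENNReal.ofReal_lt_top

lemma intble_pow (n : ℕ) : Integrable (fun x : ℝ => x ^ n) γ := by
  have := (memLp_id_gaussianReal (μ := 0) (v := 1) (n : ℝ≥0))
  by_cases hn : n = 0
  · subst hn; simp
  · have h := this.integrable_norm_pow (by exact_mod_cast hn)
    have h2 : Integrable (fun x : ℝ => ‖x ^ n‖) γ := by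
      simpa [norm_pow] using h
    exact (integrable_norm_iff (by fun_prop)).1 h2

lemma intble_gd_pow (n : ℕ) : Integrable (fun x : ℝ => gd x * x ^ n) := by
  have h := intble_pow n
  rw [γ, gaussianReal_of_var_ne_zero _ one_ne_zero] at h
  have h2 : (gaussianPDF 0 1) = fun x => ENNReal.ofReal (gaussianPDFReal 0 1 x) := by
    funext x; rfl
  rw [h2, integrable_withDensity_iff_integrable_smul' (by fun_prop)
    (Filter.Eventually.of_forall fun x => ENNReal.ofReal_lt_top)] at h
  refine h.congr (Filter.Eventually.of_forall fun x => ?_)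
  simp only [smul_eq_mul]
  rw [ENNReal.toReal_ofReal (gaussianPDFReal_nonneg _ _ _)]
  rfl

lemma measReal (s : Set ℝ) (hs : MeasurableSet s) : (γ s).toReal = ∫ x in s, gd x := by
  have := setInt_gam s hs (fun _ => 1)
  simp at this
  rw [← this]; rfl

/-- tail -/
noncomputable def G (a : ℝ) : ℝ := (γ (Ioi a)).toReal

lemma G_eq (a : ℝ) : G a = ∫ x in Ioi a, gd x := measReal _ measurableSet_Ioi

lemma intble_gd : Integrable gd := by simpa using intble_gd_pow 0
lemma intble_gd1 : Integrable (fun x => gd x * x) := by simpa using intble_gd_pow 1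

lemma int_x_gd (a : ℝ) : ∫ x in Ioi a, gd x * x = gd a := by
  have h0 : Tendsto gd atTop (𝓝 0) := by
    refine tendsto_zero_of_hasDerivAt_of_integrableOn_Ioi (a := 0) (f' := fun x => -x * gd x)
      (fun x _ => gd_hasDerivAt x) ?_ intble_gd.integrableOn
    have := (intble_gd1.neg).integrableOn (s := Ioi (0:ℝ))
    refine this.congr (Filter.Eventually.of_forall fun x => ?_)
    simp; ring
  have h1 := integral_Ioi_of_hasDerivAt_of_tendsto' (a := a) (f := gd) (f' := fun x => -x * gd x)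
    (fun x _ => gd_hasDerivAt x) (by
      have := (intble_gd1.neg).integrableOn (s := Ioi (a:ℝ))
      refine this.congr (Filter.Eventually.of_forall fun x => ?_)
      simp; ring) h0
  have h2 : ∫ x in Ioi a, -x * gd x = -∫ x in Ioi a, gd x * x := by
    rw [← integral_neg]; congr 1; funext x; ring
  rw [h2] at h1
  linarith

lemma mills (a : ℝ) : a * G a ≤ gd a := by
  rw [G_eq, ← int_x_gd a, ← integral_const_mul]
  refine setIntegral_mono_on ?_ intble_gd1.integrableOn measurableSet_Ioi ?_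
  · exact (intble_gd.const_mul a).integrableOn
  · intro x hx
    have := gd_pos x
    have : a < x := hx
    nlinarith

lemma intble_gd_poly (c0 c1 c2 c3 : ℝ) :
    Integrable (fun x => gd x * (c0 + c1 * x + c2 * x ^ 2 + c3 * x ^ 3)) := by
  have h := (((intble_gd_pow 0).const_mul c0).add ((intble_gd_pow 1).const_mul c1)).add
    (((intble_gd_pow 2).const_mul c2).add ((intble_gd_pow 3).const_mul c3))
  refine h.congr (Filter.Eventually.of_forall fun x => ?_)
  simp only [Pi.add_apply]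
  ring

lemma tail2 (a : ℝ) (ha : 0 < a) :
    a ^ 2 * (∫ x in Ioi a, gd x * (x - a) ^ 2) ≤ 2 * G a := by
  have i1 : Integrable (fun x => gd x * (x - a)) := by
    refine (intble_gd_poly (-a) 1 0 0).congr (Filter.Eventually.of_forall fun x => ?_)
    simp only []; ring
  have i2 : Integrable (fun x => gd x * (x - a) ^ 2) := by
    refine (intble_gd_poly (a ^ 2) (-2 * a) 1 0).congr (Filter.Eventually.of_forall fun x => ?_)
    simp only []; ring
  have i3 : Integrable (fun x => gd x * ((x - a) * x)) := by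
    refine (intble_gd_poly 0 (-a) 1 0).congr (Filter.Eventually.of_forall fun x => ?_)
    simp only []; ring
  have i4 : Integrable (fun x => gd x * ((x - a) ^ 2 * x)) := by
    refine (intble_gd_poly 0 (a ^ 2) (-2 * a) 1).congr (Filter.Eventually.of_forall fun x => ?_)
    simp only []; ring
  -- first integration by parts
  have e1 : ∫ x in Ioi a, gd x * ((x - a) * x) = G a := by
    have hd : ∀ x : ℝ, HasDerivAt (fun x => -(gd x * (x - a))) (gd x * ((x - a) * x) - gd x) x := by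
      intro x
      have h := ((gd_hasDerivAt x).mul ((hasDerivAt_id x).sub_const a)).neg
      have h' : HasDerivAt (fun x => -(gd x * (x - a))) (-(-x * gd x * (x - a) + gd x * 1)) x := h
      refine h'.congr_deriv ?_
      ring
    have hint : Integrable (fun x => gd x * ((x - a) * x) - gd x) := i3.sub intble_gd
    have h0 : Tendsto (fun x => -(gd x * (x - a))) atTop (𝓝 0) :=
      tendsto_zero_of_hasDerivAt_of_integrableOn_Ioi (a := a) (fun x _ => hd x)
        hint.integrableOn i1.neg.integrableOn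
    have h1 := integral_Ioi_of_hasDerivAt_of_tendsto' (a := a) (fun x _ => hd x)
      hint.integrableOn h0
    rw [integral_sub i3.integrableOn intble_gd.integrableOn, ← G_eq] at h1
    simp at h1
    linarith
  have e2 : ∫ x in Ioi a, gd x * ((x - a) ^ 2 * x) = 2 * ∫ x in Ioi a, gd x * (x - a) := by
    have hd : ∀ x : ℝ, HasDerivAt (fun x => -(gd x * (x - a) ^ 2))
        (gd x * ((x - a) ^ 2 * x) - 2 * (gd x * (x - a))) x := by
      intro x
      have h := ((gd_hasDerivAt x).mul (((hasDerivAt_id x).sub_const a).pow 2)).neg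
      have h' : HasDerivAt (fun x => -(gd x * (x - a) ^ 2))
        (-(-x * gd x * (x - a) ^ 2 + gd x * ((2 : ℕ) * (x - a) ^ (2 - 1) * 1))) x := h
      refine h'.congr_deriv ?_
      push_cast
      ring
    have hint : Integrable (fun x => gd x * ((x - a) ^ 2 * x) - 2 * (gd x * (x - a))) :=
      i4.sub (i1.const_mul 2)
    have h0 : Tendsto (fun x => -(gd x * (x - a) ^ 2)) atTop (𝓝 0) :=
      tendsto_zero_of_hasDerivAt_of_integrableOn_Ioi (a := a) (fun x _ => hd x)
        hint.integrableOn i2.neg.integrableOn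
    have h1 := integral_Ioi_of_hasDerivAt_of_tendsto' (a := a) (fun x _ => hd x)
      hint.integrableOn h0
    rw [integral_sub i4.integrableOn (i1.const_mul 2).integrableOn, integral_const_mul] at h1
    simp at h1
    linarith
  have e3 : a * (∫ x in Ioi a, gd x * (x - a) ^ 2) ≤ ∫ x in Ioi a, gd x * ((x - a) ^ 2 * x) := by
    rw [← integral_const_mul]
    refine setIntegral_mono_on (i2.const_mul a).integrableOn i4.integrableOn measurableSet_Ioi ?_
    intro x hx
    have h1 := gd_pos x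
    have h2 : a < x := hx
    have h3 : 0 ≤ gd x * (x - a) ^ 2 := by positivity
    nlinarith
  have e4 : a * (∫ x in Ioi a, gd x * (x - a)) ≤ ∫ x in Ioi a, gd x * ((x - a) * x) := by
    rw [← integral_const_mul]
    refine setIntegral_mono_on (i1.const_mul a).integrableOn i3.integrableOn measurableSet_Ioi ?_
    intro x hx
    have h1 := gd_pos x
    have h2 : a < x := hx
    have h3 : 0 ≤ gd x * (x - a) := mul_nonneg h1.le (by linarith)
    nlinarith
  calc a ^ 2 * (∫ x in Ioi a, gd x * (x - a) ^ 2)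
      = a * (a * (∫ x in Ioi a, gd x * (x - a) ^ 2)) := by ring
    _ ≤ a * (∫ x in Ioi a, gd x * ((x - a) ^ 2 * x)) := by gcongr
    _ = 2 * (a * (∫ x in Ioi a, gd x * (x - a))) := by rw [e2]; ring
    _ ≤ 2 * (∫ x in Ioi a, gd x * ((x - a) * x)) := by gcongr
    _ = 2 * G a := by rw [e1]

lemma G_anti {a b : ℝ} (h : a ≤ b) : G b ≤ G a := by
  apply ENNReal.toReal_mono (measure_ne_top _ _)
  exact measure_mono (Ioi_subset_Ioi h)

lemma G_le_one (a : ℝ) : G a ≤ 1 := by
  have : (γ (Ioi a)) ≤ 1 := prob_le_one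
  have := ENNReal.toReal_mono (by simp) this
  simpa [G] using this

instance : NullSingletonClass γ := nullSingletonClass_gaussianReal one_ne_zero

/-- `γ (Ioc a b) ≥ (b-a) gd M` when `|x| ≤ M` on it -/
lemma width_le {a b M : ℝ} (hab : a ≤ b) (ha : |a| ≤ M) (hb : |b| ≤ M) :
    (b - a) * gd M ≤ (γ (Ico a b)).toReal := by
  rw [measReal _ measurableSet_Ico]
  have h1 : ∫ x in Ico a b, gd M = (b - a) * gd M := by
    simp [hab]
  rw [← h1]
  refine setIntegral_mono_on (integrableOn_const (by simp)) intble_gd.integrableOn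
    measurableSet_Ico ?_
  intro x hx
  apply gd_abs_anti
  rw [abs_le] at ha hb ⊢
  constructor
  · linarith [hx.1]
  · linarith [hx.2]

lemma G_lower (a : ℝ) (ha : 0 ≤ a) : Real.exp (-a ^ 2 - 3) ≤ G a := by
  have h1 : (a + 1 - a) * gd (a + 1) ≤ (γ (Ico a (a + 1))).toReal :=
    width_le (by linarith) (by rw [abs_of_nonneg ha]; linarith)
      (by rw [abs_of_nonneg (by linarith)])
  have h2 : (γ (Ico a (a + 1))).toReal ≤ G a := by
    apply ENNReal.toReal_mono (measure_ne_top _ _)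
    have : γ (Ioi a) = γ (Ici a) := measure_congr Ioi_ae_eq_Ici
    rw [this]
    exact measure_mono Ico_subset_Ici_self
  have h3 : Real.exp (-a ^ 2 - 3) ≤ gd (a + 1) := by
    rw [gd_eq]
    have h4 : √(2 * π) ≤ Real.exp 1 := by
      have : √(2 * π) ≤ √(2.7 ^ 2) := by
        apply Real.sqrt_le_sqrt
        have := Real.pi_lt_d2
        norm_num; linarith
      rw [Real.sqrt_sq (by norm_num)] at this
      have := Real.exp_one_gt_d9
      linarith
    have h5 : Real.exp (-1) ≤ (√(2 * π))⁻¹ := by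
      rw [Real.exp_neg]
      apply inv_anti₀ (by positivity) h4
    calc Real.exp (-a ^ 2 - 3) ≤ Real.exp (-1 + -(a + 1) ^ 2 / 2) := by
          apply Real.exp_le_exp.2
          nlinarith [sq_nonneg (a - 1)]
      _ = Real.exp (-1) * Real.exp (-(a + 1) ^ 2 / 2) := Real.exp_add _ _
      _ ≤ _ := by gcongr
  linarith [h1, h2, h3]

/-- distribution function -/
noncomputable def F (a : ℝ) : ℝ := (γ (Iio a)).toReal

lemma F_add_G (a : ℝ) : F a + G a = 1 := by
  have h1 : γ (Ioi a) = γ (Ici a) := measure_congr Ioi_ae_eq_Ici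
  have h2 : γ (Iio a) + γ (Ici a) = 1 := by
    have := measure_add_measure_compl (μ := γ) (s := Iio a) measurableSet_Iio
    rw [compl_Iio] at this
    rw [this]; simp
  rw [F, G, h1, ← ENNReal.toReal_add (measure_ne_top _ _) (measure_ne_top _ _), h2]
  simp

lemma map_neg_gam : γ.map (fun x => -x) = γ := by
  have := gaussianReal_map_neg (μ := 0) (v := 1)
  simpa using this

lemma F_eq_G_neg (a : ℝ) : F a = G (-a) := by
  have h : γ (Iio a) = γ (Ioi (-a)) := by
    conv_lhs => rw [← map_neg_gam]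
    rw [Measure.map_apply (by fun_prop) measurableSet_Iio]
    congr 1
    ext x
    simp
  rw [F, G, h]

lemma Ico_toReal {a b : ℝ} (h : a ≤ b) : (γ (Ico a b)).toReal = F b - F a := by
  have h2 : γ (Iio a) + γ (Ico a b) = γ (Iio b) := by
    rw [← measure_union _ measurableSet_Ico, Iio_union_Ico_eq_Iio h]
    rw [Set.disjoint_left]
    intro x hx hx'
    exact absurd hx'.1 (not_le.2 hx)
  have h3 := congrArg ENNReal.toReal h2
  rw [ENNReal.toReal_add (measure_ne_top _ _) (measure_ne_top _ _)] at h3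
  rw [F, F]
  linarith

lemma gd_le_one (x : ℝ) : gd x ≤ 1 := by
  rw [gd_eq]
  have h1 : (√(2 * π))⁻¹ ≤ 1 := by
    apply inv_le_one_of_one_le₀
    rw [Real.one_le_sqrt]
    linarith [Real.pi_gt_three]
  have h2 : Real.exp (-x ^ 2 / 2) ≤ 1 := by
    rw [Real.exp_le_one_iff]
    have := sq_nonneg x
    linarith
  calc _ ≤ (1 : ℝ) * 1 := by gcongr
    _ = 1 := by ring

lemma F_lip {a b : ℝ} (h : a ≤ b) : F b - F a ≤ b - a := by
  rw [← Ico_toReal h, measReal _ measurableSet_Ico]
  have h1 : ∫ x in Ico a b, (1 : ℝ) = b - a := by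
    simp [h]
  rw [← h1]
  refine setIntegral_mono_on intble_gd.integrableOn (integrableOn_const (by simp))
    measurableSet_Ico ?_
  intro x _
  exact gd_le_one x

lemma F_strictMono : StrictMono F := by
  intro a b h
  have h1 : (b - a) * gd (max |a| |b|) ≤ (γ (Ico a b)).toReal :=
    width_le h.le (le_max_left _ _) (le_max_right _ _)
  rw [Ico_toReal h.le] at h1
  have := gd_pos (max |a| |b|)
  have : 0 < (b - a) * gd (max |a| |b|) := mul_pos (by linarith) this
  linarith

lemma F_continuous : Continuous F := by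
  have : LipschitzWith 1 F := by
    apply LipschitzWith.of_dist_le_mul
    intro x y
    simp only [NNReal.coe_one, one_mul, Real.dist_eq]
    rcases le_total x y with h | h
    · have h1 := F_lip h
      have h2 := F_strictMono.monotone h
      rw [abs_sub_comm, abs_of_nonneg (by linarith), abs_sub_comm, abs_of_nonneg (by linarith)]
      exact h1
    · have h1 := F_lip h
      have h2 := F_strictMono.monotone h
      rw [abs_of_nonneg (by linarith), abs_of_nonneg (by linarith)]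
      exact h1
  exact this.continuous

lemma exists_quantile (p : ℝ) (h0 : 0 < p) (h1 : p < 1) : ∃ c, F c = p := by
  have key : ∀ q : ℝ, 0 < q → G (1 / q) ≤ q := by
    intro q hq
    have h2 := mills (1 / q)
    have h3 := gd_le_one (1 / q)
    have h4 : 1 / q * G (1 / q) ≤ 1 := h2.trans h3
    rw [one_div, inv_mul_le_iff₀ hq] at h4
    simpa using h4
  have : p ∈ range F := by
    apply mem_range_of_exists_le_of_exists_ge F_continuous
    · refine ⟨-(1 / p), ?_⟩
      rw [F_eq_G_neg, neg_neg]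
      exact key p h0
    · refine ⟨1 / (1 - p), ?_⟩
      have h2 := key (1 - p) (by linarith)
      have h3 := F_add_G (1 / (1 - p))
      linarith
  exact this

/-- quantiles -/
noncomputable def qt (p : ℝ) : ℝ := if h : 0 < p ∧ p < 1 then (exists_quantile p h.1 h.2).choose else 0

lemma F_qt {p : ℝ} (h0 : 0 < p) (h1 : p < 1) : F (qt p) = p := by
  rw [qt, dif_pos ⟨h0, h1⟩]
  exact (exists_quantile p h0 h1).choose_spec

/-- the cell map -/
noncomputable def cellFn (K : ℕ) (hK : 2 ≤ K) (x : ℝ) : Fin K :=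
  ⟨min ⌊(K : ℝ) * F x⌋₊ (K - 1), by omega⟩

lemma F_nonneg (x : ℝ) : 0 ≤ F x := ENNReal.toReal_nonneg

lemma le_cellFn {K : ℕ} (hK : 2 ≤ K) (k : ℕ) (h1 : 1 ≤ k) (h2 : k ≤ K - 1) (x : ℝ) :
    k ≤ (cellFn K hK x).val ↔ qt (k / K) ≤ x := by
  have hKp : (0 : ℝ) < K := by exact_mod_cast (by omega : 0 < K)
  have hkK : (k : ℝ) < K := by exact_mod_cast (by omega : k < K)
  have hk0 : (0 : ℝ) < k := by exact_mod_cast (by omega : 0 < k)
  have hq : F (qt (k / K)) = k / K := F_qt (by positivity) (by rw [div_lt_one hKp]; exact hkK)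
  rw [← F_strictMono.le_iff_le, hq, div_le_iff₀ hKp]
  simp only [cellFn, le_min_iff, h2, and_true]
  rw [Nat.le_floor_iff (mul_nonneg hKp.le (F_nonneg x)), mul_comm]

lemma cell_zero {K : ℕ} (hK : 2 ≤ K) (a : Fin K) (ha : a.val = 0) :
    {x | cellFn K hK x = a} = Iio (qt (((1 : ℕ) : ℝ) / K)) := by
  ext x
  have h1 := le_cellFn hK 1 le_rfl (by omega) x
  simp only [mem_ofPred_eq, mem_Iio, Fin.ext_iff, ha]
  rw [← not_le, ← h1]
  omega

lemma cell_last {K : ℕ} (hK : 2 ≤ K) (a : Fin K) (ha : a.val = K - 1) :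
    {x | cellFn K hK x = a} = Ici (qt (((K - 1 : ℕ) : ℝ) / K)) := by
  ext x
  have h1 := le_cellFn hK (K - 1) (by omega) le_rfl x
  simp only [mem_ofPred_eq, mem_Ici, Fin.ext_iff, ha]
  rw [← h1]
  have := (cellFn K hK x).isLt
  omega

lemma cell_mid {K : ℕ} (hK : 2 ≤ K) (a : Fin K) (h1 : 1 ≤ a.val) (h2 : a.val + 1 ≤ K - 1) :
    {x | cellFn K hK x = a} = Ico (qt ((a.val : ℝ) / K)) (qt (((a.val + 1 : ℕ) : ℝ) / K)) := by
  ext x
  have h3 := le_cellFn hK a.val (by omega) (by omega) x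
  have h4 := le_cellFn hK (a.val + 1) (by omega) (by omega) x
  simp only [mem_ofPred_eq, mem_Ico, Fin.ext_iff]
  rw [← h3, ← not_le (a := qt _) (b := x), ← h4]
  omega

lemma cell_cases {K : ℕ} (hK : 2 ≤ K) (a : Fin K) :
    (a.val = 0) ∨ (a.val = K - 1) ∨ (1 ≤ a.val ∧ a.val + 1 ≤ K - 1) := by
  have := a.isLt
  omega

lemma cell_meas {K : ℕ} (hK : 2 ≤ K) (a : Fin K) : MeasurableSet {x | cellFn K hK x = a} := by
  rcases cell_cases hK a with h | h | h
  · rw [cell_zero hK a h]; exact measurableSet_Iio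
  · rw [cell_last hK a h]; exact measurableSet_Ici
  · rw [cell_mid hK a h.1 h.2]; exact measurableSet_Ico

lemma qt_mono {p q : ℝ} (h0 : 0 < p) (h : p < q) (h1 : q < 1) : qt p < qt q := by
  rw [← F_strictMono.lt_iff_lt, F_qt h0 (h.trans h1), F_qt (h0.trans h) h1]
  exact h

lemma qt_succ {K : ℕ} (k : ℕ) (h1 : 1 ≤ k) (h2 : k + 1 ≤ K - 1) :
    qt ((k : ℝ) / K) < qt (((k + 1 : ℕ) : ℝ) / K) := by
  have hKp : (0 : ℝ) < K := by exact_mod_cast (by omega : 0 < K)
  have h3 : ((k + 1 : ℕ) : ℝ) < K := by exact_mod_cast (by omega : k + 1 < K)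
  have h4 : (0 : ℝ) < k := by exact_mod_cast (by omega : 0 < k)
  refine (qt_mono (by positivity) ?_ (by rw [div_lt_one hKp]; exact h3))
  apply div_lt_div_of_pos_right _ hKp
  push_cast; linarith

lemma cell_frontier {K : ℕ} (hK : 2 ≤ K) (a : Fin K) : γ (frontier {x | cellFn K hK x = a}) = 0 := by
  rcases cell_cases hK a with h | h | h
  · rw [cell_zero hK a h, frontier_Iio]; simp
  · rw [cell_last hK a h, frontier_Ici]; simp
  · rw [cell_mid hK a h.1 h.2, frontier_Ico (qt_succ _ h.1 h.2)]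
    refine (Set.toFinite _).measure_zero _

lemma cell_prob {K : ℕ} (hK : 2 ≤ K) (a : Fin K) :
    (γ {x | cellFn K hK x = a}).toReal = 1 / K := by
  have hKp : (0 : ℝ) < K := by exact_mod_cast (by omega : 0 < K)
  have hq : ∀ k : ℕ, 1 ≤ k → k ≤ K - 1 → F (qt ((k : ℝ) / K)) = k / K := by
    intro k h1 h2
    have h3 : (k : ℝ) < K := by exact_mod_cast (by omega : k < K)
    have h4 : (0 : ℝ) < k := by exact_mod_cast (by omega : 0 < k)
    exact F_qt (by positivity) (by rw [div_lt_one hKp]; exact h3)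
  rcases cell_cases hK a with h | h | h
  · rw [cell_zero hK a h]
    have := hq 1 le_rfl (by omega)
    rw [F] at this
    rw [this]; simp
  · rw [cell_last hK a h]
    have h1 := F_add_G (qt (((K - 1 : ℕ) : ℝ) / K))
    rw [hq (K - 1) (by omega) le_rfl] at h1
    have h2 : γ (Ioi (qt (((K - 1 : ℕ) : ℝ) / K))) = γ (Ici (qt (((K - 1 : ℕ) : ℝ) / K))) :=
      measure_congr Ioi_ae_eq_Ici
    rw [G, h2] at h1
    have h3 : (((K - 1 : ℕ) : ℝ) / K) = 1 - 1 / K := by
      rw [Nat.cast_sub (by omega)]; field_simp; simp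
    rw [h3] at h1 ⊢
    linarith
  · rw [cell_mid hK a h.1 h.2, Ico_toReal, hq _ (by omega) (by omega), hq _ (by omega) (by omega)]
    · push_cast; field_simp; ring
    · exact (qt_succ _ h.1 h.2).le

/-- the variance mass bound -/
lemma var_le {K : ℕ} (hK : 2 ≤ K) (s : Set ℝ) (_hs : MeasurableSet s)
    (hp : (γ s).toReal = 1 / K) (r : ℝ) :
    K * (∫ x in s, x ^ 2 ∂γ) - (K * ∫ x in s, x ∂γ) ^ 2 ≤ K * ∫ x in s, (x - r) ^ 2 ∂γ := by
  have hKp : (0 : ℝ) < K := by exact_mod_cast (by omega : 0 < K)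
  have i1 : Integrable (fun x : ℝ => x) (γ.restrict s) := by
    simpa using (intble_pow 1).restrict (s := s)
  have i2 : Integrable (fun x : ℝ => x ^ 2) (γ.restrict s) := (intble_pow 2).restrict
  have e : ∫ x in s, (x - r) ^ 2 ∂γ
      = (∫ x in s, x ^ 2 ∂γ) - 2 * r * (∫ x in s, x ∂γ) + r ^ 2 * (1 / K) := by
    have e1 : (fun x : ℝ => (x - r) ^ 2) = fun x => (x ^ 2 - 2 * r * x) + r ^ 2 := by
      funext x; ring
    have i3 : Integrable (fun x : ℝ => 2 * r * x) (γ.restrict s) := i1.const_mul _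
    have i4 : Integrable (fun x : ℝ => x ^ 2 - 2 * r * x) (γ.restrict s) := i2.sub i3
    rw [e1, integral_add i4 (integrable_const _), integral_sub i2 i3, integral_const_mul]
    simp only [integral_const, smul_eq_mul, measureReal_restrict_apply_univ]
    rw [Measure.real, hp]
    ring
  rw [e]
  have h := sq_nonneg (K * (∫ x in s, x ∂γ) - r)
  have h2 : (K : ℝ) * (r ^ 2 * (1 / K)) = r ^ 2 := by field_simp
  nlinarith [h, h2]

/-- first bound for interior cells -/
lemma var_mid {K : ℕ} (hK : 2 ≤ K) (s : Set ℝ) (hs : MeasurableSet s)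
    (hp : (γ s).toReal = 1 / K) (a b : ℝ) (hsub : s ⊆ Ico a b) (hab : a ≤ b) :
    K * (∫ x in s, x ^ 2 ∂γ) - (K * ∫ x in s, x ∂γ) ^ 2 ≤ (b - a) ^ 2 := by
  have hKp : (0 : ℝ) < K := by exact_mod_cast (by omega : 0 < K)
  refine (var_le hK s hs hp a).trans ?_
  have h1 : ∫ x in s, (x - a) ^ 2 ∂γ ≤ ∫ x in s, (b - a) ^ 2 ∂γ := by
    refine setIntegral_mono_on ?_ (integrableOn_const (measure_ne_top _ _)) hs ?_
    · have : (fun x : ℝ => (x - a) ^ 2) = fun x => (x ^ 2 - 2 * a * x) + a ^ 2 := by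
        funext x; ring
      rw [this]
      have i1 : Integrable (fun x : ℝ => x) γ := by simpa using (intble_pow 1)
      exact (((intble_pow 2).sub (i1.const_mul _)).add (integrable_const _)).integrableOn
    · intro x hx
      have := hsub hx
      have h2 : 0 ≤ x - a := by linarith [this.1]
      have h3 : x - a ≤ b - a := by linarith [this.2]
      nlinarith
  have h2 : ∫ x in s, (b - a) ^ 2 ∂γ = (b - a) ^ 2 * (1 / K) := by
    simp only [integral_const, smul_eq_mul, measureReal_restrict_apply_univ]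
    rw [Measure.real, hp]
    ring
  rw [h2] at h1
  calc (K : ℝ) * ∫ x in s, (x - a) ^ 2 ∂γ ≤ K * ((b - a) ^ 2 * (1 / K)) := by gcongr
    _ = (b - a) ^ 2 := by field_simp

lemma G_le_three_gd (M : ℝ) (hM : 0 ≤ M) : G M ≤ 3 * gd M := by
  by_cases h : 1 / 3 ≤ M
  · have h1 := mills M
    have h2 : 0 ≤ G M := ENNReal.toReal_nonneg
    nlinarith
  · have h1 : gd (1 / 3) ≤ gd M := gd_anti hM (by linarith)
    have h2 : G M ≤ 1 := G_le_one M
    have h3 : (1 : ℝ) / 3 ≤ gd (1 / 3) := by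
      rw [gd_eq]
      have h4 : √(2 * π) ≤ 2.6 := by
        have : √(2 * π) ≤ √(2.6 ^ 2) := by
          apply Real.sqrt_le_sqrt
          have := Real.pi_lt_d2
          norm_num; linarith
        rwa [Real.sqrt_sq (by norm_num)] at this
      have h5 : (1 / 2.6 : ℝ) ≤ (√(2 * π))⁻¹ := by
        rw [one_div]
        exact inv_anti₀ (by positivity) h4
      have h6 : (-(1 / 3 : ℝ) ^ 2 / 2) + 1 ≤ Real.exp (-(1 / 3 : ℝ) ^ 2 / 2) :=
        Real.add_one_le_exp _
      calc (1 : ℝ) / 3 ≤ (1 / 2.6) * ((-(1 / 3 : ℝ) ^ 2 / 2) + 1) := by norm_num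
        _ ≤ (√(2 * π))⁻¹ * Real.exp (-(1 / 3 : ℝ) ^ 2 / 2) := by
            apply mul_le_mul h5 h6 (by norm_num) (by positivity)
    linarith

/-- bound of a squared width -/
noncomputable def Bd (K j : ℕ) : ℝ := 18 * (1 + Real.log j) / (j ^ 2 * Real.log K)

lemma width_core {K : ℕ} (hK : 2 ≤ K) (hlog : 12 ≤ Real.log K) (j : ℕ) (hj : 1 ≤ j) (M w : ℝ)
    (hM : 0 ≤ M) (hG : G M = j / K) (hw : 0 ≤ w) (hwg : w * gd M ≤ 1 / K) :
    w ^ 2 ≤ Bd K j := by
  have hKp : (0 : ℝ) < K := by exact_mod_cast (by omega : 0 < K)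
  have hjp : (0 : ℝ) < j := by exact_mod_cast (by omega : 0 < j)
  have hj1 : (1 : ℝ) ≤ j := by exact_mod_cast hj
  have hlj : 0 ≤ Real.log j := Real.log_nonneg hj1
  have h3 := G_le_three_gd M hM
  have hm := mills M
  rw [hG] at h3 hm
  have a1 : w * j ≤ 3 := by
    have : w * (j / K) ≤ 3 / K := by
      calc w * (j / K) ≤ w * (3 * gd M) := by gcongr
        _ = 3 * (w * gd M) := by ring
        _ ≤ 3 * (1 / K) := by gcongr
        _ = 3 / K := by ring
    have h4 : w * (j / K) = (w * j) / K := by ring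
    rw [h4, div_le_div_iff_of_pos_right hKp] at this
    exact this
  have a2 : M * (w * j) ≤ 1 := by
    have : w * (M * (j / K)) ≤ 1 / K := by
      calc w * (M * (j / K)) ≤ w * gd M := by gcongr
        _ ≤ 1 / K := hwg
    have h4 : w * (M * (j / K)) = (M * (w * j)) / K := by ring
    rw [h4, div_le_div_iff_of_pos_right hKp] at this
    exact this
  have a3 : Real.log K - Real.log j - 3 ≤ M ^ 2 := by
    have h5 := G_lower M hM
    rw [hG, ← Real.le_log_iff_exp_le (by positivity), Real.log_div hjp.ne' hKp.ne'] at h5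
    linarith
  have hwj : 0 ≤ w * j := by positivity
  have key : (w * j) ^ 2 * Real.log K ≤ 18 * (1 + Real.log j) := by
    by_cases hc : Real.log j ≤ Real.log K / 2
    · have b1 : Real.log K / 4 ≤ M ^ 2 := by linarith
      have b2 : (M * (w * j)) ^ 2 ≤ 1 := by
        have : 0 ≤ M * (w * j) := by positivity
        nlinarith
      have b3 : (w * j) ^ 2 * (Real.log K / 4) ≤ 1 := by
        calc (w * j) ^ 2 * (Real.log K / 4) ≤ (w * j) ^ 2 * M ^ 2 := by gcongr
          _ = (M * (w * j)) ^ 2 := by ring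
          _ ≤ 1 := b2
      linarith
    · push Not at hc
      have b1 : (w * j) ^ 2 ≤ 9 := by nlinarith
      have b2 : (w * j) ^ 2 * Real.log K ≤ 9 * Real.log K := by
        apply mul_le_mul_of_nonneg_right b1 (by linarith)
      linarith
  rw [Bd, le_div_iff₀ (by positivity)]
  calc w ^ 2 * (j ^ 2 * Real.log K) = (w * j) ^ 2 * Real.log K := by ring
    _ ≤ _ := key

lemma Bd_nonneg {K : ℕ} (hlog : 12 ≤ Real.log K) (j : ℕ) : 0 ≤ Bd K j := by
  rw [Bd]
  have : 0 ≤ Real.log j := Real.log_natCast_nonneg j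
  positivity

lemma width_bound {K : ℕ} (hK : 2 ≤ K) (hlog : 12 ≤ Real.log K) (k : ℕ) (h1 : 1 ≤ k)
    (h2 : k + 1 ≤ K - 1) :
    (qt (((k + 1 : ℕ) : ℝ) / K) - qt ((k : ℝ) / K)) ^ 2 ≤ Bd K k + Bd K (K - 1 - k) := by
  have hKp : (0 : ℝ) < K := by exact_mod_cast (by omega : 0 < K)
  have hlt := qt_succ k h1 h2
  have h3 : ((k + 1 : ℕ) : ℝ) < K := by exact_mod_cast (by omega : k + 1 < K)
  have h4 : (0 : ℝ) < k := by exact_mod_cast (by omega : 0 < k)
  have hFa : F (qt ((k : ℝ) / K)) = k / K := F_qt (by positivity)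
    (by rw [div_lt_one hKp]; push_cast at h3; linarith)
  have hFb : F (qt (((k + 1 : ℕ) : ℝ) / K)) = ((k + 1 : ℕ) : ℝ) / K := F_qt (by positivity)
    (by rw [div_lt_one hKp]; exact h3)
  set a := qt ((k : ℝ) / K) with ha
  set b := qt (((k + 1 : ℕ) : ℝ) / K) with hb
  have hw : (b - a) * gd (max |a| |b|) ≤ 1 / K := by
    have := width_le hlt.le (le_max_left |a| |b|) (le_max_right |a| |b|)
    rw [Ico_toReal hlt.le, hFa, hFb] at this
    have e : (((k + 1 : ℕ) : ℝ) / K) - k / K = 1 / K := by push_cast; ring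
    rw [e] at this
    exact this
  rcases le_total |a| |b| with hab | hab
  · rw [max_eq_right hab] at hw
    have hb0 : 0 ≤ b := by
      by_contra hneg
      push Not at hneg
      rw [abs_of_neg hneg, abs_of_neg (by linarith)] at hab
      linarith
    rw [abs_of_nonneg hb0] at hw
    have hG : G b = ((K - 1 - k : ℕ) : ℝ) / K := by
      have h5 := F_add_G b
      rw [hFb] at h5
      rw [Nat.cast_sub (by omega), Nat.cast_sub (by omega)]
      push_cast at h5 ⊢
      field_simp at h5 ⊢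
      linarith
    have := width_core hK hlog (K - 1 - k) (by omega) b (b - a) hb0 hG (by linarith) hw
    have h6 := Bd_nonneg hlog k
    linarith
  · rw [max_eq_left hab] at hw
    have ha0 : a ≤ 0 := by
      by_contra hneg
      push Not at hneg
      rw [abs_of_pos hneg, abs_of_pos (by linarith)] at hab
      linarith
    rw [abs_of_nonpos ha0] at hw
    have hG : G (-a) = (k : ℝ) / K := by rw [← F_eq_G_neg, hFa]
    have := width_core hK hlog k h1 (-a) (b - a) (by linarith) hG (by linarith) hw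
    have h6 := Bd_nonneg hlog (K - 1 - k)
    linarith

lemma var_last {K : ℕ} (hK : 2 ≤ K) (hlog : 12 ≤ Real.log K) (s : Set ℝ) (hs : MeasurableSet s)
    (hp : (γ s).toReal = 1 / K) (c : ℝ) (hsub : s =ᵐ[γ] Ioi c) (hG : G c = 1 / K) (hc : 0 ≤ c) :
    K * (∫ x in s, x ^ 2 ∂γ) - (K * ∫ x in s, x ∂γ) ^ 2 ≤ 4 / Real.log K := by
  have hKp : (0 : ℝ) < K := by exact_mod_cast (by omega : 0 < K)
  refine (var_le hK s hs hp c).trans ?_
  rw [setIntegral_congr_set hsub, setInt_gam _ measurableSet_Ioi]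
  have a3 : Real.log K / 2 ≤ c ^ 2 := by
    have h5 := G_lower c hc
    rw [hG, ← Real.le_log_iff_exp_le (by positivity), one_div, Real.log_inv] at h5
    linarith
  have hcpos : 0 < c := by
    rcases hc.lt_or_eq with h | h
    · exact h
    · rw [← h] at a3; norm_num at a3; linarith
  have h1 := tail2 c hcpos
  rw [hG] at h1
  set I := ∫ x in Ioi c, gd x * (x - c) ^ 2 with hI
  have hI0 : 0 ≤ I := by
    apply setIntegral_nonneg measurableSet_Ioi
    intro x _
    have := gd_pos x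
    positivity
  rw [le_div_iff₀ (by linarith)]
  have h2 : Real.log K / 2 * I ≤ 2 * (1 / K) := by
    calc Real.log K / 2 * I ≤ c ^ 2 * I := by gcongr
      _ ≤ _ := h1
  calc (K : ℝ) * I * Real.log K = 2 * K * (Real.log K / 2 * I) := by ring
    _ ≤ 2 * K * (2 * (1 / K)) := by gcongr
    _ = 4 := by field_simp; norm_num

lemma int_neg (c : ℝ) (f : ℝ → ℝ) (hf : Measurable f) :
    ∫ x in Iio c, f x ∂γ = ∫ x in Ioi (-c), f (-x) ∂γ := by
  conv_lhs => rw [← map_neg_gam]
  rw [setIntegral_map measurableSet_Iio hf.aestronglyMeasurable (by fun_prop)]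
  congr 2
  ext x
  simp

lemma F_zero : F 0 = 1 / 2 := by
  have h1 := F_add_G 0
  have h2 := F_eq_G_neg 0
  rw [neg_zero] at h2
  linarith

lemma var_cell_last {K : ℕ} (hK : 2 ≤ K) (hlog : 12 ≤ Real.log K) (a : Fin K)
    (ha : a.val = K - 1) :
    K * (∫ x in {x | cellFn K hK x = a}, x ^ 2 ∂γ)
      - (K * ∫ x in {x | cellFn K hK x = a}, x ∂γ) ^ 2 ≤ 4 / Real.log K := by
  have hKp : (0 : ℝ) < K := by exact_mod_cast (by omega : 0 < K)
  have hK2 : (2 : ℝ) ≤ K := by exact_mod_cast hK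
  have h3 : (((K - 1 : ℕ) : ℝ) / K) = 1 - 1 / K := by
    rw [Nat.cast_sub (by omega)]; field_simp; simp
  have h4 : (1 : ℝ) / K ≤ 1 / 2 := by
    apply one_div_le_one_div_of_le (by norm_num) hK2
  have h5 : (0 : ℝ) < 1 / K := by positivity
  have hF : F (qt (((K - 1 : ℕ) : ℝ) / K)) = 1 - 1 / K := by
    rw [h3]
    exact F_qt (by linarith) (by linarith)
  apply var_last hK hlog _ (cell_meas hK a) (cell_prob hK a) (qt (((K - 1 : ℕ) : ℝ) / K))
  · rw [cell_last hK a ha]; exact Ioi_ae_eq_Ici.symm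
  · have := F_add_G (qt (((K - 1 : ℕ) : ℝ) / K))
    linarith
  · rw [← F_strictMono.le_iff_le, F_zero, hF]
    linarith

lemma var_cell_first {K : ℕ} (hK : 2 ≤ K) (hlog : 12 ≤ Real.log K) (a : Fin K)
    (ha : a.val = 0) :
    K * (∫ x in {x | cellFn K hK x = a}, x ^ 2 ∂γ)
      - (K * ∫ x in {x | cellFn K hK x = a}, x ∂γ) ^ 2 ≤ 4 / Real.log K := by
  have hKp : (0 : ℝ) < K := by exact_mod_cast (by omega : 0 < K)
  have hK2 : (2 : ℝ) ≤ K := by exact_mod_cast hK
  have h4 : (1 : ℝ) / K ≤ 1 / 2 := by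
    apply one_div_le_one_div_of_le (by norm_num) hK2
  have h5 : (0 : ℝ) < 1 / K := by positivity
  have hF : F (qt (((1 : ℕ) : ℝ) / K)) = 1 / K := by
    rw [Nat.cast_one]
    exact F_qt (by linarith) (by linarith)
  rw [cell_zero hK a ha]
  set c := qt (((1 : ℕ) : ℝ) / K) with hcdef
  rw [int_neg c (fun x => x ^ 2) (by fun_prop), int_neg c (fun x => x) (by fun_prop)]
  have e1 : ∫ x in Ioi (-c), (-x) ^ 2 ∂γ = ∫ x in Ioi (-c), x ^ 2 ∂γ := by
    congr 1; funext x; ring
  have e2 : ∫ x in Ioi (-c), -x ∂γ = -∫ x in Ioi (-c), x ∂γ := integral_neg _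
  rw [e1, e2]
  have e3 : ((K : ℝ) * -∫ x in Ioi (-c), x ∂γ) ^ 2 = (K * ∫ x in Ioi (-c), x ∂γ) ^ 2 := by ring
  rw [e3]
  have hG : G (-c) = 1 / K := by rw [← F_eq_G_neg, hF]
  apply var_last hK hlog _ measurableSet_Ioi hG (-c) (ae_eq_refl _) hG
  have : c ≤ 0 := by
    rw [← F_strictMono.le_iff_le, F_zero, hF]
    linarith
  linarith

lemma Bd_le (K j : ℕ) (hlog : 12 ≤ Real.log K) :
    Bd K j ≤ 36 * (1 / (j : ℝ) ^ (3 / 2 : ℝ)) / Real.log K := by
  rcases Nat.eq_zero_or_pos j with h | h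
  · subst h
    simp [Bd]
  · have hj : (0 : ℝ) < j := by exact_mod_cast h
    have e : (j : ℝ) ^ (3 / 2 : ℝ) = j * √j := by
      rw [show (3 / 2 : ℝ) = 1 + 1 / 2 by norm_num, Real.rpow_add hj, Real.rpow_one,
        ← Real.sqrt_eq_rpow]
    rw [Bd, e]
    have hs : 0 < √(j : ℝ) := Real.sqrt_pos.2 hj
    have hl : Real.log j ≤ 2 * √(j : ℝ) - 1 := by
      have h1 : Real.log j = 2 * Real.log (√(j : ℝ)) := by
        rw [Real.log_sqrt hj.le]; ring
      have h2 := Real.log_le_sub_one_of_pos hs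
      rw [h1]; linarith
    have hss : √(j : ℝ) * √(j : ℝ) = j := Real.mul_self_sqrt hj.le
    rw [div_le_div_iff₀ (by positivity) (by linarith)]
    have e2 : 36 * (1 / ((j : ℝ) * √(j : ℝ))) * (j ^ 2 * Real.log K)
        = 36 * √(j : ℝ) * Real.log K := by
      field_simp
      rw [sq, hss]
    rw [e2]
    have h3 : 18 * (1 + Real.log j) ≤ 36 * √(j : ℝ) := by linarith
    exact mul_le_mul_of_nonneg_right h3 (by linarith)

lemma sum_Bd_le (K : ℕ) (hlog : 12 ≤ Real.log K) :
    ∑ j ∈ Finset.range K, Bd K j ≤ 36 * (∑' j : ℕ, 1 / (j : ℝ) ^ (3 / 2 : ℝ)) / Real.log K := by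
  have hs : Summable (fun j : ℕ => 1 / (j : ℝ) ^ (3 / 2 : ℝ)) :=
    Real.summable_one_div_nat_rpow.2 (by norm_num)
  calc ∑ j ∈ Finset.range K, Bd K j
      ≤ ∑ j ∈ Finset.range K, 36 * (1 / (j : ℝ) ^ (3 / 2 : ℝ)) / Real.log K :=
        Finset.sum_le_sum fun j _ => Bd_le K j hlog
    _ = 36 * (∑ j ∈ Finset.range K, 1 / (j : ℝ) ^ (3 / 2 : ℝ)) / Real.log K := by
        rw [Finset.mul_sum, Finset.sum_div]
    _ ≤ _ := by
        have := hs.sum_le_tsum (Finset.range K) (fun j _ => by positivity)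
        gcongr

lemma total {K : ℕ} (hK : 2 ≤ K) (hlog : 12 ≤ Real.log K) :
    (∑ a, (K * (∫ x in {x | cellFn K hK x = a}, x ^ 2 ∂γ)
      - (K * ∫ x in {x | cellFn K hK x = a}, x ∂γ) ^ 2))
      ≤ (8 + 72 * (∑' j : ℕ, 1 / (j : ℝ) ^ (3 / 2 : ℝ))) / Real.log K := by
  have h4 : 0 ≤ 4 / Real.log K := by positivity
  have key : ∀ a : Fin K, (K * (∫ x in {x | cellFn K hK x = a}, x ^ 2 ∂γ)
      - (K * ∫ x in {x | cellFn K hK x = a}, x ∂γ) ^ 2) ≤
      ((if a.val = 0 then 4 / Real.log K else 0) + (if a.val = K - 1 then 4 / Real.log K else 0))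
        + (Bd K a.val + Bd K (K - 1 - a.val)) := by
    intro a
    have b1 := Bd_nonneg hlog a.val
    have b2 := Bd_nonneg hlog (K - 1 - a.val)
    rcases cell_cases hK a with h | h | h
    · have := var_cell_first hK hlog a h
      rw [if_pos h]
      have h5 : 0 ≤ (if a.val = K - 1 then 4 / Real.log K else 0) := by split_ifs <;> simp [h4]
      linarith
    · have := var_cell_last hK hlog a h
      rw [if_pos h]
      have h5 : 0 ≤ (if a.val = 0 then 4 / Real.log K else 0) := by split_ifs <;> simp [h4]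
      linarith
    · have h6 := var_mid hK _ (cell_meas hK a) (cell_prob hK a) _ _
        (cell_mid hK a h.1 h.2).subset (qt_succ _ h.1 h.2).le
      have h7 := width_bound hK hlog a.val h.1 h.2
      rw [if_neg (by omega), if_neg (by omega)]
      linarith
  refine (Finset.sum_le_sum fun a _ => key a).trans ?_
  rw [Finset.sum_add_distrib, Finset.sum_add_distrib, Finset.sum_add_distrib]
  have s1 : ∑ a : Fin K, (if a.val = 0 then 4 / Real.log K else 0) = 4 / Real.log K := by
    have : ∀ a : Fin K, (a.val = 0) ↔ (a = ⟨0, by omega⟩) := by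
      intro a; simp [Fin.ext_iff]
    simp_rw [this]
    simp
  have s2 : ∑ a : Fin K, (if a.val = K - 1 then 4 / Real.log K else 0) = 4 / Real.log K := by
    have : ∀ a : Fin K, (a.val = K - 1) ↔ (a = ⟨K - 1, by omega⟩) := by
      intro a; simp [Fin.ext_iff]
    simp_rw [this]
    simp
  have s3 : ∑ a : Fin K, Bd K a.val = ∑ j ∈ Finset.range K, Bd K j :=
    Fin.sum_univ_eq_sum_range (fun j => Bd K j) K
  have s4 : ∑ a : Fin K, Bd K (K - 1 - a.val) = ∑ j ∈ Finset.range K, Bd K j := by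
    rw [Fin.sum_univ_eq_sum_range (fun j => Bd K (K - 1 - j)) K]
    exact Finset.sum_range_reflect (fun j => Bd K j) K
  rw [s1, s2, s3, s4]
  have s5 := sum_Bd_le K hlog
  have e : (8 + 72 * (∑' j : ℕ, 1 / (j : ℝ) ^ (3 / 2 : ℝ))) / Real.log K
    = 4 / Real.log K + 4 / Real.log K + (36 * (∑' j : ℕ, 1 / (j : ℝ) ^ (3 / 2 : ℝ)) / Real.log K
      + 36 * (∑' j : ℕ, 1 / (j : ℝ) ^ (3 / 2 : ℝ)) / Real.log K) := by ring
  rw [e]
  linarith

end Quant

/-- MODULE II-a: `K` equiprobable cells of the standard normal law (intervals between quantiles)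
with total conditional variance at most `C / log K`. -/
theorem quantiser : ∃ C : ℝ, 0 < C ∧ ∀ K : ℕ, 2 ≤ K → ∃ cell : ℝ → Fin K,
    (∀ a, MeasurableSet {x | cell x = a}) ∧ (∀ a, γ (frontier {x | cell x = a}) = 0) ∧
    (∀ a, (γ {x | cell x = a}).toReal = 1 / K) ∧
    (∑ a, (K * (∫ x in {x | cell x = a}, x ^ 2 ∂γ) - (K * ∫ x in {x | cell x = a}, x ∂γ) ^ 2))
      ≤ C / Real.log K := by
  have hS : 0 ≤ ∑' j : ℕ, 1 / (j : ℝ) ^ (3 / 2 : ℝ) := tsum_nonneg fun j => by positivity
  have hV : 0 ≤ ∫ x, x ^ 2 ∂γ := integral_nonneg fun x => sq_nonneg x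
  refine ⟨(8 + 72 * (∑' j : ℕ, 1 / (j : ℝ) ^ (3 / 2 : ℝ))) + 12 * (Real.exp 24 * ∫ x, x ^ 2 ∂γ),
    by positivity, fun K hK => ⟨Quant.cellFn K hK, Quant.cell_meas hK, Quant.cell_frontier hK,
      Quant.cell_prob hK, ?_⟩⟩
  have hK1 : (1 : ℝ) < K := by exact_mod_cast (by omega : 1 < K)
  have hlogpos : 0 < Real.log K := Real.log_pos hK1
  by_cases hlog : 12 ≤ Real.log K
  · refine (Quant.total hK hlog).trans ?_
    apply div_le_div_of_nonneg_right _ hlogpos.le
    have : 0 ≤ 12 * (Real.exp 24 * ∫ x, x ^ 2 ∂γ) := by positivity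
    linarith
  · push Not at hlog
    have hKe : (K : ℝ) ≤ Real.exp 12 := by
      rw [← Real.log_le_iff_le_exp (by linarith)]
      exact hlog.le
    have h1 : ∀ a : Fin K, (K * (∫ x in {x | Quant.cellFn K hK x = a}, x ^ 2 ∂γ)
      - (K * ∫ x in {x | Quant.cellFn K hK x = a}, x ∂γ) ^ 2) ≤ K * ∫ x, x ^ 2 ∂γ := by
      intro a
      have h2 : (∫ x in {x | Quant.cellFn K hK x = a}, x ^ 2 ∂γ) ≤ ∫ x, x ^ 2 ∂γ :=
        setIntegral_le_integral (Quant.intble_pow 2)
          (Filter.Eventually.of_forall fun x => sq_nonneg x)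
      have h3 := sq_nonneg (K * ∫ x in {x | Quant.cellFn K hK x = a}, x ∂γ)
      have h4 : (K : ℝ) * (∫ x in {x | Quant.cellFn K hK x = a}, x ^ 2 ∂γ)
        ≤ K * ∫ x, x ^ 2 ∂γ := by gcongr
      linarith
    refine (Finset.sum_le_sum fun a _ => h1 a).trans ?_
    rw [Finset.sum_const, Finset.card_univ, Fintype.card_fin, nsmul_eq_mul,
      le_div_iff₀ hlogpos]
    have h5 : (K : ℝ) * K ≤ Real.exp 24 := by
      have : Real.exp 24 = Real.exp 12 * Real.exp 12 := by rw [← Real.exp_add]; norm_num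
      rw [this]
      gcongr
    calc (K : ℝ) * (K * ∫ x, x ^ 2 ∂γ) * Real.log K
        = (K * K) * (∫ x, x ^ 2 ∂γ) * Real.log K := by ring
      _ ≤ Real.exp 24 * (∫ x, x ^ 2 ∂γ) * 12 := by gcongr
      _ ≤ _ := by
        have : 0 ≤ 8 + 72 * (∑' j : ℕ, 1 / (j : ℝ) ^ (3 / 2 : ℝ)) := by positivity
        linarith

end Crest.Agent.KG
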