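import Crest.Agent.KG.Defs
import Crest.Agent.KG.Quant

/-! INTERFACE MODULE II-a (helper88): the equiprobable quantiser of the standard normal.
`Crest.Agent.KG.quantiser` is proved in `Crest/Agent/KG/Quant.lean`. -/
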