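import Crest.Agent.KG.GBound
import Crest.Agent.KG.GPig
import Crest.Agent.KG.GAsy
import Crest.Agent.KG.GGauss
import Crest.Agent.KG.IfaceI
import Crest.Agent.KG.IfaceII

set_option autoImplicit false
open scoped BigOperators
open MeasureTheory

namespace Crest.Agent.KG

/-- cells of the gadget -/
noncomputable def gcell (m b r : ℕ) {K : ℕ} (hK : 2 ≤ K) (cy : ℝ → Fin K) (ε : ℝ) :
    Idx m b r → ℝ → Fin K
  | Sum.inl (Sum.inl _) => fun x => if 1 < |x| then ⟨0, by omega⟩ else ⟨1, by omega⟩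
  | Sum.inl (Sum.inr _) => cy
  | Sum.inr _ => fun x => if |x| ≤ ε then ⟨0, by omega⟩ else ⟨1, by omega⟩

theorem cell2 {K : ℕ} (hK : 2 ≤ K) (P : ℝ → Prop) [DecidablePred P] :
    {x | (if P x then (⟨0, by omega⟩ : Fin K) else ⟨1, by omega⟩) = ⟨0, by omega⟩} = {x | P x} ∧
    {x | (if P x then (⟨0, by omega⟩ : Fin K) else ⟨1, by omega⟩) = ⟨1, by omega⟩} = {x | ¬ P x} ∧
    ∀ a : Fin K, 2 ≤ a.val →
      {x | (if P x then (⟨0, by omega⟩ : Fin K) else ⟨1, by omega⟩) = a} = ∅ := by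
  refine ⟨?_, ?_, ?_⟩
  · ext x; by_cases h : P x <;> simp [h]
  · ext x; by_cases h : P x <;> simp [h]
  · intro a ha
    ext x
    simp only [Set.mem_setOf_eq, Set.mem_empty_iff_false, iff_false]
    intro h
    by_cases hx : P x
    · rw [if_pos hx] at h; rw [← h] at ha; simp at ha
    · rw [if_neg hx] at h; rw [← h] at ha; simp at ha

/-- main inequality with numbers -/
theorem numbers {m b r K : ℕ} {hK : 2 ≤ K} {p e1 e2 : Idx m b r → Fin K → ℝ}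
    {px E2 π w0 : ℝ} {mm v : Fin K → ℝ} (h : DataOK hK p e1 e2 px E2 π w0 mm v)
    (hz : ∀ (l : Idx m b r) (a : Fin K), (∀ j, l ≠ Sum.inl (Sum.inr j)) → 2 ≤ a.val →
      p l a = 0 ∧ e1 l a = 0 ∧ e2 l a = 0)
    (hm : 3 ≤ m) (hr1 : 1 ≤ r) (hr : m ^ 2 + 1 ≤ r)
    (hpx : 0 < px) (hpx1 : px < 1) (hπ : 0 < π) (hπ1 : π < 1)
    (hE0 : 0 ≤ E2) (hE1 : E2 ≤ 1) (hw0 : 0 ≤ w0) (hw1 : w0 ≤ 1)
    (hmm : ∀ a, |mm a| ≤ Real.sqrt K) (hv0 : ∀ a, 0 ≤ v a) (hv1 : ∀ a, v a ≤ K)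
    (σ : ℝ) (hσ0 : 0 < σ) (hσ : σ ^ 2 = m * px * (1 - px))
    (V : ℝ) (hV : ∑ a, v a ≤ K * V)
    (hc0 : 1 / 2 ≤ m * px + σ)
    (hbr : 1 ≤ (E2 / px - (1 - E2) / (1 - px)) * σ
      - (E2 / px - (1 - E2) / (1 - px)) * (1 - 2 * px) / 2 - 2 - 1 - 2 * b * V
      - (r * (m - 2 : ℕ) : ℝ) * (w0 / π))
    (hasy : (4 * ((m : ℝ) ^ 2 + m + 1) * (11 + m + m * (E2 / px + (1 - E2) / (1 - px))
        + (r * (m - 2 : ℕ) : ℝ) * (w0 / π + (1 - w0) / (1 - π)))) * ((b : ℝ) ^ 2 * K + 1) *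
        Real.sqrt (2 * Aent m b K * (2 ^ m * (K : ℝ) ^ b)) / (K : ℝ) ^ b
      < (1 / ((m * px + σ) ^ 2 + (m : ℝ) ^ 2) * π ^ (r * (m - 2)) * (2 * σ ^ 2) / 4)
        / ((b : ℝ) * Real.sqrt K + 1)) :
    ∃ (c : ℝ) (U : (Idx m b r → Fin K) → Bool),
      bR U ∈ (JD (Fintype.card (Idx m b r) - (m - 2)) :
        Submodule ℝ ((∀ _ : Idx m b r, Fin K) → ℝ)) ∧
      0 < ∑ w : Idx m b r → Fin K, if U w then gterm p e1 e2 ((m : ℝ) - 2) c w else 0 := by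
  have hKr : (0 : ℝ) < K := by
    have : 0 < K := by omega
    exact_mod_cast this
  obtain ⟨c, Y, hc, hY, hYc⟩ := pigeon b K (by omega) mm v (Real.sqrt K) V (Real.sqrt_nonneg _)
    hmm hv0 hV
  set C1 := (11 + m + m * (E2 / px + (1 - E2) / (1 - px))
        + (r * (m - 2 : ℕ) : ℝ) * (w0 / π + (1 - w0) / (1 - π))) with hC1
  set Δ := E2 / px - (1 - E2) / (1 - px) with hΔ
  set c0 := m * px + σ with hc0d
  set lam := 1 / (c0 ^ 2 + (m : ℝ) ^ 2) with hlam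
  have hmr : (3 : ℝ) ≤ m := by exact_mod_cast hm
  have hden : 0 < c0 ^ 2 + (m : ℝ) ^ 2 := by positivity
  have hlam0 : 0 < lam := by rw [hlam]; positivity
  have hM := J_bound h hm hpx hpx1 hπ hπ1 hE0 hE1 hw0 hw1 c hc hmm hv0 hv1
  have px' : (0 : ℝ) < 1 - px := by linarith
  have pπ' : (0 : ℝ) < 1 - π := by linarith
  have hC1pos : 0 < C1 := by
    have hp1 : 0 ≤ E2 / px := by positivity
    have hp2 : 0 ≤ (1 - E2) / (1 - px) := div_nonneg (by linarith) px'.le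
    have hp3 : 0 ≤ w0 / π := by positivity
    have hp4 : 0 ≤ (1 - w0) / (1 - π) := div_nonneg (by linarith) pπ'.le
    have : 0 ≤ (m : ℝ) * (E2 / px + (1 - E2) / (1 - px)) := by positivity
    have : 0 ≤ (r * (m - 2 : ℕ) : ℝ) * (w0 / π + (1 - w0) / (1 - π)) := by positivity
    rw [hC1]; linarith
  set M := (1 / (K : ℝ)) ^ b * (C1 * ((b : ℝ) ^ 2 * K + 1)) with hMd
  have hM0 : 0 ≤ M := by rw [hMd]; positivity
  obtain ⟨U, hU, hineq⟩ := round_gadget m b K r hm hK hr1 hr c0 lam M hc0 hlam0.le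
    (by rw [hlam, one_div, inv_mul_cancel₀ hden.ne']) hM0 Y (fun _ => true)
    (fun x y q => gterm p e1 e2 ((m : ℝ) - 2) c (emb hK x y q)) hM
  refine ⟨c, U, hU, ?_⟩
  rw [sum_words hK]
  swap
  · intro w hw
    have : gterm p e1 e2 ((m : ℝ) - 2) c w = 0 := by
      rcases hw with ⟨i, hi⟩ | ⟨l, hl⟩
      · obtain ⟨h1, h2, h3⟩ := hz (Sum.inl (Sum.inl i)) _ (by intro j; simp) hi
        exact gterm_zero p e1 e2 _ c w _ h1 h2 h3
      · obtain ⟨h1, h2, h3⟩ := hz (Sum.inr l) _ (by intro j; simp) hl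
        exact gterm_zero p e1 e2 _ c w _ h1 h2 h3
    rw [this]; simp
  refine lt_of_lt_of_le ?_ hineq
  rw [sub_pos]
  -- main term
  have hmain : (1 / (K : ℝ)) ^ b * π ^ (r * (m - 2)) * (2 * σ ^ 2) * (Y.card : ℝ)
      ≤ ∑ x : Fin m → Bool, ∑ y ∈ Y, ((cnt x : ℝ) - c0) ^ 2 *
        gterm p e1 e2 ((m : ℝ) - 2) c (emb hK x y (fun _ => true)) := by
    rw [Finset.sum_comm]
    have hy : ∀ y ∈ Y, (1 / (K : ℝ)) ^ b * π ^ (r * (m - 2)) * (2 * σ ^ 2)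
        ≤ ∑ x : Fin m → Bool, ((cnt x : ℝ) - c0) ^ 2 *
        gterm p e1 e2 ((m : ℝ) - 2) c (emb hK x y (fun _ => true)) := by
      intro y hyY
      obtain ⟨hy1, hy2⟩ := hY y hyY
      have e : ∀ x : Fin m → Bool, ((cnt x : ℝ) - c0) ^ 2 *
          gterm p e1 e2 ((m : ℝ) - 2) c (emb hK x y (fun _ => true))
          = (1 / (K : ℝ)) ^ b * π ^ (r * (m - 2)) *
            (bern px x * ((cnt x : ℝ) - c0) ^ 2 *
            ((((m : ℝ) - 2) - (∑ j, mm (y j) - c) ^ 2 - ∑ j, v (y j)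
              - (r * (m - 2 : ℕ) : ℝ) * (w0 / π)) -
              ∑ i, (if x i then E2 / px else (1 - E2) / (1 - px)))) := by
        intro x
        rw [J_formula h hpx hpx1 hπ hπ1]
        simp only [if_true, Finset.prod_const, Finset.sum_const, Finset.card_univ,
          Fintype.card_prod, Fintype.card_fin, nsmul_eq_mul, Nat.cast_mul]
        ring
      simp only [e]
      rw [← Finset.mul_sum, hc0d, xsum m px E2 σ _ hpx hpx1 hσ]
      have hs : (∑ j, mm (y j) - c) ^ 2 ≤ 1 := by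
        rw [← sq_abs]
        have := abs_nonneg (∑ j, mm (y j) - c)
        nlinarith
      have hpos : 0 ≤ (1 / (K : ℝ)) ^ b * π ^ (r * (m - 2)) := by positivity
      apply mul_le_mul_of_nonneg_left _ hpos
      have hs2 : 0 ≤ 2 * σ ^ 2 := by positivity
      have : 2 * σ ^ 2 * 1 ≤ 2 * σ ^ 2 * ((((m : ℝ) - 2) - (∑ j, mm (y j) - c) ^ 2 - ∑ j, v (y j)
              - (r * (m - 2 : ℕ) : ℝ) * (w0 / π)) - m - Δ * (1 - 2 * px) / 2 + Δ * σ) := by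
        apply mul_le_mul_of_nonneg_left _ hs2
        linarith
      simpa using this
    calc (1 / (K : ℝ)) ^ b * π ^ (r * (m - 2)) * (2 * σ ^ 2) * (Y.card : ℝ)
        = ∑ _y ∈ Y, (1 / (K : ℝ)) ^ b * π ^ (r * (m - 2)) * (2 * σ ^ 2) := by
          rw [Finset.sum_const, nsmul_eq_mul]; ring
      _ ≤ _ := Finset.sum_le_sum hy
  refine lt_of_lt_of_le ?_ (mul_le_mul_of_nonneg_left hmain hlam0.le)
  -- error term
  have hKb : (0 : ℝ) < (K : ℝ) ^ b := by positivity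
  have hR : (0 : ℝ) < (b : ℝ) * Real.sqrt K + 1 := by positivity
  have hlow : (lam * π ^ (r * (m - 2)) * (2 * σ ^ 2) / 4) / ((b : ℝ) * Real.sqrt K + 1)
      ≤ lam * ((1 / (K : ℝ)) ^ b * π ^ (r * (m - 2)) * (2 * σ ^ 2) * (Y.card : ℝ)) := by
    have h1 : 1 / (4 * ((b : ℝ) * Real.sqrt K + 1)) ≤ (1 / (K : ℝ)) ^ b * Y.card := by
      rw [div_le_iff₀ (by positivity), one_div, inv_pow]
      rw [show ((K : ℝ) ^ b)⁻¹ * (Y.card : ℝ) * (4 * ((b : ℝ) * Real.sqrt K + 1))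
        = (4 * ((b : ℝ) * Real.sqrt K + 1) * Y.card) / (K : ℝ) ^ b by field_simp]
      rw [le_div_iff₀ hKb, one_mul]
      exact hYc
    have h2 : 0 ≤ lam * π ^ (r * (m - 2)) * (2 * σ ^ 2) := by positivity
    calc (lam * π ^ (r * (m - 2)) * (2 * σ ^ 2) / 4) / ((b : ℝ) * Real.sqrt K + 1)
        = (lam * π ^ (r * (m - 2)) * (2 * σ ^ 2)) * (1 / (4 * ((b : ℝ) * Real.sqrt K + 1))) := by
          field_simp
      _ ≤ (lam * π ^ (r * (m - 2)) * (2 * σ ^ 2)) * ((1 / (K : ℝ)) ^ b * Y.card) :=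
          mul_le_mul_of_nonneg_left h1 h2
      _ = _ := by ring
  refine lt_of_lt_of_le ?_ hlow
  have hA0 : 0 ≤ Aent m b K := by
    unfold Aent
    have hK1 : (0 : ℝ) ≤ (K : ℝ) - 1 := by
      have : (2 : ℝ) ≤ K := by exact_mod_cast hK
      linarith
    apply mul_nonneg (by positivity)
    apply Finset.sum_nonneg
    intro j _
    positivity
  have hsq : Real.sqrt (Aent m b K * (2 ^ m * (K : ℝ) ^ b))
      ≤ Real.sqrt (2 * Aent m b K * (2 ^ m * (K : ℝ) ^ b)) := by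
    apply Real.sqrt_le_sqrt
    have : 0 ≤ Aent m b K * (2 ^ m * (K : ℝ) ^ b) := by positivity
    nlinarith
  calc 4 * M * ((m : ℝ) ^ 2 + m + 1) * Real.sqrt (Aent m b K * (2 ^ m * (K : ℝ) ^ b))
      ≤ 4 * M * ((m : ℝ) ^ 2 + m + 1) * Real.sqrt (2 * Aent m b K * (2 ^ m * (K : ℝ) ^ b)) :=
        mul_le_mul_of_nonneg_left hsq (by positivity)
    _ = (4 * ((m : ℝ) ^ 2 + m + 1) * C1) * ((b : ℝ) ^ 2 * K + 1) *
        Real.sqrt (2 * Aent m b K * (2 ^ m * (K : ℝ) ^ b)) / (K : ℝ) ^ b := by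
        rw [hMd, one_div, inv_pow]; field_simp
    _ < _ := hasy

end Crest.Agent.KG
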