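import Crest.Agent.KG.Defs

set_option autoImplicit false
open scoped BigOperators
open MeasureTheory

namespace Crest.Agent.KG

theorem emb_inj {m b r K : ℕ} (hK : 2 ≤ K) :
    Function.Injective (fun t : (Fin m → Bool) × (Fin b → Fin K) × (Fin r × Fin (m - 2) → Bool) =>
      (emb hK t.1 t.2.1 t.2.2 : Idx m b r → Fin K)) := by
  rintro ⟨x, y, q⟩ ⟨x', y', q'⟩ h
  simp only at h
  have hx : x = x' := by
    funext i
    have := congrFun h (Sum.inl (Sum.inl i))
    simp only [emb, Sum.elim_inl] at this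
    cases h1 : x i <;> cases h2 : x' i <;> simp [h1, h2] at this <;> rfl
  have hy : y = y' := by
    funext i
    have := congrFun h (Sum.inl (Sum.inr i))
    simpa only [emb, Sum.elim_inl, Sum.elim_inr] using this
  have hq : q = q' := by
    funext i
    have := congrFun h (Sum.inr i)
    simp only [emb, Sum.elim_inr] at this
    cases h1 : q i <;> cases h2 : q' i <;> simp [h1, h2] at this <;> rfl
  rw [hx, hy, hq]

theorem sum_words {m b r K : ℕ} (hK : 2 ≤ K) (g : (Idx m b r → Fin K) → ℝ)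
    (hg : ∀ w, ((∃ i, 2 ≤ (w (Sum.inl (Sum.inl i))).val) ∨ (∃ l, 2 ≤ (w (Sum.inr l)).val)) →
      g w = 0) :
    ∑ w, g w = ∑ x : Fin m → Bool, ∑ y : Fin b → Fin K, ∑ q : Fin r × Fin (m - 2) → Bool,
      g (emb hK x y q) := by
  classical
  have h1 : ∑ t : (Fin m → Bool) × (Fin b → Fin K) × (Fin r × Fin (m - 2) → Bool),
      g (emb hK t.1 t.2.1 t.2.2) = ∑ w, g w := by
    rw [← Finset.sum_image (f := g) (s := Finset.univ)
      (g := fun t : (Fin m → Bool) × (Fin b → Fin K) × (Fin r × Fin (m - 2) → Bool) =>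
        (emb hK t.1 t.2.1 t.2.2 : Idx m b r → Fin K))]
    · apply Finset.sum_subset (Finset.subset_univ _)
      intro w _ hw
      apply hg
      by_contra hcon
      push Not at hcon
      obtain ⟨ha, hb⟩ := hcon
      apply hw
      rw [Finset.mem_image]
      refine ⟨(fun i => decide ((w (Sum.inl (Sum.inl i))).val = 0),
        fun j => w (Sum.inl (Sum.inr j)), fun l => decide ((w (Sum.inr l)).val = 0)),
        Finset.mem_univ _, ?_⟩
      funext i
      rcases i with (i | j) | l
      · simp only [emb, Sum.elim_inl]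
        have := ha i
        by_cases h0 : (w (Sum.inl (Sum.inl i))).val = 0
        · simp only [h0, decide_true, if_true]; apply Fin.ext; simp [h0]
        · simp only [h0, decide_false, Bool.false_eq_true, if_false]; apply Fin.ext
          simp only; omega
      · simp only [emb, Sum.elim_inl, Sum.elim_inr]
      · simp only [emb, Sum.elim_inr]
        have := hb l
        by_cases h0 : (w (Sum.inr l)).val = 0
        · simp only [h0, decide_true, if_true]; apply Fin.ext; simp [h0]
        · simp only [h0, decide_false, Bool.false_eq_true, if_false]; apply Fin.ext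
          simp only; omega
    · exact (emb_inj hK).injOn
  rw [← h1, Fintype.sum_prod_type]
  apply Finset.sum_congr rfl
  intro x _
  rw [Fintype.sum_prod_type]

theorem gterm_zero {ι : Type} [Fintype ι] [DecidableEq ι] {K : ℕ}
    (p e1 e2 : ι → Fin K → ℝ) (T c : ℝ) (w : ι → Fin K) (l : ι)
    (hp : p l (w l) = 0) (h1 : e1 l (w l) = 0) (h2 : e2 l (w l) = 0) :
    gterm p e1 e2 T c w = 0 := by
  have hP : ∀ s : Finset ι, l ∈ s → ∏ j ∈ s, p j (w j) = 0 :=
    fun s hs => Finset.prod_eq_zero hs hp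
  unfold gterm
  rw [hP _ (Finset.mem_univ l)]
  have e1z : ∑ i, e1 i (w i) * ∏ j ∈ Finset.univ.erase i, p j (w j) = 0 := by
    apply Finset.sum_eq_zero
    intro i _
    by_cases hi : i = l
    · rw [hi, h1, zero_mul]
    · rw [hP _ (Finset.mem_erase.2 ⟨fun h => hi h.symm, Finset.mem_univ _⟩), mul_zero]
  have e2z : ∑ i, e2 i (w i) * ∏ j ∈ Finset.univ.erase i, p j (w j) = 0 := by
    apply Finset.sum_eq_zero
    intro i _
    by_cases hi : i = l
    · rw [hi, h2, zero_mul]
    · rw [hP _ (Finset.mem_erase.2 ⟨fun h => hi h.symm, Finset.mem_univ _⟩), mul_zero]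
  have e3z : ∑ i, ∑ j ∈ Finset.univ.erase i, e1 i (w i) * e1 j (w j) *
        ∏ k ∈ (Finset.univ.erase i).erase j, p k (w k) = 0 := by
    apply Finset.sum_eq_zero
    intro i _
    apply Finset.sum_eq_zero
    intro j hj
    by_cases hi : i = l
    · rw [hi, h1, zero_mul, zero_mul]
    · by_cases hjl : j = l
      · rw [hjl, h1, mul_zero, zero_mul]
      · rw [hP _ (Finset.mem_erase.2 ⟨fun h => hjl h.symm,
          Finset.mem_erase.2 ⟨fun h => hi h.symm, Finset.mem_univ _⟩⟩), mul_zero]
  rw [e1z, e2z, e3z]; ring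

theorem gterm_prod {ι : Type} [Fintype ι] [DecidableEq ι] {K : ℕ}
    (p e1 e2 : ι → Fin K → ℝ) (T c : ℝ) (w : ι → Fin K) (hp : ∀ i, p i (w i) ≠ 0) :
    gterm p e1 e2 T c w = (∏ i, p i (w i)) *
      (T - (∑ i, e1 i (w i) / p i (w i) - c) ^ 2
        - ∑ i, (e2 i (w i) / p i (w i) - (e1 i (w i) / p i (w i)) ^ 2)) := by
  set P := ∏ i, p i (w i) with hP
  have hE : ∀ i, ∏ j ∈ Finset.univ.erase i, p j (w j) = P / p i (w i) := by
    intro i
    rw [eq_div_iff (hp i), Finset.prod_erase_mul _ _ (Finset.mem_univ i)]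
  have hEE : ∀ i, ∀ j ∈ Finset.univ.erase i, ∏ k ∈ (Finset.univ.erase i).erase j, p k (w k)
      = P / (p i (w i) * p j (w j)) := by
    intro i j hj
    rw [eq_div_iff (mul_ne_zero (hp i) (hp j))]
    have h1 := Finset.prod_erase_mul (Finset.univ.erase i) (fun k => p k (w k)) hj
    have h2 := hE i
    rw [eq_div_iff (hp i)] at h2
    rw [← h2, ← h1]; ring
  set a : ι → ℝ := fun i => e1 i (w i) / p i (w i) with ha
  set d : ι → ℝ := fun i => e2 i (w i) / p i (w i) with hd
  have t1 : ∑ i, e1 i (w i) * ∏ j ∈ Finset.univ.erase i, p j (w j) = P * ∑ i, a i := by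
    rw [Finset.mul_sum]; apply Finset.sum_congr rfl; intro i _
    rw [hE i, ha]; ring
  have t2 : ∑ i, e2 i (w i) * ∏ j ∈ Finset.univ.erase i, p j (w j) = P * ∑ i, d i := by
    rw [Finset.mul_sum]; apply Finset.sum_congr rfl; intro i _
    rw [hE i, hd]; ring
  have t3 : ∑ i, ∑ j ∈ Finset.univ.erase i, e1 i (w i) * e1 j (w j) *
        ∏ k ∈ (Finset.univ.erase i).erase j, p k (w k)
      = P * ((∑ i, a i) ^ 2 - ∑ i, a i ^ 2) := by
    have : (∑ i, a i) ^ 2 - ∑ i, a i ^ 2 = ∑ i, ∑ j ∈ Finset.univ.erase i, a i * a j := by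
      rw [sq, Finset.sum_mul_sum, ← Finset.sum_sub_distrib]
      apply Finset.sum_congr rfl; intro i _
      rw [← Finset.add_sum_erase Finset.univ (fun j => a i * a j) (Finset.mem_univ i)]
      ring
    rw [this, Finset.mul_sum]; apply Finset.sum_congr rfl; intro i _
    rw [Finset.mul_sum]; apply Finset.sum_congr rfl; intro j hj
    rw [hEE i j hj, ha]
    have := hp i
    have := hp j
    field_simp
  unfold gterm
  rw [t1, t2, t3]
  have : ∑ i, (e2 i (w i) / p i (w i) - (e1 i (w i) / p i (w i)) ^ 2)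
      = ∑ i, d i - ∑ i, a i ^ 2 := by
    rw [← Finset.sum_sub_distrib]
  rw [this, ← hP]
  ring

end Crest.Agent.KG
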