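import Crest.Agent.KG.Clt3

/-! INTERFACE MODULE III: CLT transfer (proved in Clt1, Clt2, Clt3). -/

set_option autoImplicit false
open scoped BigOperators
open MeasureTheory Filter Topology

namespace Crest.Agent.KG

/-- MODULE III: the letter data of the normalised block score converge to the normal ones. -/
theorem clt_transfer {Ω : Type} [Fintype Ω] [Nonempty Ω] (s : Ω → ℝ) (h0 : ∑ x, s x = 0)
    (I : ℝ) (hI : 0 < I) (h2 : ∑ x, s x ^ 2 = I * Fintype.card Ω)
    (A : Set ℝ) (hA : MeasurableSet A) (hfr : γ (frontier A) = 0) (k : ℕ) (hk : k ≤ 2) :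
    Tendsto (fun B : ℕ => (∑ ω : Fin B → Ω,
        Set.indicator A (fun u : ℝ => u ^ k) ((∑ j, s (ω j)) / Real.sqrt (B * I)))
          / (Fintype.card Ω : ℝ) ^ B) atTop (𝓝 (∫ x in A, x ^ k ∂γ)) :=
  CLT.transfer s h0 I hI h2 A hA hfr k hk

end Crest.Agent.KG
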