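import Mathlib

set_option autoImplicit false

namespace Crest.Agent.KG

open Finset

/-- `f` depends only on the coordinates in `S`. -/
def Dep {ι : Type} {A : ι → Type} (S : Finset ι) (f : (∀ i, A i) → ℝ) : Prop :=
  ∀ x y : (∀ i, A i), (∀ i ∈ S, x i = y i) → f x = f y

/-- The space of sums of functions of at most `d` coordinates. -/
def JD {ι : Type} {A : ι → Type} (d : ℕ) : Submodule ℝ ((∀ i, A i) → ℝ) :=
  Submodule.span ℝ {f | ∃ S : Finset ι, S.card ≤ d ∧ ∀ x y, (∀ i ∈ S, x i = y i) → f x = f y}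

variable {ι : Type} {A : ι → Type}

lemma mem_JD_of_dep {d : ℕ} {S : Finset ι} {f : (∀ i, A i) → ℝ} (hS : S.card ≤ d)
    (hf : Dep S f) : f ∈ (JD d : Submodule ℝ ((∀ i, A i) → ℝ)) :=
  Submodule.subset_span ⟨S, hS, hf⟩

lemma JD_mono {d e : ℕ} (h : d ≤ e) :
    (JD d : Submodule ℝ ((∀ i, A i) → ℝ)) ≤ JD e := by
  refine Submodule.span_mono ?_
  rintro f ⟨S, hS, hf⟩
  exact ⟨S, hS.trans h, hf⟩

lemma const_mem_JD (d : ℕ) (c : ℝ) : (fun _ => c) ∈ (JD d : Submodule ℝ ((∀ i, A i) → ℝ)) :=
  mem_JD_of_dep (S := ∅) (by simp) (fun _ _ _ => rfl)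

/-- everything is a function of all coordinates -/
lemma mem_JD_card [Fintype ι] {d : ℕ} (h : Fintype.card ι ≤ d) (f : (∀ i, A i) → ℝ) :
    f ∈ (JD d : Submodule ℝ ((∀ i, A i) → ℝ)) := by
  refine mem_JD_of_dep (S := Finset.univ) (by simpa using h) ?_
  intro x y hxy
  have : x = y := funext fun i => hxy i (Finset.mem_univ i)
  rw [this]

/-- product of a function of junta degree `d` and one of junta degree `e` -/
lemma mul_mem_JD [DecidableEq ι] {d e : ℕ} {f g : (∀ i, A i) → ℝ}
    (hf : f ∈ (JD d : Submodule ℝ ((∀ i, A i) → ℝ))) (hg : g ∈ (JD e : Submodule ℝ ((∀ i, A i) → ℝ))) :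
    (fun x => f x * g x) ∈ (JD (d + e) : Submodule ℝ ((∀ i, A i) → ℝ)) := by
  unfold JD at hf
  induction hf using Submodule.span_induction with
  | mem f hf =>
    obtain ⟨S, hS, hfS⟩ := hf
    unfold JD at hg
    induction hg using Submodule.span_induction with
    | mem g hg =>
      obtain ⟨T, hT, hgT⟩ := hg
      refine mem_JD_of_dep (S := S ∪ T) ((Finset.card_union_le _ _).trans (by omega)) ?_
      intro x y hxy
      have h1 := hfS x y (fun i hi => hxy i (Finset.mem_union_left _ hi))
      have h2 := hgT x y (fun i hi => hxy i (Finset.mem_union_right _ hi))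
      simp only [h1, h2]
    | zero =>
      have : (fun x => f x * (0 : (∀ i, A i) → ℝ) x) = 0 := by ext x; simp
      rw [this]; exact Submodule.zero_mem _
    | add g₁ g₂ _ _ h1 h2 =>
      have : (fun x => f x * (g₁ + g₂) x) = (fun x => f x * g₁ x) + (fun x => f x * g₂ x) := by
        ext x; simp [mul_add]
      rw [this]; exact Submodule.add_mem _ h1 h2
    | smul a g _ h =>
      have : (fun x => f x * (a • g) x) = a • (fun x => f x * g x) := by
        ext x; simp; ring
      rw [this]; exact Submodule.smul_mem _ _ h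
  | zero =>
    have : (fun x => (0 : (∀ i, A i) → ℝ) x * g x) = 0 := by ext x; simp
    rw [this]; exact Submodule.zero_mem _
  | add f₁ f₂ _ _ h1 h2 =>
    have : (fun x => (f₁ + f₂) x * g x) = (fun x => f₁ x * g x) + (fun x => f₂ x * g x) := by
      ext x; simp [add_mul]
    rw [this]; exact Submodule.add_mem _ h1 h2
  | smul a f _ h =>
    have : (fun x => (a • f) x * g x) = a • (fun x => f x * g x) := by
      ext x; simp; ring
    rw [this]; exact Submodule.smul_mem _ _ h

/-- pull back along a map of index sets and letterwise maps: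
`y j` is a function of `x (e j)`, `e` injective or not (card of the image only drops). -/
lemma comp_mem_JD {κ : Type} {B : κ → Type} [DecidableEq ι] (e : κ → ι) (φ : ∀ j, A (e j) → B j)
    {d : ℕ} {f : (∀ j, B j) → ℝ} (hf : f ∈ (JD d : Submodule ℝ ((∀ j, B j) → ℝ))) :
    (fun x : (∀ i, A i) => f (fun j => φ j (x (e j)))) ∈ (JD d : Submodule ℝ ((∀ i, A i) → ℝ)) := by
  unfold JD at hf
  induction hf using Submodule.span_induction with
  | mem f hf =>
    obtain ⟨S, hS, hfS⟩ := hf
    refine mem_JD_of_dep (S := S.image e) (Finset.card_image_le.trans hS) ?_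
    intro x y hxy
    refine hfS _ _ ?_
    intro j hj
    show φ j (x (e j)) = φ j (y (e j))
    rw [hxy (e j) (Finset.mem_image_of_mem e hj)]
  | zero => exact Submodule.zero_mem _
  | add f₁ f₂ _ _ h1 h2 => exact Submodule.add_mem _ h1 h2
  | smul a f _ h => exact Submodule.smul_mem _ a h

end Crest.Agent.KG
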