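import Crest.Agent.KG.RndDefs

set_option autoImplicit false

namespace Crest.Agent.KG

open Finset

section Mob

variable {ι : Type} [DecidableEq ι] {A : ι → Type}

/-- replace the coordinates outside `T` by the anchor -/
def rst (o : ∀ i, A i) (T : Finset ι) (z : ∀ i, A i) : ∀ i, A i :=
  fun i => if i ∈ T then z i else o i

/-- anchored Möbius component -/
noncomputable def mob (o : ∀ i, A i) (S : Finset ι) (f : (∀ i, A i) → ℝ) (z : ∀ i, A i) : ℝ :=
  ∑ T ∈ S.powerset, (-1) ^ (S.card + T.card) * f (rst o T z)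

lemma altsum_zero {S : Finset ι} {i : ι} (hi : i ∈ S) (g : Finset ι → ℝ)
    (hg : ∀ T, g (insert i T) = g T) :
    ∑ T ∈ S.powerset, (-1) ^ (S.card + T.card) * g T = 0 := by
  obtain ⟨S', hiS', rfl⟩ : ∃ S', i ∉ S' ∧ insert i S' = S :=
    ⟨S.erase i, Finset.notMem_erase i S, Finset.insert_erase hi⟩
  rw [Finset.sum_powerset_insert hiS', ← Finset.sum_add_distrib]
  refine Finset.sum_eq_zero fun T hT => ?_
  have hiT : i ∉ T := fun h => hiS' (Finset.mem_powerset.mp hT h)
  rw [hg T, Finset.card_insert_of_notMem hiT, ← add_assoc, pow_succ]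
  ring

lemma mob_dep (o : ∀ i, A i) (S : Finset ι) (f : (∀ i, A i) → ℝ) : Dep S (mob o S f) := by
  intro x y hxy
  unfold mob
  refine Finset.sum_congr rfl fun T hT => ?_
  have : rst o T x = rst o T y := by
    funext i
    unfold rst
    split_ifs with h
    · exact hxy i (Finset.mem_powerset.mp hT h)
    · rfl
  rw [this]

lemma mob_zero_of_dep (o : ∀ i, A i) {S D : Finset ι} {f : (∀ i, A i) → ℝ} (hf : Dep D f)
    (hS : ¬ S ⊆ D) (z : ∀ i, A i) : mob o S f z = 0 := by
  obtain ⟨i, hiS, hiD⟩ := Finset.not_subset.mp hS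
  refine altsum_zero hiS (fun T => f (rst o T z)) ?_
  intro T
  refine hf _ _ ?_
  intro j hj
  have hji : j ≠ i := fun h => hiD (h ▸ hj)
  simp [rst, hji]

lemma mob_zero_of_anchor (o : ∀ i, A i) {S : Finset ι} {f : (∀ i, A i) → ℝ} {z : ∀ i, A i}
    {i : ι} (hi : i ∈ S) (hz : z i = o i) : mob o S f z = 0 := by
  refine altsum_zero hi (fun T => f (rst o T z)) ?_
  intro T
  have : rst o (insert i T) z = rst o T z := by
    funext j
    unfold rst
    by_cases hj : j = i
    · subst hj
      simp [hz]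
    · simp [hj]
  simp only [this]

lemma mob_add (o : ∀ i, A i) (S : Finset ι) (f g : (∀ i, A i) → ℝ) (z : ∀ i, A i) :
    mob o S (f + g) z = mob o S f z + mob o S g z := by
  unfold mob
  rw [← Finset.sum_add_distrib]
  refine Finset.sum_congr rfl fun T _ => ?_
  simp [mul_add]

lemma mob_smul (o : ∀ i, A i) (S : Finset ι) (a : ℝ) (f : (∀ i, A i) → ℝ) (z : ∀ i, A i) :
    mob o S (a • f) z = a * mob o S f z := by
  unfold mob
  rw [Finset.mul_sum]
  refine Finset.sum_congr rfl fun T _ => ?_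
  simp; ring

lemma mob_sub (o : ∀ i, A i) (S : Finset ι) (f g : (∀ i, A i) → ℝ) (z : ∀ i, A i) :
    mob o S (f - g) z = mob o S f z - mob o S g z := by
  unfold mob
  rw [← Finset.sum_sub_distrib]
  refine Finset.sum_congr rfl fun T _ => ?_
  simp [mul_sub]

lemma mob_zero_of_JD (o : ∀ i, A i) {S : Finset ι} {d : ℕ} (hS : d < S.card)
    {f : (∀ i, A i) → ℝ} (hf : f ∈ (JD d : Submodule ℝ ((∀ i, A i) → ℝ))) (z : ∀ i, A i) :
    mob o S f z = 0 := by
  unfold JD at hf
  induction hf using Submodule.span_induction with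
  | mem f hf =>
    obtain ⟨D, hD, hfD⟩ := hf
    refine mob_zero_of_dep o (D := D) hfD ?_ z
    intro h
    exact absurd (Finset.card_le_card h) (by omega)
  | zero => simp [mob]
  | add f₁ f₂ _ _ h1 h2 => rw [mob_add, h1, h2, add_zero]
  | smul a f _ h => rw [mob_smul, h, mul_zero]

lemma altsum_super [Fintype ι] (T : Finset ι) :
    ∑ S ∈ Finset.univ.filter (fun S : Finset ι => T ⊆ S), ((-1 : ℝ)) ^ (S.card + T.card)
      = if T = Finset.univ then 1 else 0 := by
  have h1 : ∑ S ∈ Finset.univ.filter (fun S : Finset ι => T ⊆ S), ((-1 : ℝ)) ^ (S.card + T.card)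
      = ∑ R ∈ (Tᶜ).powerset, ((-1 : ℝ)) ^ R.card := by
    refine Finset.sum_nbij' (fun S => S \ T) (fun R => T ∪ R) ?_ ?_ ?_ ?_ ?_
    · intro S _
      rw [Finset.mem_powerset]
      intro i hi
      rw [Finset.mem_compl]
      exact (Finset.mem_sdiff.mp hi).2
    · intro R _
      rw [Finset.mem_filter]
      exact ⟨Finset.mem_univ _, Finset.subset_union_left⟩
    · intro S hS
      exact Finset.union_sdiff_of_subset (Finset.mem_filter.mp hS).2
    · intro R hR
      rw [Finset.mem_powerset] at hR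
      ext i
      simp only [Finset.mem_sdiff, Finset.mem_union]
      constructor
      · rintro ⟨h1 | h1, h2⟩
        · exact absurd h1 h2
        · exact h1
      · intro h
        exact ⟨Or.inr h, Finset.mem_compl.mp (hR h)⟩
    · intro S hS
      have hTS := (Finset.mem_filter.mp hS).2
      have hc := Finset.card_sdiff_add_card_eq_card hTS
      rw [← hc]
      have : (S \ T).card + T.card + T.card = (S \ T).card + 2 * T.card := by ring
      rw [this, pow_add, pow_mul]
      simp
  rw [h1]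
  have h2 := Finset.sum_powerset_neg_one_pow_card (x := Tᶜ)
  have h3 : ((∑ m ∈ (Tᶜ).powerset, (-1 : ℤ) ^ m.card : ℤ) : ℝ) = ∑ R ∈ (Tᶜ).powerset, ((-1 : ℝ)) ^ R.card := by
    push_cast; rfl
  rw [← h3, h2]
  simp only [Finset.compl_eq_empty_iff]
  split_ifs <;> simp

lemma mob_inv [Fintype ι] (o : ∀ i, A i) (f : (∀ i, A i) → ℝ) (z : ∀ i, A i) :
    f z = ∑ S : Finset ι, mob o S f z := by
  have h1 : ∑ S : Finset ι, mob o S f z
      = ∑ T : Finset ι, ∑ S ∈ Finset.univ.filter (fun S : Finset ι => T ⊆ S),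
          ((-1 : ℝ)) ^ (S.card + T.card) * f (rst o T z) := by
    unfold mob
    refine Finset.sum_comm' ?_
    intro S T
    simp
  rw [h1]
  have h2 : ∀ T : Finset ι, ∑ S ∈ Finset.univ.filter (fun S : Finset ι => T ⊆ S),
          ((-1 : ℝ)) ^ (S.card + T.card) * f (rst o T z)
        = if T = Finset.univ then f (rst o T z) else 0 := by
    intro T
    rw [← Finset.sum_mul, altsum_super]
    split_ifs <;> simp
  rw [Finset.sum_congr rfl (fun T _ => h2 T)]
  have h3 : rst o Finset.univ z = z := by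
    funext i
    simp [rst]
  simp [h3]

lemma mem_JD_of_mob [Fintype ι] (o : ∀ i, A i) {d : ℕ} {f : (∀ i, A i) → ℝ}
    (hf : f ∈ (JD (d + 1) : Submodule ℝ ((∀ i, A i) → ℝ)))
    (h : ∀ S : Finset ι, S.card = d + 1 → ∀ z, mob o S f z = 0) :
    f ∈ (JD d : Submodule ℝ ((∀ i, A i) → ℝ)) := by
  have h1 : f = ∑ S ∈ Finset.univ.filter (fun S : Finset ι => S.card ≤ d), mob o S f := by
    funext z
    rw [Finset.sum_apply]
    conv_lhs => rw [mob_inv o f z]
    rw [Finset.sum_filter]
    refine Finset.sum_congr rfl fun S _ => ?_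
    split_ifs with hS
    · rfl
    · rcases Nat.lt_or_ge (d + 1) S.card with h2 | h2
      · exact mob_zero_of_JD o h2 hf z
      · exact h S (by omega) z
  rw [h1]
  refine Submodule.sum_mem _ fun S hS => ?_
  exact mem_JD_of_dep (Finset.mem_filter.mp hS).2 (mob_dep o S f)

/-- support: coordinates different from the anchor -/
def spt [Fintype ι] [∀ i, DecidableEq (A i)] (o z : ∀ i, A i) : Finset ι :=
  Finset.univ.filter (fun i => z i ≠ o i)

/-- the class functional -/
noncomputable def clR [Fintype ι] [∀ i, DecidableEq (A i)] (o : ∀ i, A i) (f : (∀ i, A i) → ℝ)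
    (z : ∀ i, A i) : ℝ := mob o (spt o z) f z

lemma mem_JD_of_cl [Fintype ι] [∀ i, DecidableEq (A i)] (o : ∀ i, A i) {d : ℕ}
    {f g : (∀ i, A i) → ℝ}
    (hf : f ∈ (JD (d + 1) : Submodule ℝ ((∀ i, A i) → ℝ)))
    (hg : g ∈ (JD (d + 1) : Submodule ℝ ((∀ i, A i) → ℝ)))
    (h : ∀ z, (spt o z).card = d + 1 → clR o f z = clR o g z) :
    f - g ∈ (JD d : Submodule ℝ ((∀ i, A i) → ℝ)) := by
  refine mem_JD_of_mob o (Submodule.sub_mem _ hf hg) ?_
  intro S hS z
  by_cases hz : ∃ i ∈ S, z i = o i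
  · obtain ⟨i, hi, hzi⟩ := hz
    exact mob_zero_of_anchor o hi hzi
  · push Not at hz
    have h1 : spt o (rst o S z) = S := by
      ext i
      unfold spt rst
      rw [Finset.mem_filter]
      constructor
      · rintro ⟨_, h⟩
        by_contra hi
        simp [hi] at h
      · intro hi
        refine ⟨Finset.mem_univ _, ?_⟩
        simp only [hi, if_true]
        exact hz i hi
    have h2 : mob o S (f - g) z = mob o S (f - g) (rst o S z) := by
      refine mob_dep o S (f - g) _ _ ?_
      intro i hi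
      simp [rst, hi]
    rw [h2, mob_sub]
    have h3 := h (rst o S z) (by rw [h1]; exact hS)
    unfold clR at h3
    rw [h1] at h3
    rw [h3, sub_self]

/-- integer valued class functional of a Boolean function -/
def clZ [Fintype ι] [∀ i, DecidableEq (A i)] (o : ∀ i, A i) (F : (∀ i, A i) → Bool)
    (z : ∀ i, A i) : ℤ :=
  ∑ T ∈ (spt o z).powerset, (-1) ^ ((spt o z).card + T.card) * (if F (rst o T z) = true then 1 else 0)

lemma clZ_cast [Fintype ι] [∀ i, DecidableEq (A i)] (o : ∀ i, A i) (F : (∀ i, A i) → Bool)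
    (z : ∀ i, A i) : ((clZ o F z : ℤ) : ℝ) = clR o (ind F) z := by
  unfold clZ clR mob ind
  push_cast
  rfl

lemma clZ_abs [Fintype ι] [∀ i, DecidableEq (A i)] (o : ∀ i, A i) (F : (∀ i, A i) → Bool)
    (z : ∀ i, A i) : |clZ o F z| ≤ 2 ^ (spt o z).card := by
  unfold clZ
  refine (Finset.abs_sum_le_sum_abs _ _).trans ?_
  have : ∀ T ∈ (spt o z).powerset,
      |(-1 : ℤ) ^ ((spt o z).card + T.card) * (if F (rst o T z) = true then 1 else 0)| ≤ 1 := by
    intro T _
    rw [abs_mul, abs_pow, abs_neg, abs_one, one_pow, one_mul]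
    split_ifs <;> simp
  refine (Finset.sum_le_sum this).trans ?_
  simp [Finset.card_powerset]

end Mob

end Crest.Agent.KG
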