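import Crest.Agent.KG.Rnd1

set_option autoImplicit false

namespace Crest.Agent.KG

open Finset

lemma cs_classes {X C : Type} [DecidableEq C] (w : X → ℝ) (cl : X → C)
    (T : Finset X) (CC : Finset C) (h : ∀ x ∈ T, cl x ∈ CC) :
    (∑ x ∈ T, w x) ^ 2 ≤ (CC.card : ℝ) * ∑ x ∈ T, ∑ y ∈ T, (if cl x = cl y then w x * w y else 0) := by
  classical
  have h1 : ∑ x ∈ T, w x = ∑ c ∈ CC, ∑ x ∈ T, (if cl x = c then w x else 0) := by
    rw [Finset.sum_comm]
    refine Finset.sum_congr rfl fun x hx => ?_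
    rw [Finset.sum_ite_eq, if_pos (h x hx)]
  have h2 : ∑ x ∈ T, ∑ y ∈ T, (if cl x = cl y then w x * w y else 0)
      = ∑ c ∈ CC, (∑ x ∈ T, (if cl x = c then w x else 0)) ^ 2 := by
    have h3 : ∀ c ∈ CC, (∑ x ∈ T, (if cl x = c then w x else 0)) ^ 2
        = ∑ x ∈ T, ∑ y ∈ T, (if cl x = c then w x else 0) * (if cl y = c then w y else 0) := by
      intro c _
      rw [sq, Finset.sum_mul_sum]
    rw [Finset.sum_congr rfl h3]
    symm
    rw [Finset.sum_comm]
    refine Finset.sum_congr rfl fun x hx => ?_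
    rw [Finset.sum_comm]
    refine Finset.sum_congr rfl fun y hy => ?_
    have h4 : ∀ c ∈ CC, (if cl x = c then w x else 0) * (if cl y = c then w y else 0)
        = if cl x = c then (if cl x = cl y then w x * w y else 0) else 0 := by
      intro c _
      by_cases hxc : cl x = c
      · subst hxc
        by_cases hxy : cl x = cl y
        · simp [hxy]
        · have : ¬ cl y = cl x := fun h => hxy h.symm
          simp [hxy, this]
      · simp [hxc]
    rw [Finset.sum_congr rfl h4, Finset.sum_ite_eq, if_pos (h x hx)]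
  rw [h1, h2]
  exact sq_sum_le_card_mul_sum_sq

section L1

open Classical in
/-- probability that the random `F` lies in `JD d` -/
noncomputable def Zp {ι : Type} [Fintype ι] [DecidableEq ι] {A : ι → Type} [∀ i, Fintype (A i)]
    [∀ i, DecidableEq (A i)] (d : ℕ) (q : (∀ i, A i) → ℝ) : ℝ :=
  ∑ F : (∀ i, A i) → Bool,
    if ind F ∈ (JD d : Submodule ℝ ((∀ i, A i) → ℝ)) then bw q F else 0

lemma bw_sum {Ω : Type} [Fintype Ω] [DecidableEq Ω] (q : Ω → ℝ) :
    ∑ F : Ω → Bool, bw q F = 1 := by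
  unfold bw
  have h := Finset.prod_univ_sum (fun _ : Ω => (Finset.univ : Finset Bool))
    (fun z b => if b = true then q z else 1 - q z)
  simp only [Fintype.piFinset_univ] at h
  rw [← h]
  refine Finset.prod_eq_one fun z _ => ?_
  simp

variable {ι : Type} [Fintype ι] [DecidableEq ι] {A : ι → Type}

/-- glue a letter at `i0` to a word on the other coordinates -/
def glue (i0 : ι) (a : A i0) (w : ∀ j : {j // j ≠ i0}, A j) : ∀ i, A i :=
  (Equiv.piSplitAt i0 A).symm (a, w)

lemma glue_self (i0 : ι) (a : A i0) (w : ∀ j : {j // j ≠ i0}, A j) : glue i0 a w i0 = a := by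
  simp [glue, Equiv.piSplitAt]

lemma glue_ne (i0 : ι) (a : A i0) (w : ∀ j : {j // j ≠ i0}, A j) {i : ι} (h : i ≠ i0) :
    glue i0 a w i = w ⟨i, h⟩ := by
  simp [glue, Equiv.piSplitAt, h]

/-- the splitting of the word space -/
def spl (i0 : ι) (E : A i0 ≃ Bool) : (∀ i, A i) ≃ Bool × (∀ j : {j // j ≠ i0}, A j) :=
  (Equiv.piSplitAt i0 A).trans (Equiv.prodCongr E (Equiv.refl _))

lemma spl_symm (i0 : ι) (E : A i0 ≃ Bool) (b : Bool) (w : ∀ j : {j // j ≠ i0}, A j) :
    (spl i0 E).symm (b, w) = glue i0 (E.symm b) w := rfl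

lemma spl_apply (i0 : ι) (E : A i0 ≃ Bool) (z : ∀ i, A i) :
    spl i0 E z = (E (z i0), fun j : {j // j ≠ i0} => z j) := rfl

/-- splitting of Boolean functions -/
def splF (i0 : ι) (E : A i0 ≃ Bool) : ((∀ i, A i) → Bool) ≃
    ((∀ j : {j // j ≠ i0}, A j) → Bool) × ((∀ j : {j // j ≠ i0}, A j) → Bool) where
  toFun F := (fun w => F ((spl i0 E).symm (false, w)), fun w => F ((spl i0 E).symm (true, w)))
  invFun G := fun z => if (spl i0 E z).1 = true then G.2 (spl i0 E z).2 else G.1 (spl i0 E z).2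
  left_inv F := by
    funext z
    have hz : (spl i0 E).symm ((spl i0 E z).1, (spl i0 E z).2) = z := by simp
    show (if (spl i0 E z).1 = true then F ((spl i0 E).symm (true, (spl i0 E z).2))
      else F ((spl i0 E).symm (false, (spl i0 E z).2))) = F z
    split_ifs with h
    · rw [h] at hz; rw [hz]
    · have h' : (spl i0 E z).1 = false := by simpa using h
      rw [h'] at hz; rw [hz]
  right_inv G := by
    ext w <;> simp

variable [∀ i, Fintype (A i)] [∀ i, DecidableEq (A i)]

lemma bw_split (i0 : ι) (E : A i0 ≃ Bool) {D : Finset ι} (hi0 : i0 ∉ D)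
    (q : (∀ i, A i) → ℝ) (hq : Dep D q) (F : (∀ i, A i) → Bool) :
    bw q F = bw (fun w => q (glue i0 (E.symm false) w)) (splF i0 E F).1 *
      bw (fun w => q (glue i0 (E.symm false) w)) (splF i0 E F).2 := by
  unfold bw
  rw [← Equiv.prod_comp (spl i0 E).symm, Fintype.prod_prod_type, Fintype.prod_bool, mul_comm]
  have hqq : ∀ w, q ((spl i0 E).symm (true, w)) = q (glue i0 (E.symm false) w) := by
    intro w
    rw [spl_symm]
    refine hq _ _ ?_
    intro i hi
    have : i ≠ i0 := fun h => hi0 (h ▸ hi)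
    rw [glue_ne _ _ _ this, glue_ne _ _ _ this]
  congr 1
  refine Finset.prod_congr rfl fun w _ => ?_
  rw [hqq w]
  rfl

lemma ind_split_mem (i0 : ι) (E : A i0 ≃ Bool) {d : ℕ}
    (G : ((∀ j : {j // j ≠ i0}, A j) → Bool) × ((∀ j : {j // j ≠ i0}, A j) → Bool))
    (h0 : ind G.1 ∈ (JD (d + 1) : Submodule ℝ ((∀ j : {j // j ≠ i0}, A j) → ℝ)))
    (h1 : ind G.2 - ind G.1 ∈ (JD d : Submodule ℝ ((∀ j : {j // j ≠ i0}, A j) → ℝ))) :
    ind ((splF i0 E).symm G) ∈ (JD (d + 1) : Submodule ℝ ((∀ i, A i) → ℝ)) := by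
  have e : ind ((splF i0 E).symm G) =
      (fun x : (∀ i, A i) => ind G.1 (fun j : {j // j ≠ i0} => x j)) +
      (fun x : (∀ i, A i) => (ind G.2 - ind G.1) (fun j : {j // j ≠ i0} => x j) *
        (if E (x i0) = true then (1 : ℝ) else 0)) := by
    funext x
    show (if (if (spl i0 E x).1 = true then G.2 (spl i0 E x).2 else G.1 (spl i0 E x).2) = true
      then (1 : ℝ) else 0) = _
    rw [spl_apply]
    simp only [Pi.add_apply, Pi.sub_apply]
    by_cases h : E (x i0) = true
    · simp only [h, if_true, mul_one]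
      unfold ind
      ring
    · simp only [h, if_false, mul_zero, add_zero]
      unfold ind
      simp
  rw [e]
  refine Submodule.add_mem _ ?_ ?_
  · exact comp_mem_JD (ι := ι) (A := A) (κ := {j // j ≠ i0}) (B := fun j : {j // j ≠ i0} => A j)
      (fun j : {j // j ≠ i0} => (j : ι)) (fun j a => a) h0
  · have h2 := comp_mem_JD (ι := ι) (A := A) (κ := {j // j ≠ i0})
      (B := fun j : {j // j ≠ i0} => A j)
      (fun j : {j // j ≠ i0} => (j : ι)) (fun j a => a) h1
    refine mul_mem_JD h2 ?_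
    refine mem_JD_of_dep (S := {i0}) (by simp) ?_
    intro x y hxy
    have := hxy i0 (Finset.mem_singleton_self i0)
    show (if E (x i0) = true then (1 : ℝ) else 0) = (if E (y i0) = true then (1 : ℝ) else 0)
    rw [this]

/-- words with at most `t` anchors in `D` -/
def few (o : ∀ i, A i) (D : Finset ι) (t : ℕ) : Finset (∀ i, A i) :=
  Finset.univ.filter (fun z => (D.filter (fun i => z i = o i)).card ≤ t)

lemma few_split (i0 : ι) (E : A i0 ≃ Bool) (o : ∀ i, A i) {D : Finset ι} (hi0 : i0 ∉ D) (t : ℕ) :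
    2 * (few (fun j : {j // j ≠ i0} => o j) (D.subtype (fun j => j ≠ i0)) t).card
      ≤ (few o D t).card := by
  have h1 : ((Finset.univ : Finset Bool) ×ˢ
      (few (fun j : {j // j ≠ i0} => o j) (D.subtype (fun j => j ≠ i0)) t)).card
      = 2 * (few (fun j : {j // j ≠ i0} => o j) (D.subtype (fun j => j ≠ i0)) t).card := by
    rw [Finset.card_product]; simp
  rw [← h1]
  refine Finset.card_le_card_of_injOn (fun p => (spl i0 E).symm p) ?_ ?_
  · rintro ⟨b, w⟩ hp
    have hw : w ∈ few (fun j : {j // j ≠ i0} => o j) (D.subtype (fun j => j ≠ i0)) t :=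
      (Finset.mem_product.mp hp).2
    unfold few at hw
    rw [Finset.mem_filter] at hw
    show (spl i0 E).symm (b, w) ∈ (few o D t : Set (∀ i, A i))
    rw [Finset.mem_coe]
    unfold few
    rw [Finset.mem_filter]
    refine ⟨Finset.mem_univ _, ?_⟩
    refine le_trans ?_ hw.2
    have : D.filter (fun i => (spl i0 E).symm (b, w) i = o i) ⊆
        ((D.subtype (fun j => j ≠ i0)).filter (fun j => w j = o j)).image
          (fun j : {j // j ≠ i0} => (j : ι)) := by
      intro i hi
      rw [Finset.mem_filter] at hi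
      have hne : i ≠ i0 := fun h => hi0 (h ▸ hi.1)
      rw [Finset.mem_image]
      refine ⟨⟨i, hne⟩, ?_, rfl⟩
      rw [Finset.mem_filter, Finset.mem_subtype]
      refine ⟨hi.1, ?_⟩
      have h2 := hi.2
      rw [spl_symm, glue_ne _ _ _ hne] at h2
      exact h2
    exact (Finset.card_le_card this).trans Finset.card_image_le
  · intro p _ p' _ h
    exact (spl i0 E).symm.injective h

/-- the number of points of support size `d+1` is at most the number of words with few anchors -/
lemma card_spt_le (o : ∀ i, A i) (D : Finset ι) {d n t : ℕ} (hι : Fintype.card ι = d + 1 + n)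
    (hn : n ≤ t) :
    Fintype.card {w : (∀ i, A i) // (spt o w).card = d + 1} ≤ (few o D t).card := by
  rw [Fintype.card_subtype]
  refine Finset.card_le_card ?_
  intro w hw
  rw [Finset.mem_filter] at hw
  unfold few
  rw [Finset.mem_filter]
  refine ⟨Finset.mem_univ _, ?_⟩
  have h1 : (D.filter (fun i => w i = o i)).card ≤ ((spt o w)ᶜ).card := by
    refine Finset.card_le_card ?_
    intro i hi
    rw [Finset.mem_filter] at hi
    rw [Finset.mem_compl]
    unfold spt
    rw [Finset.mem_filter]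
    rintro ⟨_, h⟩
    exact h hi.2
  rw [Finset.card_compl, hw.2, hι] at h1
  omega

end L1

lemma l1_base (t d : ℕ) {ι : Type} [Fintype ι] [DecidableEq ι] {A : ι → Type}
    [∀ i, Fintype (A i)] [∀ i, DecidableEq (A i)] (o : ∀ i, A i) (D : Finset ι)
    (q : (∀ i, A i) → ℝ) (hι : Fintype.card ι ≤ d + 1) :
    (((2 : ℝ) ^ (d + 3)) ^ (0 * (few o D t).card))⁻¹ ≤ Zp (d + 1) q := by
  have h1 : Zp (d + 1) q = ∑ F : (∀ i, A i) → Bool, bw q F := by
    unfold Zp
    refine Finset.sum_congr rfl fun F _ => ?_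
    exact if_pos (mem_JD_card hι _)
  rw [h1, bw_sum]
  simp

theorem l1_aux (t d : ℕ) : ∀ (n : ℕ) (ι : Type) [Fintype ι] [DecidableEq ι] (A : ι → Type)
    [∀ i, Fintype (A i)] [∀ i, DecidableEq (A i)] (o : ∀ i, A i) (D : Finset ι)
    (q : (∀ i, A i) → ℝ), D.card = d + 1 → Fintype.card ι = d + 1 + n → n ≤ t + 1 →
    (∀ i, i ∉ D → Fintype.card (A i) = 2) → Dep D q → (∀ z, 0 ≤ q z) → (∀ z, q z ≤ 1) →
    (((2 : ℝ) ^ (d + 3)) ^ (n * (few o D t).card))⁻¹ ≤ Zp (d + 1) q := by
  classical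
  intro n
  induction n with
  | zero =>
    intro ι _ _ A _ _ o D q hD hι _ _ _ hq0 hq1
    exact l1_base t d o D q (by omega)
  | succ n ih =>
    intro ι _ _ A _ _ o D q hD hι hn hbin hq hq0 hq1
    -- choose a coordinate outside D
    have hex : ∃ i0, i0 ∉ D := by
      by_contra hcon
      push Not at hcon
      have : D = Finset.univ := Finset.eq_univ_iff_forall.mpr hcon
      rw [this, Finset.card_univ, hι] at hD
      omega
    obtain ⟨i0, hi0⟩ := hex
    have hE : Fintype.card (A i0) = Fintype.card Bool := by rw [hbin i0 hi0]; simp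
    let E : A i0 ≃ Bool := Fintype.equivOfCardEq hE
    let A₁ : {j // j ≠ i0} → Type := fun j => A j
    let o₁ : ∀ j : {j // j ≠ i0}, A₁ j := fun j => o j
    let D₁ : Finset {j // j ≠ i0} := D.subtype (fun j => j ≠ i0)
    let q₁ : (∀ j, A₁ j) → ℝ := fun w => q (glue i0 (E.symm false) w)
    have hcard₁ : Fintype.card {j // j ≠ i0} = d + 1 + n := by
      have := Fintype.card_subtype_compl (fun j : ι => j = i0)
      simp only [Fintype.card_subtype_eq] at this
      show Fintype.card {j // ¬ j = i0} = d + 1 + n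
      rw [this]; omega
    have hD₁ : D₁.card = d + 1 := by
      show (D.subtype (fun j => j ≠ i0)).card = d + 1
      rw [Finset.card_subtype, Finset.filter_true_of_mem, hD]
      intro i hi h
      exact hi0 (h ▸ hi)
    have ih1 := ih {j // j ≠ i0} A₁ o₁ D₁ q₁ hD₁ hcard₁ (by omega)
      (by
        rintro ⟨j, hj⟩ hjD
        refine hbin j ?_
        intro h
        exact hjD (by rw [Finset.mem_subtype]; exact h))
      (by
        intro x y hxy
        refine hq _ _ ?_
        intro i hi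
        have hne : i ≠ i0 := fun h => hi0 (h ▸ hi)
        rw [glue_ne _ _ _ hne, glue_ne _ _ _ hne]
        exact hxy ⟨i, hne⟩ (by rw [Finset.mem_subtype]; exact hi))
      (fun w => hq0 _) (fun w => hq1 _)
    set Z₁ := Zp (d + 1) q₁ with hZ₁
    -- Cauchy-Schwarz
    let T : Finset ((∀ j, A₁ j) → Bool) :=
      Finset.univ.filter (fun G => ind G ∈ (JD (d + 1) : Submodule ℝ ((∀ j, A₁ j) → ℝ)))
    let cl : ((∀ j, A₁ j) → Bool) → ({w : (∀ j, A₁ j) // (spt o₁ w).card = d + 1} → ℤ) :=
      fun G w => clZ o₁ G w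
    let CC : Finset ({w : (∀ j, A₁ j) // (spt o₁ w).card = d + 1} → ℤ) :=
      Fintype.piFinset (fun _ => Finset.Icc (-(2 ^ (d + 1) : ℤ)) (2 ^ (d + 1)))
    have hcs := cs_classes (fun G => bw q₁ G) cl T CC (by
      intro G _
      rw [Fintype.mem_piFinset]
      rintro ⟨w, hw⟩
      have := clZ_abs o₁ G w
      rw [hw] at this
      rw [Finset.mem_Icc]
      exact abs_le.mp this)
    have hT : ∑ G ∈ T, bw q₁ G = Z₁ := by
      rw [hZ₁]
      unfold Zp
      rw [Finset.sum_filter]
    rw [hT] at hcs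
    have hq₁0 : ∀ w, 0 ≤ q₁ w := fun w => hq0 _
    have hq₁1 : ∀ w, q₁ w ≤ 1 := fun w => hq1 _
    -- comparison with Zp
    have hZ : ∑ x ∈ T, ∑ y ∈ T, (if cl x = cl y then bw q₁ x * bw q₁ y else 0) ≤ Zp (d + 1) q := by
      unfold Zp
      rw [← Equiv.sum_comp (splF i0 E).symm, Fintype.sum_prod_type]
      rw [Finset.sum_filter]
      refine Finset.sum_le_sum fun x _ => ?_
      rw [Finset.sum_filter]
      have hnn : ∀ y : (∀ j, A₁ j) → Bool, 0 ≤ (if ind ((splF i0 E).symm (x, y)) ∈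
          (JD (d + 1) : Submodule ℝ ((∀ i, A i) → ℝ)) then bw q ((splF i0 E).symm (x, y)) else 0) := by
        intro y
        split_ifs
        · exact bw_nonneg hq0 hq1 _
        · exact le_rfl
      split_ifs with hx
      · refine Finset.sum_le_sum fun y _ => ?_
        by_cases hy : ind y ∈ (JD (d + 1) : Submodule ℝ ((∀ j, A₁ j) → ℝ))
        · rw [if_pos hy]
          by_cases hxy : cl x = cl y
          · have hmem : ind ((splF i0 E).symm (x, y)) ∈
                (JD (d + 1) : Submodule ℝ ((∀ i, A i) → ℝ)) := by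
              refine ind_split_mem i0 E (x, y) hx ?_
              exact mem_JD_of_cl o₁ hy hx (fun z hz => by
                rw [← clZ_cast, ← clZ_cast]
                have h6 : clZ o₁ x z = clZ o₁ y z := congrFun hxy ⟨z, hz⟩
                rw [h6])
            rw [if_pos hxy, if_pos hmem, bw_split i0 E hi0 q hq, Equiv.apply_symm_apply]
          · rw [if_neg hxy]; exact hnn y
        · rw [if_neg hy]; exact hnn y
      · exact Finset.sum_nonneg fun y _ => hnn y
    -- the size of CC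
    have hCC : (CC.card : ℝ) ≤ ((2 : ℝ) ^ (d + 3)) ^ (few o₁ D₁ t).card := by
      have h1 : CC.card = (2 ^ (d + 2) + 1) ^
          Fintype.card {w : (∀ j, A₁ j) // (spt o₁ w).card = d + 1} := by
        show (Fintype.piFinset _).card = _
        rw [Fintype.card_piFinset]
        simp only [Int.card_Icc, Finset.prod_const, Finset.card_univ]
        congr 1
        have : ((2 : ℤ) ^ (d + 1) + 1 - -2 ^ (d + 1)) = ((2 ^ (d + 2) + 1 : ℕ) : ℤ) := by
          push_cast; ring
        rw [this]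
        exact Int.toNat_natCast _
      rw [h1]
      push_cast
      have h2 : ((2 : ℝ) ^ (d + 2) + 1) ≤ 2 ^ (d + 3) := by
        have : (1 : ℝ) ≤ 2 ^ (d + 2) := one_le_pow₀ (by norm_num)
        rw [pow_succ 2 (d + 2)]
        linarith
      calc ((2 : ℝ) ^ (d + 2) + 1) ^ Fintype.card {w : (∀ j, A₁ j) // (spt o₁ w).card = d + 1}
          ≤ ((2 : ℝ) ^ (d + 3)) ^ Fintype.card {w : (∀ j, A₁ j) // (spt o₁ w).card = d + 1} :=
            pow_le_pow_left₀ (by positivity) h2 _
        _ ≤ ((2 : ℝ) ^ (d + 3)) ^ (few o₁ D₁ t).card :=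
            pow_le_pow_right₀ (one_le_pow₀ (by norm_num))
              (card_spt_le o₁ D₁ hcard₁ (by omega))
    have hfew : 2 * (few o₁ D₁ t).card ≤ (few o D t).card := few_split i0 E o hi0 t
    have hB1 : (1 : ℝ) ≤ (2 : ℝ) ^ (d + 3) := one_le_pow₀ (by norm_num)
    have hB0 : (0 : ℝ) < (2 : ℝ) ^ (d + 3) := by positivity
    have hZp0 : 0 ≤ Zp (d + 1) q := by
      unfold Zp
      refine Finset.sum_nonneg fun F _ => ?_
      split_ifs
      · exact bw_nonneg hq0 hq1 _
      · exact le_rfl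
    have h7 : Z₁ ^ 2 ≤ ((2 : ℝ) ^ (d + 3)) ^ (few o₁ D₁ t).card * Zp (d + 1) q := by
      refine hcs.trans ?_
      refine (mul_le_mul_of_nonneg_left hZ (Nat.cast_nonneg _)).trans ?_
      exact mul_le_mul_of_nonneg_right hCC hZp0
    have h8 : ((((2 : ℝ) ^ (d + 3)) ^ (n * (few o₁ D₁ t).card))⁻¹) ^ 2 ≤ Z₁ ^ 2 :=
      pow_le_pow_left₀ (by positivity) ih1 2
    have h9 := h8.trans h7
    rw [← inv_pow, ← pow_mul] at h9
    have h10 : ((((2 : ℝ) ^ (d + 3))⁻¹) ^ (n * (few o₁ D₁ t).card * 2)) *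
        (((2 : ℝ) ^ (d + 3))⁻¹) ^ (few o₁ D₁ t).card ≤ Zp (d + 1) q := by
      have h11 : (((2 : ℝ) ^ (d + 3))⁻¹) ^ (few o₁ D₁ t).card *
          ((2 : ℝ) ^ (d + 3)) ^ (few o₁ D₁ t).card = 1 := by
        rw [← mul_pow, inv_mul_cancel₀ hB0.ne', one_pow]
      have h12 := mul_le_mul_of_nonneg_right h9
        (show 0 ≤ (((2 : ℝ) ^ (d + 3))⁻¹) ^ (few o₁ D₁ t).card by positivity)
      refine h12.trans (le_of_eq ?_)
      calc ((2 : ℝ) ^ (d + 3)) ^ (few o₁ D₁ t).card * Zp (d + 1) q *
            (((2 : ℝ) ^ (d + 3))⁻¹) ^ (few o₁ D₁ t).card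
          = ((((2 : ℝ) ^ (d + 3))⁻¹) ^ (few o₁ D₁ t).card *
          ((2 : ℝ) ^ (d + 3)) ^ (few o₁ D₁ t).card) * Zp (d + 1) q := by ring
        _ = Zp (d + 1) q := by rw [h11, one_mul]
    rw [← pow_add] at h10
    refine le_trans ?_ h10
    rw [← inv_pow]
    refine pow_le_pow_of_le_one (by positivity) (inv_le_one_of_one_le₀ hB1) ?_
    nlinarith [hfew]

end Crest.Agent.KG
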