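import Crest.Agent.KG.RndDefs

set_option autoImplicit false

namespace Crest.Agent.KG

open Finset

theorem mcd_exp_le (x : ℝ) : Real.exp x ≤ x + Real.exp (x ^ 2) := by
  have h1 : 1 + x ^ 2 ≤ Real.exp (x ^ 2) := by linarith [Real.add_one_le_exp (x ^ 2)]
  rcases le_or_gt |x| 1 with h | h
  · have h2 := Real.abs_exp_sub_one_sub_id_le h
    have h3 := (abs_le.1 h2).2
    linarith
  · rcases lt_abs.1 h with h | h
    · have : Real.exp x ≤ Real.exp (x ^ 2) := Real.exp_le_exp.2 (by nlinarith)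
      linarith
    · have h2 : Real.exp x ≤ 1 := Real.exp_le_one_iff.2 (by linarith)
      nlinarith

theorem mcd_two (p x1 x0 l : ℝ) (hp0 : 0 ≤ p) (hp1 : p ≤ 1) (hx : |x1 - x0| ≤ 1) :
    p * Real.exp (-l * x1) + (1 - p) * Real.exp (-l * x0) ≤
      Real.exp (-l * (p * x1 + (1 - p) * x0) + l ^ 2) := by
  set m := p * x1 + (1 - p) * x0 with hm
  have h1 : (x1 - m) ^ 2 ≤ 1 := by
    have e : x1 - m = (1 - p) * (x1 - x0) := by rw [hm]; ring
    rw [e, mul_pow]
    have h2 : (x1 - x0) ^ 2 ≤ 1 := by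
      rw [← sq_abs]; exact pow_le_one₀ (abs_nonneg _) hx
    have h3 : (1 - p) ^ 2 ≤ 1 := pow_le_one₀ (by linarith) (by linarith)
    calc (1 - p) ^ 2 * (x1 - x0) ^ 2 ≤ 1 * 1 := mul_le_mul h3 h2 (sq_nonneg _) zero_le_one
      _ = 1 := one_mul 1
  have h0 : (x0 - m) ^ 2 ≤ 1 := by
    have e : x0 - m = - (p * (x1 - x0)) := by rw [hm]; ring
    rw [e, neg_sq, mul_pow]
    have h2 : (x1 - x0) ^ 2 ≤ 1 := by
      rw [← sq_abs]; exact pow_le_one₀ (abs_nonneg _) hx
    have h3 : p ^ 2 ≤ 1 := pow_le_one₀ hp0 hp1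
    calc p ^ 2 * (x1 - x0) ^ 2 ≤ 1 * 1 := mul_le_mul h3 h2 (sq_nonneg _) zero_le_one
      _ = 1 := one_mul 1
  have key : ∀ x : ℝ, (x - m) ^ 2 ≤ 1 →
      Real.exp (-l * x) ≤ Real.exp (-l * m) * (-l * (x - m) + Real.exp (l ^ 2)) := by
    intro x hx
    have e : -l * x = -l * m + (-l * (x - m)) := by ring
    rw [e, Real.exp_add]
    refine mul_le_mul_of_nonneg_left ?_ (Real.exp_pos _).le
    refine (mcd_exp_le _).trans ?_
    have : Real.exp ((-l * (x - m)) ^ 2) ≤ Real.exp (l ^ 2) := by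
      refine Real.exp_le_exp.2 ?_
      have : (-l * (x - m)) ^ 2 = l ^ 2 * (x - m) ^ 2 := by ring
      rw [this]
      nlinarith [sq_nonneg l]
    linarith
  have k1 := mul_le_mul_of_nonneg_left (key x1 h1) hp0
  have k0 := mul_le_mul_of_nonneg_left (key x0 h0) (sub_nonneg.2 hp1)
  rw [Real.exp_add]
  have e : p * (Real.exp (-l * m) * (-l * (x1 - m) + Real.exp (l ^ 2))) +
      (1 - p) * (Real.exp (-l * m) * (-l * (x0 - m) + Real.exp (l ^ 2))) =
      Real.exp (-l * m) * Real.exp (l ^ 2) := by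
    have : p * x1 + (1 - p) * x0 - m = 0 := by rw [hm]; ring
    linear_combination (-l * Real.exp (-l * m)) * this
  linarith

theorem mcd_bw_cons {n : ℕ} (q : Fin (n + 1) → ℝ) (b : Bool) (G : Fin n → Bool) :
    bw q (Fin.cons b G : Fin (n + 1) → Bool) =
      (if b = true then q 0 else 1 - q 0) * bw (fun i => q i.succ) G := by
  unfold bw
  rw [Fin.prod_univ_succ]
  simp

theorem mcd_sum_cons {n : ℕ} (g : (Fin (n + 1) → Bool) → ℝ) :
    ∑ F, g F = (∑ G : Fin n → Bool, g (Fin.cons true G)) +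
      ∑ G : Fin n → Bool, g (Fin.cons false G) := by
  rw [← (Fin.consEquiv (fun _ : Fin (n + 1) => Bool)).sum_comp, Fintype.sum_prod_type,
    Fintype.sum_bool]
  rfl

theorem mcd_bw_sum {n : ℕ} (q : Fin n → ℝ) : ∑ F, bw q F = 1 := by
  induction n with
  | zero => simp [bw]
  | succ n ih =>
    rw [mcd_sum_cons]
    simp only [mcd_bw_cons, if_true, ← Finset.mul_sum, ih]
    simp

theorem mcd_fin {n : ℕ} (q : Fin n → ℝ) (hq0 : ∀ z, 0 ≤ q z) (hq1 : ∀ z, q z ≤ 1)
    (f : (Fin n → Bool) → ℝ) (hf : ∀ F z b, |f (Function.update F z b) - f F| ≤ 1) (l : ℝ) :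
    ∑ F, bw q F * Real.exp (-l * f F) ≤ Real.exp (-l * (∑ F, bw q F * f F) + l ^ 2 * n) := by
  induction n with
  | zero => simp [bw]
  | succ n ih =>
    rw [mcd_sum_cons, mcd_sum_cons]
    simp only [mcd_bw_cons, if_true, Bool.false_eq_true, if_false]
    set q' : Fin n → ℝ := fun i => q i.succ with hq'
    have hs : ∀ (b : Bool), ∀ F z c, |f (Fin.cons b (Function.update F z c)) -
        f (Fin.cons b F)| ≤ 1 := by
      intro b F z c
      rw [Fin.cons_update]
      exact hf _ _ _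
    have h1 := ih q' (fun z => hq0 _) (fun z => hq1 _) (fun G => f (Fin.cons true G)) (hs true)
    have h0 := ih q' (fun z => hq0 _) (fun z => hq1 _) (fun G => f (Fin.cons false G)) (hs false)
    set m1 := ∑ G, bw q' G * f (Fin.cons true G) with hm1
    set m0 := ∑ G, bw q' G * f (Fin.cons false G) with hm0
    have hd : |m1 - m0| ≤ 1 := by
      rw [hm1, hm0, ← Finset.sum_sub_distrib]
      calc |∑ G, (bw q' G * f (Fin.cons true G) - bw q' G * f (Fin.cons false G))|
          ≤ ∑ G, |bw q' G * f (Fin.cons true G) - bw q' G * f (Fin.cons false G)| :=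
            Finset.abs_sum_le_sum_abs _ _
        _ ≤ ∑ G, bw q' G := by
            refine Finset.sum_le_sum (fun G _ => ?_)
            have hb := bw_nonneg (q := q') (fun z => hq0 _) (fun z => hq1 _) G
            rw [← mul_sub, abs_mul, abs_of_nonneg hb]
            have e : (Fin.cons true G : Fin (n + 1) → Bool) =
                Function.update (Fin.cons false G : Fin (n + 1) → Bool) 0 true := by
              rw [Fin.update_cons_zero]
            rw [e]
            have := hf (Fin.cons false G) 0 true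
            nlinarith
        _ = 1 := mcd_bw_sum q'
    have e1 : ∑ G : Fin n → Bool, q 0 * bw q' G * Real.exp (-l * f (Fin.cons true G)) =
        q 0 * ∑ G : Fin n → Bool, bw q' G * Real.exp (-l * f (Fin.cons true G)) := by
      rw [Finset.mul_sum]; exact Finset.sum_congr rfl (fun G _ => by ring)
    have e0 : ∑ G : Fin n → Bool, (1 - q 0) * bw q' G * Real.exp (-l * f (Fin.cons false G)) =
        (1 - q 0) * ∑ G : Fin n → Bool, bw q' G * Real.exp (-l * f (Fin.cons false G)) := by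
      rw [Finset.mul_sum]; exact Finset.sum_congr rfl (fun G _ => by ring)
    have e1' : ∑ G : Fin n → Bool, q 0 * bw q' G * f (Fin.cons true G) = q 0 * m1 := by
      rw [hm1, Finset.mul_sum]; exact Finset.sum_congr rfl (fun G _ => by ring)
    have e0' : ∑ G : Fin n → Bool, (1 - q 0) * bw q' G * f (Fin.cons false G) =
        (1 - q 0) * m0 := by
      rw [hm0, Finset.mul_sum]; exact Finset.sum_congr rfl (fun G _ => by ring)
    rw [e1, e0, e1', e0']
    have k1 := mul_le_mul_of_nonneg_left h1 (hq0 0)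
    have k0 := mul_le_mul_of_nonneg_left h0 (sub_nonneg.2 (hq1 0))
    have k := mcd_two (q 0) m1 m0 l (hq0 0) (hq1 0) hd
    have hE : (0 : ℝ) ≤ Real.exp (l ^ 2 * n) := (Real.exp_pos _).le
    have k' := mul_le_mul_of_nonneg_right k hE
    rw [← Real.exp_add] at k'
    have ee : -l * (q 0 * m1 + (1 - q 0) * m0) + l ^ 2 + l ^ 2 * n =
        -l * (q 0 * m1 + (1 - q 0) * m0) + l ^ 2 * ((n + 1 : ℕ) : ℝ) := by push_cast; ring
    rw [ee] at k'
    refine le_trans ?_ k'
    rw [Real.exp_add] at k1 k0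
    calc _ ≤ q 0 * (Real.exp (-l * m1) * Real.exp (l ^ 2 * n)) +
        (1 - q 0) * (Real.exp (-l * m0) * Real.exp (l ^ 2 * n)) := add_le_add k1 k0
      _ = _ := by ring

theorem mcd {Ω : Type} [Fintype Ω] [DecidableEq Ω] (q : Ω → ℝ) (hq0 : ∀ z, 0 ≤ q z)
    (hq1 : ∀ z, q z ≤ 1) (f : (Ω → Bool) → ℝ) (hf0 : ∀ F, 0 ≤ f F)
    (hf : ∀ F z b, |f (Function.update F z b) - f F| ≤ 1) {a : ℝ} (ha : 0 < a)
    (h0 : Real.exp (-a) ≤ ∑ F : Ω → Bool, if f F = 0 then bw q F else 0) :
    ∑ F : Ω → Bool, bw q F * f F ≤ 2 * Real.sqrt (a * Fintype.card Ω) := by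
  classical
  set M := Fintype.card Ω with hM
  let e : Ω ≃ Fin M := Fintype.equivFin Ω
  have hsum : ∀ g : (Ω → Bool) → ℝ, ∑ F, g F = ∑ G : Fin M → Bool, g (G ∘ e) := by
    intro g
    rw [← (e.arrowCongr (Equiv.refl Bool)).symm.sum_comp]
    rfl
  have hbw : ∀ G : Fin M → Bool, bw q (G ∘ e) = bw (fun i => q (e.symm i)) G := by
    intro G
    unfold bw
    rw [← e.symm.prod_comp]
    refine Finset.prod_congr rfl (fun i _ => ?_)
    simp
  have hexp : ∀ l : ℝ, ∑ F, bw q F * Real.exp (-l * f F) ≤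
      Real.exp (-l * (∑ F, bw q F * f F) + l ^ 2 * M) := by
    intro l
    rw [hsum, hsum]
    simp only [hbw]
    refine mcd_fin (fun i => q (e.symm i)) (fun z => hq0 _) (fun z => hq1 _)
      (fun G => f (G ∘ e)) (fun G z b => ?_) l
    have : (Function.update G z b) ∘ e = Function.update (G ∘ e) (e.symm z) b := by
      funext w
      simp only [Function.comp, Function.update_apply]
      by_cases h : w = e.symm z
      · subst h; simp
      · have : e w ≠ z := fun h' => h (by rw [← h']; simp)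
        rw [if_neg h, if_neg this]
    rw [this]
    exact hf _ _ _
  set m := ∑ F, bw q F * f F with hm
  have key : ∀ l : ℝ, 0 < l → l * m ≤ a + l ^ 2 * M := by
    intro l hl
    have h1 : Real.exp (-a) ≤ Real.exp (-l * m + l ^ 2 * M) := by
      refine h0.trans (le_trans ?_ (hexp l))
      refine Finset.sum_le_sum (fun F _ => ?_)
      have hb := bw_nonneg hq0 hq1 F
      split_ifs with h
      · rw [h]; simp
      · exact mul_nonneg hb (Real.exp_pos _).le
    have h2 := Real.exp_le_exp.1 h1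
    linarith
  rcases Nat.eq_zero_or_pos M with h | h
  · have hM0 : ((M : ℕ) : ℝ) = 0 := by exact_mod_cast h
    rw [hM0, mul_zero, Real.sqrt_zero, mul_zero]
    by_contra hcon
    push Not at hcon
    have h3 := key (2 * a / m) (by positivity)
    rw [hM0, mul_zero, add_zero, div_mul_cancel₀ _ hcon.ne'] at h3
    linarith
  · have hMp : (0 : ℝ) < M := by exact_mod_cast h
    have hl : 0 < Real.sqrt (a / M) := Real.sqrt_pos.2 (by positivity)
    have h3 := key _ hl
    rw [Real.sq_sqrt (by positivity), div_mul_cancel₀ _ hMp.ne'] at h3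
    have h4 : Real.sqrt (a / M) * (Real.sqrt (a * M)) = a := by
      rw [← Real.sqrt_mul (by positivity)]
      have : a / M * (a * M) = a ^ 2 := by field_simp
      rw [this, Real.sqrt_sq ha.le]
    by_contra hcon
    push Not at hcon
    have h5 := mul_lt_mul_of_pos_left hcon hl
    nlinarith

end Crest.Agent.KG
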