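import Crest.Agent.KG.RndNear
import Crest.Agent.KG.Rnd_mcd

set_option autoImplicit false

namespace Crest.Agent.KG

open Finset

theorem exists_near {Ω : Type} [Fintype Ω] [DecidableEq Ω] (V : Submodule ℝ (Ω → ℝ)) :
    ∃ N : (Ω → Bool) → (Ω → Bool), (∀ F, ind (N F) ∈ V) ∧
      (∀ F G, ind G ∈ V → hd F (N F) ≤ hd F G) := by
  classical
  have h0 : (Finset.univ.filter (fun G : Ω → Bool => ind G ∈ V)).Nonempty := by
    refine ⟨fun _ => false, ?_⟩
    rw [Finset.mem_filter]
    refine ⟨Finset.mem_univ _, ?_⟩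
    have : ind (fun _ : Ω => false) = 0 := by
      funext z
      simp [ind]
    rw [this]
    exact V.zero_mem
  have h1 : ∀ F : Ω → Bool, ∃ G : Ω → Bool, ind G ∈ V ∧ ∀ G', ind G' ∈ V → hd F G ≤ hd F G' := by
    intro F
    obtain ⟨G, hG, hmin⟩ := Finset.exists_min_image _ (fun G => hd F G) h0
    refine ⟨G, (Finset.mem_filter.1 hG).2, fun G' hG' => ?_⟩
    exact hmin G' (Finset.mem_filter.2 ⟨Finset.mem_univ _, hG'⟩)
  choose N hN1 hN2 using h1
  exact ⟨N, hN1, hN2⟩

theorem hd_self {Ω : Type} [Fintype Ω] (F : Ω → Bool) : hd F F = 0 := by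
  simp [hd]

theorem hd_comm' {Ω : Type} [Fintype Ω] (F G : Ω → Bool) : hd F G = hd G F := by
  unfold hd
  congr 1
  ext z
  simp [ne_comm]

theorem hd_update_le {Ω : Type} [Fintype Ω] [DecidableEq Ω] (F G : Ω → Bool) (z : Ω) (b : Bool) :
    hd (Function.update F z b) G ≤ hd F G + 1 := by
  unfold hd
  calc (Finset.univ.filter (fun w => Function.update F z b w ≠ G w)).card
      ≤ (insert z (Finset.univ.filter (fun w => F w ≠ G w))).card := by
        refine Finset.card_le_card ?_
        intro w hw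
        rw [Finset.mem_insert]
        by_cases hwz : w = z
        · exact Or.inl hwz
        · right
          rw [Finset.mem_filter] at hw ⊢
          refine ⟨Finset.mem_univ _, ?_⟩
          have := hw.2
          rwa [Function.update_of_ne hwz] at this
    _ ≤ _ := Finset.card_insert_le _ _

theorem hd_le_update {Ω : Type} [Fintype Ω] [DecidableEq Ω] (F G : Ω → Bool) (z : Ω) (b : Bool) :
    hd F G ≤ hd (Function.update F z b) G + 1 := by
  have h := hd_update_le (Function.update F z b) G z (F z)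
  rw [Function.update_idem, Function.update_eq_self] at h
  exact h

open Classical in
theorem near_mean {Ω : Type} [Fintype Ω] (V : Submodule ℝ (Ω → ℝ))
    (N : (Ω → Bool) → (Ω → Bool)) (hN : ∀ F, ind (N F) ∈ V)
    (hN' : ∀ F G, ind G ∈ V → hd F (N F) ≤ hd F G)
    (q : Ω → ℝ) (hq0 : ∀ z, 0 ≤ q z) (hq1 : ∀ z, q z ≤ 1) {a : ℝ} (ha : 0 < a)
    (h0 : Real.exp (-a) ≤ ∑ F : Ω → Bool, if ind F ∈ V then bw q F else 0) :
    ∑ F : Ω → Bool, bw q F * (hd F (N F) : ℝ) ≤ 2 * Real.sqrt (a * Fintype.card Ω) := by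
  refine mcd q hq0 hq1 (fun F => (hd F (N F) : ℝ)) (fun F => Nat.cast_nonneg _) ?_ ha ?_
  · intro F z b
    have h1 : hd (Function.update F z b) (N (Function.update F z b)) ≤ hd F (N F) + 1 :=
      (hN' _ _ (hN F)).trans (hd_update_le F (N F) z b)
    have h2 : hd F (N F) ≤ hd (Function.update F z b) (N (Function.update F z b)) + 1 :=
      (hN' _ _ (hN (Function.update F z b))).trans (hd_le_update F _ z b)
    have h1' : ((hd (Function.update F z b) (N (Function.update F z b)) : ℕ) : ℝ) ≤
        (hd F (N F) : ℝ) + 1 := by exact_mod_cast h1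
    have h2' : ((hd F (N F) : ℕ) : ℝ) ≤
        (hd (Function.update F z b) (N (Function.update F z b)) : ℝ) + 1 := by exact_mod_cast h2
    rw [abs_le]
    constructor
    · linarith
    · linarith
  · refine h0.trans (Finset.sum_le_sum fun F _ => ?_)
    by_cases hF : ind F ∈ V
    · have h3 : hd F (N F) = 0 := by
        have := hN' F F hF
        rw [hd_self] at this
        omega
      simp only [hF, if_true, h3, Nat.cast_zero]
      exact le_rfl
    · rw [if_neg hF]
      split_ifs
      · exact bw_nonneg hq0 hq1 F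
      · exact le_rfl

end Crest.Agent.KG
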