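import Mathlib

set_option autoImplicit false

namespace Crest.Agent.KG

open Finset

theorem rho_bound (b K t : ℕ) (hK : 2 ≤ K) (htb : t ≤ b) (o : Fin K) :
    ((Finset.univ.filter (fun y : Fin b → Fin K =>
      (Finset.univ.filter (fun i => y i = o)).card ≤ t)).card : ℝ) ≤
      (b : ℝ) ^ t * (1 - 1 / (K : ℝ)) ^ (b - t) * (K : ℝ) ^ b := by
  classical
  have hsub : (Finset.univ.filter (fun y : Fin b → Fin K =>
      (Finset.univ.filter (fun i => y i = o)).card ≤ t)) ⊆
      (Finset.powersetCard t (Finset.univ : Finset (Fin b))).biUnion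
        (fun T => Fintype.piFinset (fun i : Fin b =>
          if i ∈ T then (Finset.univ : Finset (Fin K)) else Finset.univ.erase o)) := by
    intro y hy
    rw [Finset.mem_filter] at hy
    obtain ⟨T, hT1, hT2⟩ := Finset.exists_superset_card_eq hy.2
      (by simpa using htb)
    rw [Finset.mem_biUnion]
    refine ⟨T, ?_, ?_⟩
    · rw [Finset.mem_powersetCard]
      exact ⟨Finset.subset_univ _, hT2⟩
    · rw [Fintype.mem_piFinset]
      intro i
      by_cases hi : i ∈ T
      · rw [if_pos hi]; exact Finset.mem_univ _
      · rw [if_neg hi, Finset.mem_erase]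
        refine ⟨?_, Finset.mem_univ _⟩
        intro h
        exact hi (hT1 (by rw [Finset.mem_filter]; exact ⟨Finset.mem_univ _, h⟩))
  have hcard : ∀ T ∈ Finset.powersetCard t (Finset.univ : Finset (Fin b)),
      (Fintype.piFinset (fun i : Fin b =>
          if i ∈ T then (Finset.univ : Finset (Fin K)) else Finset.univ.erase o)).card
        ≤ K ^ t * (K - 1) ^ (b - t) := by
    intro T hT
    rw [Finset.mem_powersetCard] at hT
    rw [Fintype.card_piFinset]
    have h1 : ∀ i : Fin b, (if i ∈ T then (Finset.univ : Finset (Fin K))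
        else Finset.univ.erase o).card = if i ∈ T then K else K - 1 := by
      intro i
      split_ifs
      · simp
      · rw [Finset.card_erase_of_mem (Finset.mem_univ _)]; simp
    rw [Finset.prod_congr rfl (fun i _ => h1 i), Finset.prod_ite]
    simp only [Finset.prod_const]
    have e1 : (Finset.univ.filter (fun i : Fin b => i ∈ T)).card = t := by
      rw [← hT.2]; congr 1; ext i; simp
    have e2 : (Finset.univ.filter (fun i : Fin b => ¬ i ∈ T)).card = b - t := by
      have := Finset.card_filter_add_card_filter_not (s := (Finset.univ : Finset (Fin b)))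
        (fun i : Fin b => i ∈ T)
      rw [e1, Finset.card_univ, Fintype.card_fin] at this
      omega
    rw [e1, e2]
  have hnat : (Finset.univ.filter (fun y : Fin b → Fin K =>
      (Finset.univ.filter (fun i => y i = o)).card ≤ t)).card
      ≤ b ^ t * (K ^ t * (K - 1) ^ (b - t)) := by
    refine (Finset.card_le_card hsub).trans ?_
    refine (Finset.card_biUnion_le_card_mul _ _ _ hcard).trans ?_
    rw [Finset.card_powersetCard, Finset.card_univ, Fintype.card_fin]
    exact Nat.mul_le_mul_right _ (Nat.choose_le_pow b t)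
  have hKpos : (0 : ℝ) < K := by
    have : 0 < K := by omega
    exact_mod_cast this
  calc ((Finset.univ.filter (fun y : Fin b → Fin K =>
      (Finset.univ.filter (fun i => y i = o)).card ≤ t)).card : ℝ)
      ≤ ((b ^ t * (K ^ t * (K - 1) ^ (b - t)) : ℕ) : ℝ) := by exact_mod_cast hnat
    _ = (b : ℝ) ^ t * ((K : ℝ) ^ t * ((K : ℝ) - 1) ^ (b - t)) := by
        push_cast [Nat.cast_sub (show 1 ≤ K by omega)]
        ring
    _ = (b : ℝ) ^ t * (1 - 1 / (K : ℝ)) ^ (b - t) * (K : ℝ) ^ b := by
        have h1 : (1 - 1 / (K : ℝ)) = ((K : ℝ) - 1) / K := by field_simp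
        have h2 : (K : ℝ) ^ b = (K : ℝ) ^ t * (K : ℝ) ^ (b - t) := by
          rw [← pow_add]; congr 1; omega
        rw [h1, h2, div_pow]
        field_simp

/-- Exact-count form: the words with at most `t` letters equal to `o`. -/
theorem few_zeros (b K t : ℕ) (hK : 1 ≤ K) (o : Fin K) :
    ((Finset.univ.filter (fun y : Fin b → Fin K =>
      (Finset.univ.filter (fun i => y i = o)).card ≤ t)).card : ℝ) ≤
      ∑ j ∈ Finset.range (t + 1), (Nat.choose b j : ℝ) * ((K : ℝ) - 1) ^ (b - j) := by
  classical
  have hsub : (Finset.univ.filter (fun y : Fin b → Fin K =>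
      (Finset.univ.filter (fun i => y i = o)).card ≤ t)) ⊆
      (Finset.range (t + 1)).biUnion (fun j =>
      (Finset.powersetCard j (Finset.univ : Finset (Fin b))).biUnion
        (fun T => Fintype.piFinset (fun i : Fin b =>
          if i ∈ T then ({o} : Finset (Fin K)) else Finset.univ.erase o))) := by
    intro y hy
    rw [Finset.mem_filter] at hy
    rw [Finset.mem_biUnion]
    refine ⟨(Finset.univ.filter (fun i => y i = o)).card, ?_, ?_⟩
    · rw [Finset.mem_range]; exact Nat.lt_succ_of_le hy.2
    rw [Finset.mem_biUnion]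
    refine ⟨Finset.univ.filter (fun i => y i = o), ?_, ?_⟩
    · rw [Finset.mem_powersetCard]
      exact ⟨Finset.subset_univ _, rfl⟩
    · rw [Fintype.mem_piFinset]
      intro i
      by_cases hi : i ∈ Finset.univ.filter (fun i => y i = o)
      · rw [if_pos hi, Finset.mem_singleton]
        exact (Finset.mem_filter.1 hi).2
      · rw [if_neg hi, Finset.mem_erase]
        refine ⟨?_, Finset.mem_univ _⟩
        intro h
        exact hi (by rw [Finset.mem_filter]; exact ⟨Finset.mem_univ _, h⟩)
  have hcard : ∀ j, ∀ T ∈ Finset.powersetCard j (Finset.univ : Finset (Fin b)),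
      (Fintype.piFinset (fun i : Fin b =>
          if i ∈ T then ({o} : Finset (Fin K)) else Finset.univ.erase o)).card
        ≤ (K - 1) ^ (b - j) := by
    intro j T hT
    rw [Finset.mem_powersetCard] at hT
    rw [Fintype.card_piFinset]
    have h1 : ∀ i : Fin b, (if i ∈ T then ({o} : Finset (Fin K))
        else Finset.univ.erase o).card = if i ∈ T then 1 else K - 1 := by
      intro i
      split_ifs
      · simp
      · rw [Finset.card_erase_of_mem (Finset.mem_univ _)]; simp
    rw [Finset.prod_congr rfl (fun i _ => h1 i), Finset.prod_ite]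
    simp only [Finset.prod_const, one_pow, one_mul]
    have e1 : (Finset.univ.filter (fun i : Fin b => i ∈ T)).card = j := by
      rw [← hT.2]; congr 1; ext i; simp
    have e2 : (Finset.univ.filter (fun i : Fin b => ¬ i ∈ T)).card = b - j := by
      have := Finset.card_filter_add_card_filter_not (s := (Finset.univ : Finset (Fin b)))
        (fun i : Fin b => i ∈ T)
      rw [e1, Finset.card_univ, Fintype.card_fin] at this
      omega
    rw [e2]
  have hnat : (Finset.univ.filter (fun y : Fin b → Fin K =>
      (Finset.univ.filter (fun i => y i = o)).card ≤ t)).card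
      ≤ ∑ j ∈ Finset.range (t + 1), Nat.choose b j * (K - 1) ^ (b - j) := by
    refine (Finset.card_le_card hsub).trans ?_
    refine Finset.card_biUnion_le.trans (Finset.sum_le_sum fun j _ => ?_)
    refine (Finset.card_biUnion_le_card_mul _ _ _ (hcard j)).trans ?_
    rw [Finset.card_powersetCard, Finset.card_univ, Fintype.card_fin]
  calc ((Finset.univ.filter (fun y : Fin b → Fin K =>
      (Finset.univ.filter (fun i => y i = o)).card ≤ t)).card : ℝ)
      ≤ ((∑ j ∈ Finset.range (t + 1), Nat.choose b j * (K - 1) ^ (b - j) : ℕ) : ℝ) := by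
        exact_mod_cast hnat
    _ = ∑ j ∈ Finset.range (t + 1), (Nat.choose b j : ℝ) * ((K : ℝ) - 1) ^ (b - j) := by
        push_cast [Nat.cast_sub hK]
        rfl

end Crest.Agent.KG
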