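import Crest.Agent.KG.Rnd2
import Crest.Agent.KG.Rnd_near
import Crest.Agent.KG.Rnd_rho
import Crest.Agent.KG.Defs

set_option autoImplicit false

namespace Crest.Agent.KG

open Finset

/-- index pairs `i < j` -/
abbrev Pr (m : ℕ) : Type := {p : Fin m × Fin m // p.1 < p.2}

lemma pair_sum (m : ℕ) (u : Fin m → ℝ) :
    (∑ i, u i) ^ 2 = 2 * ∑ p : Pr m, u p.1.1 * u p.1.2 + ∑ i, u i ^ 2 := by
  have h0 : ∀ f : Fin m × Fin m → ℝ, ∑ p : Pr m, f p.1 = ∑ p : Fin m × Fin m, if p.1 < p.2 then f p else 0 := by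
    intro f
    rw [← Finset.sum_filter]
    exact (Finset.sum_subtype (Finset.univ.filter (fun p : Fin m × Fin m => p.1 < p.2))
      (by intro p; simp) f).symm
  have h1 : (∑ i, u i) ^ 2 = ∑ p : Fin m × Fin m, u p.1 * u p.2 := by
    rw [sq, Finset.sum_mul_sum, Fintype.sum_prod_type]
  have h2 : ∑ p : Fin m × Fin m, u p.1 * u p.2 =
      ∑ p : Fin m × Fin m, (if p.1 < p.2 then u p.1 * u p.2 else 0) +
      ∑ p : Fin m × Fin m, (if p.1 = p.2 then u p.1 * u p.2 else 0) +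
      ∑ p : Fin m × Fin m, (if p.2 < p.1 then u p.1 * u p.2 else 0) := by
    rw [← Finset.sum_add_distrib, ← Finset.sum_add_distrib]
    refine Finset.sum_congr rfl fun p _ => ?_
    rcases lt_trichotomy p.1 p.2 with h | h | h
    · rw [if_pos h, if_neg h.ne, if_neg h.asymm]; ring
    · rw [if_neg (by rw [h]; exact lt_irrefl _), if_pos h, if_neg (by rw [h]; exact lt_irrefl _)]; ring
    · rw [if_neg h.asymm, if_neg h.ne', if_pos h]; ring
  have h3 : ∑ p : Fin m × Fin m, (if p.2 < p.1 then u p.1 * u p.2 else 0)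
      = ∑ p : Fin m × Fin m, (if p.1 < p.2 then u p.1 * u p.2 else 0) := by
    rw [← Equiv.sum_comp (Equiv.prodComm (Fin m) (Fin m))]
    refine Finset.sum_congr rfl fun p _ => ?_
    simp only [Equiv.prodComm_apply, Prod.fst_swap, Prod.snd_swap]
    by_cases h : p.1 < p.2 <;> simp [h, mul_comm]
  have h4 : ∑ p : Fin m × Fin m, (if p.1 = p.2 then u p.1 * u p.2 else 0) = ∑ i, u i ^ 2 := by
    rw [Fintype.sum_prod_type]
    refine Finset.sum_congr rfl fun i _ => ?_
    simp only [Finset.sum_ite_eq, Finset.mem_univ, if_true]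
    ring
  rw [h1, h2, h3, h4, h0 (fun p => u p.1 * u p.2)]
  ring

lemma card_Pr (m : ℕ) : 2 * (Fintype.card (Pr m) : ℝ) = (m : ℝ) ^ 2 - m := by
  have := pair_sum m (fun _ => 1)
  simp at this
  linarith

/-- the alphabets of the first stage -/
abbrev A0 (m b K : ℕ) : Fin m ⊕ Fin b → Type := Sum.elim (fun _ => Bool) (fun _ => Fin K)

instance instFA0 (m b K : ℕ) : ∀ i, Fintype (A0 m b K i)
  | Sum.inl _ => inferInstanceAs (Fintype Bool)
  | Sum.inr _ => inferInstanceAs (Fintype (Fin K))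

instance instDA0 (m b K : ℕ) : ∀ i, DecidableEq (A0 m b K i)
  | Sum.inl _ => inferInstanceAs (DecidableEq Bool)
  | Sum.inr _ => inferInstanceAs (DecidableEq (Fin K))

/-- the word space of the first stage -/
abbrev Om (m b K : ℕ) : Type := ∀ i, A0 m b K i

/-- splitting -/
def omE (m b K : ℕ) : Om m b K ≃ (Fin m → Bool) × (Fin b → Fin K) :=
  Equiv.sumPiEquivProdPi (A0 m b K)

lemma card_Om (m b K : ℕ) : (Fintype.card (Om m b K) : ℝ) = 2 ^ m * (K : ℝ) ^ b := by
  rw [Fintype.card_congr (omE m b K), Fintype.card_prod]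
  simp

/-- the entropy actually used -/
noncomputable def aent (m b K : ℕ) : ℝ :=
  ((m : ℝ) - 2) * 2 ^ m * ((b : ℝ) + 4) *
    ∑ j ∈ Finset.range (m - 2), (Nat.choose b j : ℝ) * ((K : ℝ) - 1) ^ (b - j)

lemma aent_pos {m b K : ℕ} (hm : 3 ≤ m) (hK : 2 ≤ K) : 0 < aent m b K := by
  unfold aent
  have hm' : (3 : ℝ) ≤ m := by exact_mod_cast hm
  have hK' : (2 : ℝ) ≤ K := by exact_mod_cast hK
  have h1 : 0 < ∑ j ∈ Finset.range (m - 2), (Nat.choose b j : ℝ) * ((K : ℝ) - 1) ^ (b - j) := by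
    refine Finset.sum_pos' (fun j _ => ?_) ⟨0, ?_, ?_⟩
    · have : (0 : ℝ) ≤ (K : ℝ) - 1 := by linarith
      positivity
    · rw [Finset.mem_range]; omega
    · have : (0 : ℝ) < (K : ℝ) - 1 := by linarith
      simp; positivity
  have h2 : (0 : ℝ) < (m : ℝ) - 2 := by linarith
  positivity

/-- counting words with few anchors when all `y` coordinates belong to `D` -/
lemma few_card_le (m b K t : ℕ) (hK : 1 ≤ K) (o : Om m b K) (D : Finset (Fin m ⊕ Fin b))
    (hD : ∀ j : Fin b, Sum.inr j ∈ D) (hc : ∃ c : Fin K, ∀ j : Fin b, o (Sum.inr j) = c) :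
    ((few o D t).card : ℝ) ≤
      2 ^ m * ∑ j ∈ Finset.range (t + 1), (Nat.choose b j : ℝ) * ((K : ℝ) - 1) ^ (b - j) := by
  classical
  obtain ⟨c, hc⟩ := hc
  have h1 : (few o D t).card ≤ ((Finset.univ : Finset (Fin m → Bool)) ×ˢ
      (Finset.univ.filter (fun y : Fin b → Fin K =>
      (Finset.univ.filter (fun i => y i = c)).card ≤ t))).card := by
    refine Finset.card_le_card_of_injOn (fun z => omE m b K z) ?_ ?_
    · intro z hz
      have hz' := (Finset.mem_filter.mp (Finset.mem_coe.mp hz)).2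
      rw [Finset.mem_coe, Finset.mem_product]
      refine ⟨Finset.mem_univ _, ?_⟩
      rw [Finset.mem_filter]
      refine ⟨Finset.mem_univ _, le_trans ?_ hz'⟩
      refine Finset.card_le_card_of_injOn (fun j => (Sum.inr j : Fin m ⊕ Fin b)) ?_ ?_
      · intro j hj
        have hj' := (Finset.mem_filter.mp (Finset.mem_coe.mp hj)).2
        rw [Finset.mem_coe, Finset.mem_filter]
        refine ⟨hD j, ?_⟩
        rw [hc j]
        exact hj'
      · intro j _ j' _ h
        exact Sum.inr_injective h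
    · intro z _ z' _ h
      exact (omE m b K).injective h
  rw [Finset.card_product] at h1
  have h2 := few_zeros b K t hK c
  calc ((few o D t).card : ℝ) ≤ (((Finset.univ : Finset (Fin m → Bool)).card *
      (Finset.univ.filter (fun y : Fin b → Fin K =>
      (Finset.univ.filter (fun i => y i = c)).card ≤ t)).card : ℕ) : ℝ) := by exact_mod_cast h1
    _ = 2 ^ m * ((Finset.univ.filter (fun y : Fin b → Fin K =>
      (Finset.univ.filter (fun i => y i = c)).card ≤ t)).card : ℝ) := by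
        push_cast
        simp
    _ ≤ _ := mul_le_mul_of_nonneg_left h2 (by positivity)

theorem near_mean' {Ω : Type} [Fintype Ω] [hdec : DecidableEq Ω] (V : Submodule ℝ (Ω → ℝ))
    (N : (Ω → Bool) → (Ω → Bool)) (hN : ∀ F, ind (N F) ∈ V)
    (hN' : ∀ F G, ind G ∈ V → hd F (N F) ≤ hd F G)
    (q : Ω → ℝ) (hq0 : ∀ z, 0 ≤ q z) (hq1 : ∀ z, q z ≤ 1) {a : ℝ} (ha : 0 < a)
    (h0 : Real.exp (-a) ≤ ∑ F : Ω → Bool,
      @ite ℝ (ind F ∈ V) (Classical.propDecidable _) (bw q F) 0) :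
    ∑ F : Ω → Bool, bw q F * (hd F (N F) : ℝ) ≤ 2 * Real.sqrt (a * Fintype.card Ω) := by
  have e : hdec = (fun a b => Classical.propDecidable (a = b)) := Subsingleton.elim _ _
  subst e
  exact near_mean V N hN hN' q hq0 hq1 ha h0

lemma near_bound {m b K : ℕ} (hm : 3 ≤ m) (hK : 2 ≤ K)
    (N : (Om m b K → Bool) → (Om m b K → Bool))
    (hN : ∀ F, ind (N F) ∈ (JD (b + 2) : Submodule ℝ (Om m b K → ℝ)))
    (hN' : ∀ F G, ind G ∈ (JD (b + 2) : Submodule ℝ (Om m b K → ℝ)) → hd F (N F) ≤ hd F G)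
    (q : Om m b K → ℝ) (hq0 : ∀ z, 0 ≤ q z) (hq1 : ∀ z, q z ≤ 1)
    (D : Finset (Fin m ⊕ Fin b)) (hDc : D.card = b + 2) (hD : ∀ j : Fin b, Sum.inr j ∈ D)
    (hq : Dep D q) :
    ∑ F : Om m b K → Bool, bw q F * (hd F (N F) : ℝ) ≤
      2 * Real.sqrt (aent m b K * (2 ^ m * (K : ℝ) ^ b)) := by
  rw [← card_Om m b K]
  refine near_mean' (JD (b + 2)) N hN hN' q hq0 hq1 (aent_pos hm hK) ?_
  let c : Fin K := ⟨0, by omega⟩
  let o : Om m b K := fun i => match i with
    | Sum.inl _ => (false : Bool)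
    | Sum.inr _ => c
  have h1 := l1_aux (m - 3) (b + 1) (m - 2) (Fin m ⊕ Fin b) (A0 m b K) o D q (by rw [hDc])
    (by simp; omega) (by omega)
    (by
      rintro (i | j) hi
      · show Fintype.card Bool = 2
        simp
      · exact absurd (hD j) hi) hq hq0 hq1
  have h2 : Zp (b + 1 + 1) q = ∑ F : Om m b K → Bool,
      @ite ℝ (ind F ∈ (JD (b + 2) : Submodule ℝ (Om m b K → ℝ))) (Classical.propDecidable _)
        (bw q F) 0 := by
    unfold Zp
    rfl
  rw [h2] at h1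
  refine le_trans ?_ h1
  have h3 := few_card_le m b K (m - 3) (by omega) o D hD ⟨c, fun _ => rfl⟩
  have h4 : m - 3 + 1 = m - 2 := by omega
  rw [h4] at h3
  have h5 : ((2 : ℝ) ^ (b + 1 + 3)) ^ ((m - 2) * (few o D (m - 3)).card)
      = Real.exp (((b : ℝ) + 4) * ((((m - 2 : ℕ) : ℝ)) * (few o D (m - 3)).card) * Real.log 2) := by
    rw [← pow_mul]
    rw [show (((b : ℝ) + 4) * ((((m - 2 : ℕ) : ℝ)) * ((few o D (m - 3)).card : ℝ)) * Real.log 2)
      = (((b + 1 + 3) * ((m - 2) * (few o D (m - 3)).card) : ℕ) : ℝ) * Real.log 2 by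
        push_cast; ring]
    rw [Real.exp_nat_mul, Real.exp_log (by norm_num)]
  rw [h5, ← Real.exp_neg, Real.exp_le_exp]
  have hlog : Real.log 2 ≤ 1 := by
    have := Real.log_two_lt_d9
    linarith
  have hlog0 : 0 ≤ Real.log 2 := Real.log_nonneg (by norm_num)
  have hm2 : ((m - 2 : ℕ) : ℝ) = (m : ℝ) - 2 := by
    rw [Nat.cast_sub (by omega)]; norm_num
  have hm' : (3 : ℝ) ≤ m := by exact_mod_cast hm
  have h6 : ((b : ℝ) + 4) * ((((m - 2 : ℕ) : ℝ)) * (few o D (m - 3)).card) ≤ aent m b K := by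
    unfold aent
    rw [hm2]
    calc ((b : ℝ) + 4) * (((m : ℝ) - 2) * ((few o D (m - 3)).card : ℝ))
        ≤ ((b : ℝ) + 4) * (((m : ℝ) - 2) * (2 ^ m * ∑ j ∈ Finset.range (m - 2),
          (Nat.choose b j : ℝ) * ((K : ℝ) - 1) ^ (b - j))) := by
          refine mul_le_mul_of_nonneg_left ?_ (by positivity)
          exact mul_le_mul_of_nonneg_left h3 (by linarith)
      _ = _ := by ring
  have h7 : 0 ≤ ((b : ℝ) + 4) * ((((m - 2 : ℕ) : ℝ)) * (few o D (m - 3)).card) := by positivity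
  have h8 : ((b : ℝ) + 4) * ((((m - 2 : ℕ) : ℝ)) * (few o D (m - 3)).card) * Real.log 2
      ≤ aent m b K := by nlinarith
  linarith

end Crest.Agent.KG
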