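import Crest.Agent.KG.JD

set_option autoImplicit false

namespace Crest.Agent.KG

open Finset

/-- product Bernoulli weight: the probability of `F` when the entries are independent and
`P(F z = true) = q z`. -/
def bw {Ω : Type} [Fintype Ω] (q : Ω → ℝ) (F : Ω → Bool) : ℝ :=
  ∏ z, (if F z = true then q z else 1 - q z)

lemma bw_nonneg {Ω : Type} [Fintype Ω] {q : Ω → ℝ} (h0 : ∀ z, 0 ≤ q z) (h1 : ∀ z, q z ≤ 1)
    (F : Ω → Bool) : 0 ≤ bw q F := by
  unfold bw
  refine Finset.prod_nonneg fun z _ => ?_
  split_ifs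
  · exact h0 z
  · linarith [h1 z]

/-- indicator of a Boolean function -/
def ind {Ω : Type} (F : Ω → Bool) : Ω → ℝ := fun z => if F z = true then 1 else 0

end Crest.Agent.KG
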