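import Crest.Agent.KG.RndDefs

set_option autoImplicit false

namespace Crest.Agent.KG

open Finset

/-- Hamming distance -/
def hd {Ω : Type} [Fintype Ω] (F G : Ω → Bool) : ℕ :=
  (Finset.univ.filter (fun z => F z ≠ G z)).card

end Crest.Agent.KG
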