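import Crest.Agent.KG.SchDefs
import Crest.Agent.KG.Defs

/-! Row 63, module IV: SKELETON (statements of all chunks; not imported by the final proof). -/

set_option autoImplicit false
open scoped BigOperators
open Finset MeasureTheory Filter Topology

namespace Crest.Agent.KG.Skel

variable {ι κ ν : Type} [Fintype ι] [DecidableEq ι] [Fintype κ] [DecidableEq κ]
  [Fintype ν] [DecidableEq ν]

/-- R63-SA (file KG/SchA.lean) -/
theorem Ex_prod_blk (f : ν → (κ → Bool) → ℝ) :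
    Ex (fun x : ν × κ → Bool => ∏ i, f i (blk i x)) = ∏ i, Ex (f i) := by
  sorry

theorem Ex_sum_type (f : (ι → Bool) → ℝ) (g : (κ → Bool) → ℝ) :
    Ex (fun x : ι ⊕ κ → Bool => f (fun i => x (Sum.inl i)) * g (fun k => x (Sum.inr k))) =
      Ex f * Ex g := by
  sorry

theorem Ex_Tot : Ex (fun x : ι → Bool => Tot x) = 0 := by
  sorry

/-- R63-SB (file KG/SchB.lean) -/
theorem blk_mem_JD {D : ℕ} {S : (κ → Bool) → ℝ}
    (hS : ∀ φ : ℝ → ℝ, (fun x => φ (S x)) ∈ (JD D : Submodule ℝ ((∀ _ : κ, Bool) → ℝ)))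
    (T : Finset ν) (Φ : (ν → ℝ) → ℝ) (hΦ : ∀ u v : ν → ℝ, (∀ i ∈ T, u i = v i) → Φ u = Φ v) :
    (fun x : ν × κ → Bool => Φ (fun i => S (blk i x))) ∈
      (JD (T.card * D) : Submodule ℝ ((∀ _ : ν × κ, Bool) → ℝ)) := by
  sorry

theorem word_mem_JD {D m : ℕ} {α : Type} {S : (κ → Bool) → ℝ}
    (hS : ∀ φ : ℝ → ℝ, (fun x => φ (S x)) ∈ (JD D : Submodule ℝ ((∀ _ : κ, Bool) → ℝ)))
    (l : ν → ℝ → α) (g : (ν → α) → ℝ) (hg : g ∈ (JD m : Submodule ℝ ((∀ _ : ν, α) → ℝ))) :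
    (fun x : ν × κ → Bool => g (fun i => l i (S (blk i x)))) ∈
      (JD (m * D) : Submodule ℝ ((∀ _ : ν × κ, Bool) → ℝ)) := by
  sorry

/-- R63-SC (file KG/SchC.lean) -/
theorem full_sc {D : ℕ} {S : (κ → Bool) → ℝ} (hS : Sch D S) (Φ : (ν → ℝ) → ℝ) :
    Ex (fun x : ν × κ → Bool => Tot x * Φ (fun i => S (blk i x))) =
      Ex (fun x : ν × κ → Bool => (∑ i, S (blk i x)) * Φ (fun i => S (blk i x))) := by
  sorry

/-- R63-SD (file KG/SchD.lean): the prefix code. -/
theorem prefix_code {s : (ι → Bool) → ℝ} {d : (ι → Bool) → ℕ} (h : ASch s d) (D : ℕ)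
    (hd1 : ∀ x, 1 ≤ d x) (hdD : ∀ x, d x ≤ D) (ρ : ℝ) (hρ : 0 ≤ ρ)
    (hI : ρ * Ex (fun x => (d x : ℝ)) ≤ Ex (fun x => s x ^ 2)) (T : ℕ) :
    ∃ (κ : Type) (_ : Fintype κ) (_ : DecidableEq κ) (S : (κ → Bool) → ℝ),
      Sch T S ∧ ρ * ((T : ℝ) - D) ≤ Ex (fun x => S x ^ 2) := by
  sorry

/-- R63-SE (file KG/SchE.lean): the scheme "star on U, full information off U". -/
theorem gadget_asch {D K t : ℕ} {S : (κ → Bool) → ℝ} (hS : Sch D S) (hD : 1 ≤ D)
    (cell : ν → ℝ → Fin K) (U : (ν → Fin K) → Bool)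
    (hJD : bR U ∈ (JD (Fintype.card ν - (t + 1)) : Submodule ℝ ((∀ _ : ν, Fin K) → ℝ)))
    (ht : t + 1 ≤ Fintype.card ν) (c : ℝ)
    (hc : c * Ex (fun x : ν × κ → Bool => bR U (fun i => cell i (S (blk i x)))) =
      Ex (fun x : ν × κ → Bool => (∑ i, S (blk i x)) * bR U (fun i => cell i (S (blk i x))))) :
    ASch (fun x : ν × κ → Bool => if U (fun i => cell i (S (blk i x))) = true then c
        else ∑ i, S (blk i x))
      (fun x => if U (fun i => cell i (S (blk i x))) = true then (Fintype.card ν - (t + 1)) * D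
        else Fintype.card ν * D) := by
  sorry

/-- R63-SF (file KG/SchF.lean): information of that scheme. -/
theorem gadget_info {K : ℕ} (S : (κ → Bool) → ℝ) (h0 : Ex S = 0)
    (cell : ν → ℝ → Fin K) (U : (ν → Fin K) → Bool) (c c' : ℝ)
    (hc : c * Ex (fun x : ν × κ → Bool => bR U (fun i => cell i (S (blk i x)))) =
      Ex (fun x : ν × κ → Bool => (∑ i, S (blk i x)) * bR U (fun i => cell i (S (blk i x))))) :
    Fintype.card ν * Ex (fun y => S y ^ 2)
      - Ex (fun x : ν × κ → Bool => (∑ i, S (blk i x) - c') ^ 2 *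
          bR U (fun i => cell i (S (blk i x)))) ≤
    Ex (fun x : ν × κ → Bool => (if U (fun i => cell i (S (blk i x))) = true then c
        else ∑ i, S (blk i x)) ^ 2) := by
  sorry

/-- R63-SG (file KG/SchG.lean): product expansion of the gadget inequality. -/
theorem gterm_eq {K : ℕ} (X : (κ → Bool) → ℝ)
    (cell : ν → ℝ → Fin K) (U : (ν → Fin K) → Bool) (T c : ℝ) :
    Ex (fun x : ν × κ → Bool => (T - (∑ i, X (blk i x) - c) ^ 2) *
        bR U (fun i => cell i (X (blk i x)))) =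
    ∑ w : ν → Fin K, if U w then
      gterm (fun i a => Ex (fun y => if cell i (X y) = a then 1 else 0))
        (fun i a => Ex (fun y => if cell i (X y) = a then X y else 0))
        (fun i a => Ex (fun y => if cell i (X y) = a then X y ^ 2 else 0)) T c w else 0 := by
  sorry

/-- R63-SH (file KG/SchH.lean): the limit of the gadget inequality (continuity of gterm). -/
theorem gterm_tendsto {K : ℕ} (p e1 e2 : ι → Fin K → ℝ) (pB e1B e2B : ℕ → ι → Fin K → ℝ)
    (h0 : ∀ i a, Tendsto (fun B => pB B i a) atTop (𝓝 (p i a)))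
    (h1 : ∀ i a, Tendsto (fun B => e1B B i a) atTop (𝓝 (e1 i a)))
    (h2 : ∀ i a, Tendsto (fun B => e2B B i a) atTop (𝓝 (e2 i a)))
    (U : (ι → Fin K) → Bool) (T c : ℝ) :
    Tendsto (fun B => ∑ w : ι → Fin K, if U w then gterm (pB B) (e1B B) (e2B B) T c w else 0)
      atTop (𝓝 (∑ w : ι → Fin K, if U w then gterm p e1 e2 T c w else 0)) := by
  sorry

/-- R63-SK (file KG/SchK.lean): the expectation over `Fin B` blocks as in `clt_transfer`. -/
theorem Ex_blocks_eq (B : ℕ) (s : (κ → Bool) → ℝ) (h : ℝ → ℝ) :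
    Ex (fun x : Fin B × κ → Bool => h (∑ j, s (blk j x))) =
      (∑ ω : Fin B → (κ → Bool), h (∑ j, s (ω j))) / (Fintype.card (κ → Bool) : ℝ) ^ B := by
  sorry

/-- R63-SI (file KG/SchI.lean): transport to `Fin n` and Fourier coefficients. -/
theorem final_transport (C : ℝ) (hC : 0 < C) (f : (ι → Bool) → Bool) (d : ℕ)
    (hf : (fun x => sg (f x)) ∈ (JD d : Submodule ℝ ((∀ _ : ι, Bool) → ℝ)))
    (hL : C * Real.sqrt d < Ex (fun x => Tot x * sg (f x))) :
    ∃ n : ℕ, ∃ f : (Fin n → Bool) → Bool, ∃ d : ℕ,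
      (∃ x y, f x ≠ f y) ∧
      (∀ S : Finset (Fin n), d < S.card →
        ∑ x : Fin n → Bool, ((if f x then (1 : ℝ) else -1) * ∏ i ∈ S, (if x i then (1 : ℝ) else -1)) = 0) ∧
      C * Real.sqrt d <
        ∑ i : Fin n, (∑ x : Fin n → Bool, ((if f x then (1 : ℝ) else -1) * (if x i then (1 : ℝ) else -1))) / 2 ^ n := by
  sorry

/-- R63-SL (file KG/SchL.lean): base scheme and positivity of the half normal mean. -/
theorem Eff_one : Eff 1 := by
  sorry

theorem half_mean_pos : 0 < ∫ x in Set.Ici (0 : ℝ), x ^ 1 ∂γ := by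
  sorry

theorem frontier_Ici_null : γ (frontier (Set.Ici (0 : ℝ))) = 0 := by
  sorry

end Crest.Agent.KG.Skel
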