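import Crest.Agent.KG.SchDefs

/-! Row 63, module IV, R63-SA: expectation of products over blocks. -/

set_option autoImplicit false
open scoped BigOperators
open Finset

namespace Crest.Agent.KG

variable {ι κ ν : Type} [Fintype ι] [DecidableEq ι] [Fintype κ] [DecidableEq κ]
  [Fintype ν] [DecidableEq ν]

/-- R63-SA (file KG/SchA.lean) -/
theorem Ex_prod_blk (f : ν → (κ → Bool) → ℝ) :
    Ex (fun x : ν × κ → Bool => ∏ i, f i (blk i x)) = ∏ i, Ex (f i) := by
  unfold Ex
  rw [Finset.prod_div_distrib, Finset.prod_const, Finset.card_univ, ← pow_mul,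
    Fintype.card_prod, mul_comm (Fintype.card κ)]
  congr 1
  have h1 := Finset.prod_univ_sum (fun _ : ν => (Finset.univ : Finset (κ → Bool))) f
  rw [Fintype.piFinset_univ] at h1
  rw [h1]
  exact Fintype.sum_equiv (Equiv.curry ν κ Bool) _ _ (fun x => rfl)

theorem Ex_sum_type (f : (ι → Bool) → ℝ) (g : (κ → Bool) → ℝ) :
    Ex (fun x : ι ⊕ κ → Bool => f (fun i => x (Sum.inl i)) * g (fun k => x (Sum.inr k))) =
      Ex f * Ex g := by
  unfold Ex
  rw [div_mul_div_comm, ← pow_add, Fintype.card_sum, Finset.sum_mul_sum, ← Fintype.sum_prod_type']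
  congr 1
  exact Fintype.sum_equiv (Equiv.sumArrowEquivProdArrow ι κ Bool) _ _ (fun x => rfl)

theorem Ex_Tot : Ex (fun x : ι → Bool => Tot x) = 0 := by
  unfold Ex
  have h : ∑ x : ι → Bool, Tot x = - ∑ x : ι → Bool, Tot x := by
    rw [← Finset.sum_neg_distrib]
    refine Fintype.sum_equiv (Equiv.arrowCongr (Equiv.refl ι) Equiv.boolNot) _ _ (fun x => ?_)
    unfold Tot
    rw [← Finset.sum_neg_distrib]
    refine Finset.sum_congr rfl fun i _ => ?_
    have : (Equiv.arrowCongr (Equiv.refl ι) Equiv.boolNot) x i = !(x i) := rfl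
    rw [this]
    cases x i <;> simp [sg]
  have h2 : ∑ x : ι → Bool, Tot x = 0 := by linarith
  rw [h2, zero_div]

end Crest.Agent.KG
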