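import Crest.Agent.KG.SchDefs

/-!
# Row 63 (S0085), chunk R63-SB: functions of the block scores.
-/

set_option autoImplicit false
open scoped BigOperators
open Finset

namespace Crest.Agent.KG

variable {ι κ ν : Type} [Fintype ι] [DecidableEq ι] [Fintype κ] [DecidableEq κ]
  [Fintype ν] [DecidableEq ν]

/-- R63-SB (file KG/SchB.lean) -/
theorem blk_mem_JD {D : ℕ} {S : (κ → Bool) → ℝ}
    (hS : ∀ φ : ℝ → ℝ, (fun x => φ (S x)) ∈ (JD D : Submodule ℝ ((∀ _ : κ, Bool) → ℝ)))
    (T : Finset ν) (Φ : (ν → ℝ) → ℝ) (hΦ : ∀ u v : ν → ℝ, (∀ i ∈ T, u i = v i) → Φ u = Φ v) :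
    (fun x : ν × κ → Bool => Φ (fun i => S (blk i x))) ∈
      (JD (T.card * D) : Submodule ℝ ((∀ _ : ν × κ, Bool) → ℝ)) := by
  classical
  induction T using Finset.induction_on generalizing Φ with
  | empty =>
    have h : (fun x : ν × κ → Bool => Φ (fun i => S (blk i x))) = fun _ => Φ 0 := by
      funext x
      exact hΦ _ _ (by simp)
    rw [h]
    exact const_mem_JD _ _
  | insert i₀ T hi₀ ih =>
    -- finite set of values of S
    set V : Finset ℝ := Finset.univ.image S with hV
    have key : (fun x : ν × κ → Bool => Φ (fun i => S (blk i x))) =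
        ∑ v ∈ V, (fun x : ν × κ → Bool => (if S (blk i₀ x) = v then (1 : ℝ) else 0) *
          Φ (Function.update (fun i => S (blk i x)) i₀ v)) := by
      funext x
      rw [Finset.sum_apply]
      have hmem : S (blk i₀ x) ∈ V := Finset.mem_image_of_mem S (Finset.mem_univ _)
      rw [Finset.sum_eq_single_of_mem _ hmem]
      · rw [if_pos rfl, one_mul]
        congr 1
        funext i
        by_cases h : i = i₀
        · subst h; simp
        · rw [Function.update_of_ne h]
      · intro v _ hv
        rw [if_neg (fun h => hv h.symm), zero_mul]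
    rw [key]
    refine Submodule.sum_mem _ ?_
    intro v _
    have h1 : (fun x : ν × κ → Bool => (if S (blk i₀ x) = v then (1 : ℝ) else 0)) ∈
        (JD D : Submodule ℝ ((∀ _ : ν × κ, Bool) → ℝ)) := by
      have := comp_mem_JD (A := fun _ : ν × κ => Bool) (B := fun _ : κ => Bool)
        (e := fun k : κ => (i₀, k)) (φ := fun _ b => b)
        (hS (fun r => if r = v then (1 : ℝ) else 0))
      exact this
    have h2 : (fun x : ν × κ → Bool => Φ (Function.update (fun i => S (blk i x)) i₀ v)) ∈
        (JD (T.card * D) : Submodule ℝ ((∀ _ : ν × κ, Bool) → ℝ)) := by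
      refine ih (fun u => Φ (Function.update u i₀ v)) ?_
      intro u w huw
      refine hΦ _ _ ?_
      intro i hi
      by_cases h : i = i₀
      · subst h; simp
      · rw [Function.update_of_ne h, Function.update_of_ne h]
        rcases Finset.mem_insert.1 hi with h' | h'
        · exact absurd h' h
        · exact huw i h'
    have h3 := mul_mem_JD h1 h2
    refine JD_mono ?_ h3
    rw [Finset.card_insert_of_notMem hi₀]
    ring_nf
    exact le_refl _

theorem word_mem_JD {D m : ℕ} {α : Type} {S : (κ → Bool) → ℝ}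
    (hS : ∀ φ : ℝ → ℝ, (fun x => φ (S x)) ∈ (JD D : Submodule ℝ ((∀ _ : κ, Bool) → ℝ)))
    (l : ν → ℝ → α) (g : (ν → α) → ℝ) (hg : g ∈ (JD m : Submodule ℝ ((∀ _ : ν, α) → ℝ))) :
    (fun x : ν × κ → Bool => g (fun i => l i (S (blk i x)))) ∈
      (JD (m * D) : Submodule ℝ ((∀ _ : ν × κ, Bool) → ℝ)) := by
  unfold JD at hg
  induction hg using Submodule.span_induction with
  | mem g hg =>
    obtain ⟨T, hT, hgT⟩ := hg
    have h := blk_mem_JD (ν := ν) hS T (fun u => g (fun i => l i (u i))) (by
      intro u v huv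
      refine hgT _ _ ?_
      intro i hi
      show l i (u i) = l i (v i)
      rw [huv i hi])
    exact JD_mono (Nat.mul_le_mul_right D hT) h
  | zero => exact Submodule.zero_mem _
  | add g₁ g₂ _ _ h1 h2 => exact Submodule.add_mem _ h1 h2
  | smul a g _ h => exact Submodule.smul_mem _ a h

end Crest.Agent.KG
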