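import Crest.Agent.KG.SchDefs
import Crest.Agent.KG.Defs

/-! Row 63, module IV, chunk R63-SC: score property for blocks. -/

set_option autoImplicit false
open scoped BigOperators
open Finset MeasureTheory Filter Topology

namespace Crest.Agent.KG

variable {ι κ ν : Type} [Fintype ι] [DecidableEq ι] [Fintype κ] [DecidableEq κ]
  [Fintype ν] [DecidableEq ν]

theorem schC_upd {Y : Type} [Fintype Y] (F : (ν → Y) → ℝ) (i : ν) :
    ∑ x : ν → Y, ∑ y : Y, F (Function.update x i y) =
      (Fintype.card Y : ℝ) * ∑ x : ν → Y, F x := by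
  have hinv : Function.Involutive
      (fun p : (ν → Y) × Y => (Function.update p.1 i p.2, p.1 i)) := by
    rintro ⟨x, y⟩
    simp
  calc ∑ x : ν → Y, ∑ y : Y, F (Function.update x i y)
      = ∑ p : (ν → Y) × Y, F (Function.update p.1 i p.2) := by
        rw [Fintype.sum_prod_type]
    _ = ∑ p : (ν → Y) × Y, F p.1 :=
        Fintype.sum_equiv (hinv.toPerm _) _ _ (fun p => rfl)
    _ = (Fintype.card Y : ℝ) * ∑ x : ν → Y, F x := by
        rw [Fintype.sum_prod_type, Finset.mul_sum]
        refine Finset.sum_congr rfl fun x _ => ?_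
        show ∑ _y : Y, F x = _
        rw [Finset.sum_const, Finset.card_univ, nsmul_eq_mul]

theorem schC_sum {Y : Type} [Fintype Y] (A B S : Y → ℝ)
    (h : ∀ φ : ℝ → ℝ, ∑ y, A y * φ (S y) = ∑ y, B y * φ (S y)) (Φ : (ν → ℝ) → ℝ) (i : ν) :
    ∑ x : ν → Y, A (x i) * Φ (fun j => S (x j)) =
      ∑ x : ν → Y, B (x i) * Φ (fun j => S (x j)) := by
  rcases isEmpty_or_nonempty Y with hY | hY
  · have : IsEmpty (ν → Y) := ⟨fun x => hY.false (x i)⟩
    simp
  have hc : (Fintype.card Y : ℝ) ≠ 0 := by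
    exact_mod_cast Fintype.card_ne_zero
  have h1 := schC_upd (fun x : ν → Y => A (x i) * Φ (fun j => S (x j))) i
  have h2 := schC_upd (fun x : ν → Y => B (x i) * Φ (fun j => S (x j))) i
  have h3 : ∀ (x : ν → Y) (y : Y), (fun j => S (Function.update x i y j)) =
      Function.update (fun j => S (x j)) i (S y) := by
    intro x y
    funext j
    by_cases hj : j = i
    · subst hj; simp
    · simp [hj]
  have h4 : ∑ x : ν → Y, ∑ y : Y, A (Function.update x i y i) * Φ (fun j => S (Function.update x i y j)) =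
      ∑ x : ν → Y, ∑ y : Y, B (Function.update x i y i) * Φ (fun j => S (Function.update x i y j)) := by
    refine Finset.sum_congr rfl fun x _ => ?_
    simp only [h3, Function.update_self]
    exact h (fun s => Φ (Function.update (fun j => S (x j)) i s))
  have h5 := h1.symm.trans (h4.trans h2)
  exact mul_left_cancel₀ hc h5

theorem schC_curry (F : (ν → κ → Bool) → ℝ) :
    ∑ x : ν × κ → Bool, F (fun i => blk i x) = ∑ y : ν → κ → Bool, F y :=
  Fintype.sum_equiv (Equiv.curry ν κ Bool) _ _ (fun x => rfl)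

/-- R63-SC (file KG/SchC.lean) -/
theorem full_sc {D : ℕ} {S : (κ → Bool) → ℝ} (hS : Sch D S) (Φ : (ν → ℝ) → ℝ) :
    Ex (fun x : ν × κ → Bool => Tot x * Φ (fun i => S (blk i x))) =
      Ex (fun x : ν × κ → Bool => (∑ i, S (blk i x)) * Φ (fun i => S (blk i x))) := by
  have h0 : ∀ φ : ℝ → ℝ, ∑ y : κ → Bool, Tot y * φ (S y) = ∑ y, S y * φ (S y) := by
    intro φ
    have h := hS.sc φ
    unfold Ex at h
    have h2 : (2 : ℝ) ^ Fintype.card κ ≠ 0 := by positivity
    field_simp at h
    exact h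
  unfold Ex
  congr 1
  simp only [Tot_blk, Finset.sum_mul]
  rw [Finset.sum_comm, Finset.sum_comm (s := (univ : Finset (ν × κ → Bool)))]
  refine Finset.sum_congr rfl fun i _ => ?_
  have h1 := schC_curry (fun y : ν → κ → Bool => Tot (y i) * Φ (fun j => S (y j)))
  have h2 := schC_curry (fun y : ν → κ → Bool => S (y i) * Φ (fun j => S (y j)))
  rw [h1, h2]
  exact schC_sum Tot S S h0 Φ i

end Crest.Agent.KG
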