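import Crest.Agent.KG.SchDefs
import Crest.Agent.KG.Defs

/-! Row 63, module IV, R63-SD: the prefix code (budget step). -/

set_option autoImplicit false
open scoped BigOperators
open Finset MeasureTheory Filter Topology

namespace Crest.Agent.KG

variable {ι κ ν : Type} [Fintype ι] [DecidableEq ι] [Fintype κ] [DecidableEq κ]
  [Fintype ν] [DecidableEq ν]

/-- (private copy of `Ex_sum_type`, chunk R63-SA) -/
private theorem sd_Ex_sum_type (f : (ι → Bool) → ℝ) (g : (κ → Bool) → ℝ) :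
    Ex (fun x : ι ⊕ κ → Bool => f (fun i => x (Sum.inl i)) * g (fun k => x (Sum.inr k))) =
      Ex f * Ex g := by
  unfold Ex
  have h1 : ∑ x : ι ⊕ κ → Bool, f (fun i => x (Sum.inl i)) * g (fun k => x (Sum.inr k)) =
      ∑ p : (ι → Bool) × (κ → Bool), f p.1 * g p.2 := by
    refine Fintype.sum_equiv (Equiv.sumArrowEquivProdArrow ι κ Bool) _ _ fun x => ?_
    rfl
  rw [h1, Fintype.sum_prod_type, Fintype.card_sum, pow_add, div_mul_div_comm,
    Finset.sum_mul_sum]

/-- flipping all bits -/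
private theorem sd_Ex_Tot : Ex (fun x : ι → Bool => Tot x) = 0 := by
  have h1 : ∑ x : ι → Bool, Tot x = ∑ x : ι → Bool, Tot (fun i => !x i) := by
    refine (Fintype.sum_equiv (Equiv.arrowCongr (Equiv.refl ι) Equiv.boolNot) _ _ fun x => ?_)
    unfold Tot
    refine Finset.sum_congr rfl fun i _ => ?_
    simp [Equiv.arrowCongr, Equiv.boolNot]
  have h2 : ∀ x : ι → Bool, Tot (fun i => !x i) = - Tot x := by
    intro x
    unfold Tot
    rw [← Finset.sum_neg_distrib]
    refine Finset.sum_congr rfl fun i _ => ?_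
    have h3 : ∀ c : Bool, sg (!c) = - sg c := by
      intro c
      cases c <;> simp [sg]
    exact h3 (x i)
  simp only [h2, Finset.sum_neg_distrib] at h1
  have h3 : ∑ x : ι → Bool, Tot x = 0 := by linarith
  unfold Ex
  rw [h3, zero_div]

/-- indicator of `d = k`, `s = v` -/
private noncomputable def sdA (s : (ι → Bool) → ℝ) (d : (ι → Bool) → ℕ) (k : ℕ) (v : ℝ)
    (x : ι → Bool) : ℝ :=
  if d x = k then (if s x = v then 1 else 0) else 0

private theorem sd_decomp (s : (ι → Bool) → ℝ) (d : (ι → Bool) → ℕ) (D : ℕ) (F : ℕ → ℝ → ℝ)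
    (x : ι → Bool) (h1 : 1 ≤ d x) (h2 : d x ≤ D) :
    F (d x) (s x) = ∑ k ∈ Icc 1 D, ∑ v ∈ univ.image s, sdA s d k v x * F k v := by
  rw [Finset.sum_eq_single (d x)]
  · rw [Finset.sum_eq_single (s x)]
    · unfold sdA
      rw [if_pos rfl, if_pos rfl, one_mul]
    · intro v _ hv
      unfold sdA
      rw [if_pos rfl, if_neg (fun h => hv h.symm), zero_mul]
    · intro h
      exact absurd (Finset.mem_image_of_mem s (Finset.mem_univ x)) h
  · intro k _ hk
    refine Finset.sum_eq_zero fun v _ => ?_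
    unfold sdA
    rw [if_neg (fun h => hk h.symm), zero_mul]
  · intro h
    exact absurd (Finset.mem_Icc.2 ⟨h1, h2⟩) h

/-- expectation with a weight `q` on the first factor -/
private theorem sd_Ex (s : (ι → Bool) → ℝ) (d : (ι → Bool) → ℕ) (D : ℕ)
    (h1 : ∀ x, 1 ≤ d x) (h2 : ∀ x, d x ≤ D) (q : (ι → Bool) → ℝ)
    (G : ℕ → ℝ → (κ → Bool) → ℝ) :
    Ex (fun x : ι ⊕ κ → Bool => q (fun i => x (Sum.inl i)) *
        G (d (fun i => x (Sum.inl i))) (s (fun i => x (Sum.inl i))) (fun k => x (Sum.inr k))) =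
      ∑ k ∈ Icc 1 D, ∑ v ∈ univ.image s, Ex (fun x => q x * sdA s d k v x) * Ex (G k v) := by
  have h3 : ∀ x : ι ⊕ κ → Bool, q (fun i => x (Sum.inl i)) *
        G (d (fun i => x (Sum.inl i))) (s (fun i => x (Sum.inl i))) (fun k => x (Sum.inr k)) =
      ∑ k ∈ Icc 1 D, ∑ v ∈ univ.image s,
        (q (fun i => x (Sum.inl i)) * sdA s d k v (fun i => x (Sum.inl i))) *
          G k v (fun k => x (Sum.inr k)) := by
    intro x
    rw [sd_decomp s d D (fun k v => G k v (fun k => x (Sum.inr k))) (fun i => x (Sum.inl i))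
      (h1 _) (h2 _), Finset.mul_sum]
    refine Finset.sum_congr rfl fun k _ => ?_
    rw [Finset.mul_sum]
    refine Finset.sum_congr rfl fun v _ => ?_
    rw [mul_assoc]
  rw [Ex_congr h3, Ex_sum]
  refine Finset.sum_congr rfl fun k _ => ?_
  rw [Ex_sum]
  refine Finset.sum_congr rfl fun v _ => ?_
  exact sd_Ex_sum_type (fun x => q x * sdA s d k v x) (G k v)

private theorem sd_Tot (x : ι ⊕ κ → Bool) :
    Tot x = Tot (fun i => x (Sum.inl i)) + Tot (fun k => x (Sum.inr k)) := by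
  unfold Tot
  rw [Fintype.sum_sum_type]

/-- a scheme has mean zero -/
private theorem sd_mean {δ : ℕ} {S : (κ → Bool) → ℝ} (h : Sch δ S) : Ex S = 0 := by
  have h1 := h.sc (fun _ => 1)
  simp only [mul_one] at h1
  rw [sd_Ex_Tot] at h1
  exact h1.symm

private theorem sd_zero (δ : ℕ) : Sch δ (fun _ : κ → Bool => (0 : ℝ)) where
  deg φ := const_mem_JD δ (φ 0)
  sc φ := by
    have h1 : Ex (fun x : κ → Bool => Tot x * φ 0) = 0 := by
      have h2 : Ex (fun x : κ → Bool => Tot x * φ 0) = Ex (fun x : κ → Bool => φ 0 * Tot x) :=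
        Ex_congr fun x => mul_comm _ _
      rw [h2, Ex_smul, sd_Ex_Tot, mul_zero]
    rw [h1]
    simp only [zero_mul]
    rw [Ex_zero]

/-- lifting a scheme to the second summand -/
private theorem sd_lift {δ : ℕ} {S : (κ → Bool) → ℝ} (h : Sch δ S) :
    Sch δ (fun x : ι ⊕ κ → Bool => S (fun k => x (Sum.inr k))) where
  deg φ := comp_mem_JD (A := fun _ : ι ⊕ κ => Bool) (B := fun _ : κ => Bool)
    (Sum.inr : κ → ι ⊕ κ) (fun _ b => b) (f := fun y => φ (S y)) (h.deg φ)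
  sc φ := by
    have h1 : ∀ x : ι ⊕ κ → Bool, Tot x * φ (S (fun k => x (Sum.inr k))) =
        Tot (fun i => x (Sum.inl i)) * φ (S (fun k => x (Sum.inr k))) +
          1 * (Tot (fun k => x (Sum.inr k)) * φ (S (fun k => x (Sum.inr k)))) := by
      intro x
      rw [sd_Tot]
      ring
    have h2 : ∀ x : ι ⊕ κ → Bool, S (fun k => x (Sum.inr k)) * φ (S (fun k => x (Sum.inr k))) =
        1 * (S (fun k => x (Sum.inr k)) * φ (S (fun k => x (Sum.inr k)))) := fun x =>
      (one_mul _).symm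
    rw [Ex_congr h1, Ex_add, sd_Ex_sum_type (fun x : ι → Bool => Tot x) (fun y => φ (S y)),
      sd_Ex_sum_type (fun _ : ι → Bool => (1 : ℝ)) (fun y => Tot y * φ (S y)), sd_Ex_Tot, zero_mul,
      zero_add, Ex_congr h2,
      sd_Ex_sum_type (fun _ : ι → Bool => (1 : ℝ)) (fun y => S y * φ (S y)), h.sc φ]

private theorem sd_lift_sq (S : (κ → Bool) → ℝ) :
    Ex (fun x : ι ⊕ κ → Bool => S (fun k => x (Sum.inr k)) ^ 2) = Ex (fun y => S y ^ 2) := by
  have h2 : ∀ x : ι ⊕ κ → Bool, S (fun k => x (Sum.inr k)) ^ 2 =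
      1 * (S (fun k => x (Sum.inr k)) ^ 2) := fun x => (one_mul _).symm
  rw [Ex_congr h2, sd_Ex_sum_type (fun _ : ι → Bool => (1 : ℝ)) (fun y => S y ^ 2), Ex_one, one_mul]

/-- one step of the prefix code: degree and score -/
private theorem sd_step_sch {s : (ι → Bool) → ℝ} {d : (ι → Bool) → ℕ} (h : ASch s d) (D : ℕ)
    (hd1 : ∀ x, 1 ≤ d x) (hdD : ∀ x, d x ≤ D) (T : ℕ) (hT : D ≤ T + 1)
    (S : ℕ → (κ → Bool) → ℝ) (hS : ∀ T' ≤ T, Sch T' (S T')) :
    Sch (T + 1) (fun x : ι ⊕ κ → Bool => s (fun i => x (Sum.inl i)) +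
      S (T + 1 - d (fun i => x (Sum.inl i))) (fun k => x (Sum.inr k))) where
  deg φ := by
    have h1 : (fun x : ι ⊕ κ → Bool => φ (s (fun i => x (Sum.inl i)) +
        S (T + 1 - d (fun i => x (Sum.inl i))) (fun k => x (Sum.inr k)))) =
        ∑ k ∈ Icc 1 D, ∑ v ∈ univ.image s, fun x : ι ⊕ κ → Bool =>
          sdA s d k v (fun i => x (Sum.inl i)) * φ (v + S (T + 1 - k) (fun k => x (Sum.inr k))) := by
      funext x
      rw [sd_decomp s d D (fun k v => φ (v + S (T + 1 - k) (fun k => x (Sum.inr k))))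
        (fun i => x (Sum.inl i)) (hd1 _) (hdD _)]
      simp only [Finset.sum_apply]
    rw [h1]
    refine Submodule.sum_mem _ fun k hk => Submodule.sum_mem _ fun v _ => ?_
    rw [Finset.mem_Icc] at hk
    have h2 : (fun x : ι ⊕ κ → Bool => sdA s d k v (fun i => x (Sum.inl i))) ∈
        (JD k : Submodule ℝ ((∀ _ : ι ⊕ κ, Bool) → ℝ)) :=
      comp_mem_JD (A := fun _ : ι ⊕ κ => Bool) (B := fun _ : ι => Bool)
        (Sum.inl : ι → ι ⊕ κ) (fun _ b => b) (f := fun y => sdA s d k v y)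
        (h.deg k (fun u => if u = v then 1 else 0))
    have h3 : (fun x : ι ⊕ κ → Bool => φ (v + S (T + 1 - k) (fun k => x (Sum.inr k)))) ∈
        (JD (T + 1 - k) : Submodule ℝ ((∀ _ : ι ⊕ κ, Bool) → ℝ)) :=
      comp_mem_JD (A := fun _ : ι ⊕ κ => Bool) (B := fun _ : κ => Bool)
        (Sum.inr : κ → ι ⊕ κ) (fun _ b => b) (f := fun y => φ (v + S (T + 1 - k) y))
        ((hS (T + 1 - k) (by omega)).deg (fun u => φ (v + u)))
    have h4 := mul_mem_JD h2 h3
    rwa [show k + (T + 1 - k) = T + 1 by omega] at h4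
  sc φ := by
    set W : (ι ⊕ κ → Bool) → ℝ := fun x => s (fun i => x (Sum.inl i)) +
      S (T + 1 - d (fun i => x (Sum.inl i))) (fun k => x (Sum.inr k)) with hW
    have e1 : ∀ x : ι ⊕ κ → Bool, Tot x * φ (W x) =
        Tot (fun i => x (Sum.inl i)) * φ (W x) + 1 * (Tot (fun k => x (Sum.inr k)) * φ (W x)) := by
      intro x
      rw [sd_Tot]
      ring
    have e2 : ∀ x : ι ⊕ κ → Bool, W x * φ (W x) =
        s (fun i => x (Sum.inl i)) * φ (W x) +
          1 * (S (T + 1 - d (fun i => x (Sum.inl i))) (fun k => x (Sum.inr k)) * φ (W x)) := by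
      intro x
      rw [hW]
      ring
    have a1 := sd_Ex s d D hd1 hdD (fun x => Tot x)
      (fun k v (y : κ → Bool) => φ (v + S (T + 1 - k) y))
    have a2 := sd_Ex s d D hd1 hdD s
      (fun k v (y : κ → Bool) => φ (v + S (T + 1 - k) y))
    have b1 := sd_Ex s d D hd1 hdD (fun _ => 1)
      (fun k v (y : κ → Bool) => Tot y * φ (v + S (T + 1 - k) y))
    have b2 := sd_Ex s d D hd1 hdD (fun _ => 1)
      (fun k v (y : κ → Bool) => S (T + 1 - k) y * φ (v + S (T + 1 - k) y))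
    have a3 : Ex (fun x : ι ⊕ κ → Bool => Tot (fun i => x (Sum.inl i)) * φ (W x)) =
        Ex (fun x : ι ⊕ κ → Bool => s (fun i => x (Sum.inl i)) * φ (W x)) := by
      refine a1.trans (Eq.trans ?_ a2.symm)
      refine Finset.sum_congr rfl fun k _ => Finset.sum_congr rfl fun v _ => ?_
      congr 1
      exact h.sc k (fun u => if u = v then 1 else 0)
    have b3 : Ex (fun x : ι ⊕ κ → Bool => 1 * (Tot (fun k => x (Sum.inr k)) * φ (W x))) =
        Ex (fun x : ι ⊕ κ → Bool =>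
          1 * (S (T + 1 - d (fun i => x (Sum.inl i))) (fun k => x (Sum.inr k)) * φ (W x))) := by
      refine b1.trans (Eq.trans ?_ b2.symm)
      refine Finset.sum_congr rfl fun k hk => Finset.sum_congr rfl fun v _ => ?_
      rw [Finset.mem_Icc] at hk
      congr 1
      exact (hS (T + 1 - k) (by omega)).sc (fun u => φ (v + u))
    rw [Ex_congr e1, Ex_congr e2, Ex_add, Ex_add, a3, b3]

/-- one step of the prefix code: information -/
private theorem sd_step_info {s : (ι → Bool) → ℝ} {d : (ι → Bool) → ℕ} (D : ℕ)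
    (hd1 : ∀ x, 1 ≤ d x) (hdD : ∀ x, d x ≤ D) (ρ : ℝ)
    (hI : ρ * Ex (fun x => (d x : ℝ)) ≤ Ex (fun x => s x ^ 2)) (T : ℕ) (hT : D ≤ T + 1)
    (S : ℕ → (κ → Bool) → ℝ) (hS : ∀ T' ≤ T, Sch T' (S T'))
    (hi : ∀ T' ≤ T, ρ * ((T' : ℝ) - D) ≤ Ex (fun y => S T' y ^ 2)) :
    ρ * (((T + 1 : ℕ) : ℝ) - D) ≤ Ex (fun x : ι ⊕ κ → Bool => (s (fun i => x (Sum.inl i)) +
      S (T + 1 - d (fun i => x (Sum.inl i))) (fun k => x (Sum.inr k))) ^ 2) := by
  have a1 := sd_Ex s d D hd1 hdD (fun _ => 1)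
    (fun k v (y : κ → Bool) => (v + S (T + 1 - k) y) ^ 2)
  simp only [one_mul] at a1
  rw [a1]
  have hA : ∀ k v, 0 ≤ Ex (fun x => sdA s d k v x) := by
    intro k v
    refine Ex_nonneg fun x => ?_
    unfold sdA
    split_ifs
    · exact zero_le_one
    · exact le_rfl
    · exact le_rfl
  have hterm : ∀ k ∈ Icc 1 D, ∀ v ∈ univ.image s,
      Ex (fun x => sdA s d k v x) * (v ^ 2 + ρ * (((T + 1 : ℕ) : ℝ) - D) - ρ * k) ≤
        Ex (fun x => sdA s d k v x) * Ex (fun y => (v + S (T + 1 - k) y) ^ 2) := by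
    intro k hk v _
    rw [Finset.mem_Icc] at hk
    refine mul_le_mul_of_nonneg_left ?_ (hA k v)
    have h1 : ∀ y : κ → Bool, (v + S (T + 1 - k) y) ^ 2 =
        (v ^ 2 + (2 * v) * S (T + 1 - k) y) + S (T + 1 - k) y ^ 2 := fun y => by ring
    have hle : T + 1 - k ≤ T := by omega
    rw [Ex_congr h1, Ex_add, Ex_add, Ex_const, Ex_smul, sd_mean (hS _ hle), mul_zero, add_zero]
    have h2 := hi (T + 1 - k) hle
    have h3 : ((T + 1 - k : ℕ) : ℝ) = ((T + 1 : ℕ) : ℝ) - k := by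
      rw [Nat.cast_sub (by omega)]
    rw [h3] at h2
    linarith
  have h4 : ∑ k ∈ Icc 1 D, ∑ v ∈ univ.image s,
      Ex (fun x => sdA s d k v x) * (v ^ 2 + ρ * (((T + 1 : ℕ) : ℝ) - D) - ρ * k) ≤
      ∑ k ∈ Icc 1 D, ∑ v ∈ univ.image s,
        Ex (fun x => sdA s d k v x) * Ex (fun y => (v + S (T + 1 - k) y) ^ 2) :=
    Finset.sum_le_sum fun k hk => Finset.sum_le_sum fun v hv => hterm k hk v hv
  refine le_trans ?_ h4
  have h5 : ∑ k ∈ Icc 1 D, ∑ v ∈ univ.image s,
      Ex (fun x => sdA s d k v x) * (v ^ 2 + ρ * (((T + 1 : ℕ) : ℝ) - D) - ρ * k) =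
      Ex (fun x => s x ^ 2 + ρ * (((T + 1 : ℕ) : ℝ) - D) - ρ * d x) := by
    have h6 : ∀ x, s x ^ 2 + ρ * (((T + 1 : ℕ) : ℝ) - D) - ρ * d x =
        ∑ k ∈ Icc 1 D, ∑ v ∈ univ.image s,
          (v ^ 2 + ρ * (((T + 1 : ℕ) : ℝ) - D) - ρ * k) * sdA s d k v x := by
      intro x
      rw [sd_decomp s d D (fun k v => v ^ 2 + ρ * (((T + 1 : ℕ) : ℝ) - D) - ρ * k) x (hd1 x)
        (hdD x)]
      refine Finset.sum_congr rfl fun k _ => Finset.sum_congr rfl fun v _ => ?_
      rw [mul_comm]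
    rw [Ex_congr h6, Ex_sum]
    refine Finset.sum_congr rfl fun k _ => ?_
    rw [Ex_sum]
    refine Finset.sum_congr rfl fun v _ => ?_
    rw [Ex_smul, mul_comm]
  rw [h5, Ex_sub, Ex_add, Ex_const, Ex_smul]
  linarith

/-- R63-SD (file KG/SchD.lean): the prefix code. -/
theorem prefix_code {s : (ι → Bool) → ℝ} {d : (ι → Bool) → ℕ} (h : ASch s d) (D : ℕ)
    (hd1 : ∀ x, 1 ≤ d x) (hdD : ∀ x, d x ≤ D) (ρ : ℝ) (hρ : 0 ≤ ρ)
    (hI : ρ * Ex (fun x => (d x : ℝ)) ≤ Ex (fun x => s x ^ 2)) (T : ℕ) :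
    ∃ (κ : Type) (_ : Fintype κ) (_ : DecidableEq κ) (S : (κ → Bool) → ℝ),
      Sch T S ∧ ρ * ((T : ℝ) - D) ≤ Ex (fun x => S x ^ 2) := by
  have key : ∀ T : ℕ, ∃ (κ : Type) (_ : Fintype κ) (_ : DecidableEq κ)
      (S : ℕ → (κ → Bool) → ℝ), ∀ T' ≤ T, Sch T' (S T') ∧
        ρ * ((T' : ℝ) - D) ≤ Ex (fun x => S T' x ^ 2) := by
    intro T
    induction T with
    | zero =>
      refine ⟨Empty, inferInstance, inferInstance, fun _ _ => 0, fun T' hT' => ⟨sd_zero T', ?_⟩⟩
      have h0 : T' = 0 := by omega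
      subst h0
      have h1 : Ex (fun _ : Empty → Bool => (0 : ℝ) ^ 2) = 0 := by
        rw [Ex_const]; norm_num
      rw [h1]
      have h2 : (0 : ℝ) ≤ D := Nat.cast_nonneg D
      have h3 : 0 ≤ ρ * D := mul_nonneg hρ h2
      push_cast
      linarith
    | succ T ih =>
      obtain ⟨κ, fκ, dκ, S, hS⟩ := ih
      by_cases hT : D ≤ T + 1
      · refine ⟨ι ⊕ κ, inferInstance, inferInstance, fun T' =>
          if T' = T + 1 then (fun x => s (fun i => x (Sum.inl i)) +
            S (T + 1 - d (fun i => x (Sum.inl i))) (fun k => x (Sum.inr k)))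
          else (fun x => S T' (fun k => x (Sum.inr k))), fun T' hT' => ?_⟩
        by_cases hc : T' = T + 1
        · subst hc
          simp only [if_true]
          exact ⟨sd_step_sch h D hd1 hdD T hT S (fun T' h => (hS T' h).1),
            sd_step_info D hd1 hdD ρ hI T hT S (fun T' h => (hS T' h).1)
              (fun T' h => (hS T' h).2)⟩
        · simp only [if_neg hc]
          have hle : T' ≤ T := by omega
          refine ⟨sd_lift (hS T' hle).1, ?_⟩
          rw [sd_lift_sq]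
          exact (hS T' hle).2
      · refine ⟨κ, fκ, dκ, fun T' => if T' = T + 1 then (fun _ => 0) else S T', fun T' hT' => ?_⟩
        by_cases hc : T' = T + 1
        · subst hc
          simp only [if_true]
          refine ⟨sd_zero _, ?_⟩
          have h1 : Ex (fun _ : κ → Bool => (0 : ℝ) ^ 2) = 0 := by
            rw [Ex_const]; norm_num
          rw [h1]
          have h2 : (((T + 1 : ℕ) : ℝ)) ≤ D := by
            have : T + 1 ≤ D := by omega
            exact_mod_cast this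
          have h3 : 0 ≤ ρ * ((D : ℝ) - ((T + 1 : ℕ) : ℝ)) := mul_nonneg hρ (by linarith)
          linarith
        · simp only [if_neg hc]
          exact hS T' (by omega)
  obtain ⟨κ, fκ, dκ, S, hS⟩ := key T
  exact ⟨κ, fκ, dκ, S T, hS T le_rfl⟩

end Crest.Agent.KG
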