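import Crest.Agent.KG.JD

/-!
# Row 63 (S0085), module IV: schemes.
-/

set_option autoImplicit false
open scoped BigOperators
open Finset

namespace Crest.Agent.KG

/-- sign of a bit -/
def sg (b : Bool) : ℝ := if b then 1 else -1

/-- sum of the signs -/
def Tot {ι : Type} [Fintype ι] (x : ι → Bool) : ℝ := ∑ i, sg (x i)

/-- expectation over the uniform cube -/
noncomputable def Ex {ι : Type} [Fintype ι] [DecidableEq ι] (f : (ι → Bool) → ℝ) : ℝ :=
  (∑ x, f x) / 2 ^ Fintype.card ι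

/-- a scheme of degree at most `δ` with score function `s` (the classes are the level sets of `s`,
and `s` is the conditional expectation of the total on its level sets). -/
structure Sch {ι : Type} [Fintype ι] [DecidableEq ι] (δ : ℕ) (s : (ι → Bool) → ℝ) : Prop where
  deg : ∀ φ : ℝ → ℝ, (fun x => φ (s x)) ∈ (JD δ : Submodule ℝ ((∀ _ : ι, Bool) → ℝ))
  sc : ∀ φ : ℝ → ℝ, Ex (fun x : ι → Bool => Tot x * φ (s x)) = Ex (fun x => s x * φ (s x))

/-- a scheme with variable degree `d x` -/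
structure ASch {ι : Type} [Fintype ι] [DecidableEq ι] (s : (ι → Bool) → ℝ)
    (d : (ι → Bool) → ℕ) : Prop where
  deg : ∀ (k : ℕ) (φ : ℝ → ℝ), (fun x => if d x = k then φ (s x) else 0) ∈
    (JD k : Submodule ℝ ((∀ _ : ι, Bool) → ℝ))
  sc : ∀ (k : ℕ) (φ : ℝ → ℝ), Ex (fun x : ι → Bool => Tot x * (if d x = k then φ (s x) else 0)) =
    Ex (fun x => s x * (if d x = k then φ (s x) else 0))

/-- the `i`-th block of an input of the product cube -/
def blk {ν κ : Type} (i : ν) (x : ν × κ → Bool) : κ → Bool := fun k => x (i, k)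

lemma Tot_blk {ν κ : Type} [Fintype ν] [Fintype κ] (x : ν × κ → Bool) :
    Tot x = ∑ i, Tot (blk i x) := by
  simp only [Tot, blk, Fintype.sum_prod_type]

/-- a scheme with efficiency at least `r` exists -/
def Eff (r : ℝ) : Prop :=
  ∃ (κ : Type) (_ : Fintype κ) (_ : DecidableEq κ) (δ : ℕ) (s : (κ → Bool) → ℝ),
    1 ≤ δ ∧ Sch δ s ∧ r * δ ≤ Ex (fun x => s x ^ 2)

section Ex
variable {ι κ : Type} [Fintype ι] [DecidableEq ι] [Fintype κ] [DecidableEq κ]

lemma Ex_congr {f g : (ι → Bool) → ℝ} (h : ∀ x, f x = g x) : Ex f = Ex g := by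
  have : f = g := funext h
  rw [this]

lemma Ex_add (f g : (ι → Bool) → ℝ) : Ex (fun x => f x + g x) = Ex f + Ex g := by
  simp only [Ex, Finset.sum_add_distrib, add_div]

lemma Ex_sub (f g : (ι → Bool) → ℝ) : Ex (fun x => f x - g x) = Ex f - Ex g := by
  simp only [Ex, Finset.sum_sub_distrib, sub_div]

lemma Ex_smul (c : ℝ) (f : (ι → Bool) → ℝ) : Ex (fun x => c * f x) = c * Ex f := by
  simp only [Ex, ← Finset.mul_sum, mul_div_assoc]

lemma Ex_zero : Ex (fun _ : ι → Bool => (0 : ℝ)) = 0 := by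
  simp [Ex]

lemma Ex_one : Ex (fun _ : ι → Bool => (1 : ℝ)) = 1 := by
  simp [Ex]

lemma Ex_const (c : ℝ) : Ex (fun _ : ι → Bool => c) = c := by
  simp [Ex]

lemma Ex_sum {α : Type} (S : Finset α) (f : α → (ι → Bool) → ℝ) :
    Ex (fun x => ∑ a ∈ S, f a x) = ∑ a ∈ S, Ex (f a) := by
  simp only [Ex]
  rw [Finset.sum_comm, Finset.sum_div]

lemma Ex_nonneg {f : (ι → Bool) → ℝ} (h : ∀ x, 0 ≤ f x) : 0 ≤ Ex f :=
  div_nonneg (Finset.sum_nonneg fun x _ => h x) (by positivity)

lemma Ex_mono {f g : (ι → Bool) → ℝ} (h : ∀ x, f x ≤ g x) : Ex f ≤ Ex g :=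
  div_le_div_of_nonneg_right (Finset.sum_le_sum fun x _ => h x) (by positivity)

end Ex

end Crest.Agent.KG
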