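import Crest.Agent.KG.SchDefs
import Crest.Agent.KG.Defs
import Crest.Agent.KG.SchB
import Crest.Agent.KG.SchC

/-! Row 63, chunk SE: the scheme "star on `U`, full information off `U`". -/

set_option autoImplicit false
open scoped BigOperators
open Finset MeasureTheory Filter Topology

namespace Crest.Agent.KG

variable {ι κ ν : Type} [Fintype ι] [DecidableEq ι] [Fintype κ] [DecidableEq κ]
  [Fintype ν] [DecidableEq ν]

/-- R63-SE (file KG/SchE.lean): the scheme "star on U, full information off U". -/
theorem gadget_asch {D K t : ℕ} {S : (κ → Bool) → ℝ} (hS : Sch D S) (hD : 1 ≤ D)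
    (cell : ν → ℝ → Fin K) (U : (ν → Fin K) → Bool)
    (hJD : bR U ∈ (JD (Fintype.card ν - (t + 1)) : Submodule ℝ ((∀ _ : ν, Fin K) → ℝ)))
    (ht : t + 1 ≤ Fintype.card ν) (c : ℝ)
    (hc : c * Ex (fun x : ν × κ → Bool => bR U (fun i => cell i (S (blk i x)))) =
      Ex (fun x : ν × κ → Bool => (∑ i, S (blk i x)) * bR U (fun i => cell i (S (blk i x))))) :
    ASch (fun x : ν × κ → Bool => if U (fun i => cell i (S (blk i x))) = true then c
        else ∑ i, S (blk i x))
      (fun x => if U (fun i => cell i (S (blk i x))) = true then (Fintype.card ν - (t + 1)) * D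
        else Fintype.card ν * D) := by
  have hlt : (Fintype.card ν - (t + 1)) * D < Fintype.card ν * D :=
    Nat.mul_lt_mul_of_pos_right (by omega) (by omega)
  -- the three cases
  have e1 : ∀ (φ : ℝ → ℝ) (x : ν × κ → Bool),
      (if (if U (fun i => cell i (S (blk i x))) = true then (Fintype.card ν - (t + 1)) * D
        else Fintype.card ν * D) = (Fintype.card ν - (t + 1)) * D then
          φ (if U (fun i => cell i (S (blk i x))) = true then c else ∑ i, S (blk i x)) else 0) =
      φ c * bR U (fun i => cell i (S (blk i x))) := by
    intro φ x
    unfold bR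
    by_cases h : U (fun i => cell i (S (blk i x))) = true
    · simp [h]
    · simp [h, hlt.ne']
  have e2 : ∀ (φ : ℝ → ℝ) (x : ν × κ → Bool),
      (if (if U (fun i => cell i (S (blk i x))) = true then (Fintype.card ν - (t + 1)) * D
        else Fintype.card ν * D) = Fintype.card ν * D then
          φ (if U (fun i => cell i (S (blk i x))) = true then c else ∑ i, S (blk i x)) else 0) =
      (if U (fun i => cell i (S (blk i x))) = true then 0 else φ (∑ i, S (blk i x))) := by
    intro φ x
    by_cases h : U (fun i => cell i (S (blk i x))) = true
    · simp [h, hlt.ne]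
    · simp [h]
  have e3 : ∀ (φ : ℝ → ℝ) (k : ℕ), k ≠ (Fintype.card ν - (t + 1)) * D → k ≠ Fintype.card ν * D →
      ∀ x : ν × κ → Bool,
      (if (if U (fun i => cell i (S (blk i x))) = true then (Fintype.card ν - (t + 1)) * D
        else Fintype.card ν * D) = k then
          φ (if U (fun i => cell i (S (blk i x))) = true then c else ∑ i, S (blk i x)) else 0) =
      0 := by
    intro φ k h1 h2 x
    by_cases h : U (fun i => cell i (S (blk i x))) = true
    · simp [h, h1.symm]
    · simp [h, h2.symm]
  refine ⟨fun k φ => ?_, fun k φ => ?_⟩
  · by_cases h1 : k = (Fintype.card ν - (t + 1)) * D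
    · subst h1
      simp only [e1]
      exact Submodule.smul_mem _ (φ c) (word_mem_JD hS.deg cell (bR U) hJD)
    by_cases h2 : k = Fintype.card ν * D
    · subst h2
      simp only [e2]
      have h := blk_mem_JD (ν := ν) hS.deg Finset.univ
        (fun u => if U (fun i => cell i (u i)) = true then 0 else φ (∑ i, u i))
        (fun u v huv => by
          have : u = v := funext fun i => huv i (Finset.mem_univ i)
          rw [this])
      rw [Finset.card_univ] at h
      exact h
    · simp only [e3 φ k h1 h2]
      exact Submodule.zero_mem _
  · by_cases h1 : k = (Fintype.card ν - (t + 1)) * D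
    · subst h1
      simp only [e1]
      have h := full_sc (ν := ν) hS (fun u => φ c * bR U (fun i => cell i (u i)))
      rw [h]
      have h3 : Ex (fun x : ν × κ → Bool => (∑ i, S (blk i x)) *
          (φ c * bR U (fun i => cell i (S (blk i x))))) =
          φ c * Ex (fun x : ν × κ → Bool => (∑ i, S (blk i x)) *
            bR U (fun i => cell i (S (blk i x)))) := by
        rw [← Ex_smul]
        exact Ex_congr fun x => by ring
      have h4 : Ex (fun x : ν × κ → Bool => (if U (fun i => cell i (S (blk i x))) = true then c
          else ∑ i, S (blk i x)) * (φ c * bR U (fun i => cell i (S (blk i x))))) =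
          φ c * (c * Ex (fun x : ν × κ → Bool => bR U (fun i => cell i (S (blk i x))))) := by
        rw [← Ex_smul, ← Ex_smul]
        refine Ex_congr fun x => ?_
        unfold bR
        by_cases h : U (fun i => cell i (S (blk i x))) = true
        · simp [h]
          ring
        · simp [h]
      rw [h3, h4, hc]
    by_cases h2 : k = Fintype.card ν * D
    · subst h2
      simp only [e2]
      have h := full_sc (ν := ν) hS
        (fun u => if U (fun i => cell i (u i)) = true then 0 else φ (∑ i, u i))
      simp only at h
      rw [h]
      refine Ex_congr fun x => ?_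
      by_cases h : U (fun i => cell i (S (blk i x))) = true
      · simp [h]
      · simp [h]
    · simp only [e3 φ k h1 h2, mul_zero]

end Crest.Agent.KG
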