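import Crest.Agent.KG.SchDefs
import Crest.Agent.KG.Defs

/-! Row 63, module IV, chunk R63-SF: information of the gadget scheme. -/

set_option autoImplicit false
open scoped BigOperators
open Finset MeasureTheory Filter Topology

namespace Crest.Agent.KG

variable {ι κ ν : Type} [Fintype ι] [DecidableEq ι] [Fintype κ] [DecidableEq κ]
  [Fintype ν] [DecidableEq ν]

theorem sf_prod_blk (f : ν → (κ → Bool) → ℝ) :
    Ex (fun x : ν × κ → Bool => ∏ i, f i (blk i x)) = ∏ i, Ex (f i) := by
  unfold Ex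
  have h1 : ∑ x : ν × κ → Bool, ∏ i, f i (blk i x) =
      ∑ y : ν → (κ → Bool), ∏ i, f i (y i) := by
    rw [← (Equiv.curry ν κ Bool).sum_comp]
    rfl
  rw [h1, Finset.prod_div_distrib, Finset.prod_univ_sum, Fintype.piFinset_univ, Finset.prod_const,
    Finset.card_univ, Fintype.card_prod, ← pow_mul, mul_comm (Fintype.card ν)]

theorem sf_sq (S : (κ → Bool) → ℝ) (h0 : Ex S = 0) :
    Ex (fun x : ν × κ → Bool => (∑ i, S (blk i x)) ^ 2) = Fintype.card ν * Ex (fun y => S y ^ 2) := by
  have h1 : (fun x : ν × κ → Bool => (∑ i, S (blk i x)) ^ 2) =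
      fun x => ∑ i : ν, ∑ j : ν, S (blk i x) * S (blk j x) := by
    funext x
    rw [sq, Finset.sum_mul_sum]
  rw [h1, Ex_sum]
  have h2 : ∀ i : ν, Ex (fun x : ν × κ → Bool => ∑ j : ν, S (blk i x) * S (blk j x)) =
      Ex (fun y => S y ^ 2) := by
    intro i
    rw [Ex_sum, Finset.sum_eq_single i]
    · have e : (fun x : ν × κ → Bool => S (blk i x) * S (blk i x)) =
          fun x => ∏ k : ν, (fun (k : ν) (y : κ → Bool) => if k = i then S y ^ 2 else 1) k
            (blk k x) := by
        funext x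
        simp [sq]
      rw [e]
      refine (sf_prod_blk (fun (k : ν) (y : κ → Bool) => if k = i then S y ^ 2 else 1)).trans ?_
      rw [Finset.prod_eq_single i]
      · simp
      · intro k _ hk
        simp [hk, Ex_one]
      · intro h; exact absurd (Finset.mem_univ i) h
    · intro j _ hj
      have e : (fun x : ν × κ → Bool => S (blk i x) * S (blk j x)) =
          fun x => ∏ k : ν, (fun (k : ν) (y : κ → Bool) => if k = i ∨ k = j then S y else 1) k
            (blk k x) := by
        funext x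
        have h3 : ∀ k : ν, (if k = i ∨ k = j then S (blk k x) else 1) =
            if k ∈ ({i, j} : Finset ν) then S (blk k x) else 1 := by
          intro k; simp
        simp only [h3]
        rw [Finset.prod_ite_mem, Finset.univ_inter, Finset.prod_pair hj.symm]
      rw [e]
      refine (sf_prod_blk (fun (k : ν) (y : κ → Bool) => if k = i ∨ k = j then S y else 1)).trans ?_
      refine Finset.prod_eq_zero (Finset.mem_univ i) ?_
      simp only [true_or, if_true]
      exact h0
    · intro h; exact absurd (Finset.mem_univ i) h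
  have h3 : ∀ i : ν, Ex ((fun (a : ν) (x : ν × κ → Bool) => ∑ j : ν, S (blk a x) * S (blk j x)) i) =
      Ex (fun y => S y ^ 2) := h2
  simp only [h2]
  rw [Finset.sum_const, Finset.card_univ, nsmul_eq_mul]

/-- R63-SF (file KG/SchF.lean): information of that scheme. -/
theorem gadget_info {K : ℕ} (S : (κ → Bool) → ℝ) (h0 : Ex S = 0)
    (cell : ν → ℝ → Fin K) (U : (ν → Fin K) → Bool) (c c' : ℝ)
    (hc : c * Ex (fun x : ν × κ → Bool => bR U (fun i => cell i (S (blk i x)))) =
      Ex (fun x : ν × κ → Bool => (∑ i, S (blk i x)) * bR U (fun i => cell i (S (blk i x))))) :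
    Fintype.card ν * Ex (fun y => S y ^ 2)
      - Ex (fun x : ν × κ → Bool => (∑ i, S (blk i x) - c') ^ 2 *
          bR U (fun i => cell i (S (blk i x)))) ≤
    Ex (fun x : ν × κ → Bool => (if U (fun i => cell i (S (blk i x))) = true then c
        else ∑ i, S (blk i x)) ^ 2) := by
  rw [← sf_sq (ν := ν) S h0]
  set W : (ν × κ → Bool) → ℝ := fun x => bR U (fun i => cell i (S (blk i x))) with hW
  set Sg : (ν × κ → Bool) → ℝ := fun x => ∑ i, S (blk i x) with hSg
  have hc' : c * Ex W = Ex (fun x => Sg x * W x) := hc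
  have hW0 : 0 ≤ Ex W := Ex_nonneg (fun x => by
    simp only [hW, bR]; split_ifs <;> norm_num)
  have h1 : (fun x : ν × κ → Bool => (if U (fun i => cell i (S (blk i x))) = true then c
      else ∑ i, S (blk i x)) ^ 2) = fun x => (Sg x ^ 2 - Sg x ^ 2 * W x) + c ^ 2 * W x := by
    funext x
    simp only [hW, hSg, bR]
    split_ifs <;> ring
  have h2 : (fun x : ν × κ → Bool => (∑ i, S (blk i x) - c') ^ 2 *
      bR U (fun i => cell i (S (blk i x)))) =
      fun x => (Sg x ^ 2 * W x - (2 * c') * (Sg x * W x)) + c' ^ 2 * W x := by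
    funext x
    show (Sg x - c') ^ 2 * W x = _
    ring
  have e1 : Ex (fun x => (Sg x ^ 2 - Sg x ^ 2 * W x) + c ^ 2 * W x) =
      (Ex (fun x => Sg x ^ 2) - Ex (fun x => Sg x ^ 2 * W x)) + c ^ 2 * Ex W := by
    rw [Ex_add (fun x => Sg x ^ 2 - Sg x ^ 2 * W x) (fun x => c ^ 2 * W x),
      Ex_sub (fun x => Sg x ^ 2) (fun x => Sg x ^ 2 * W x), Ex_smul (c ^ 2) W]
  have e2 : Ex (fun x => (Sg x ^ 2 * W x - (2 * c') * (Sg x * W x)) + c' ^ 2 * W x) =
      (Ex (fun x => Sg x ^ 2 * W x) - (2 * c') * Ex (fun x => Sg x * W x)) + c' ^ 2 * Ex W := by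
    rw [Ex_add (fun x => Sg x ^ 2 * W x - (2 * c') * (Sg x * W x)) (fun x => c' ^ 2 * W x),
      Ex_sub (fun x => Sg x ^ 2 * W x) (fun x => (2 * c') * (Sg x * W x)),
      Ex_smul (2 * c') (fun x => Sg x * W x), Ex_smul (c' ^ 2) W]
  rw [h1, h2, e1, e2, ← hc']
  have h3 : 0 ≤ (c - c') ^ 2 * Ex W := mul_nonneg (sq_nonneg _) hW0
  nlinarith

end Crest.Agent.KG
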