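import Crest.Agent.KG.SchDefs
import Crest.Agent.KG.Defs

/-! Row 63, module IV, chunk R63-SG: product expansion of the gadget inequality. -/

set_option autoImplicit false
open scoped BigOperators
open Finset

namespace Crest.Agent.KG

variable {ι κ ν : Type} [Fintype ι] [DecidableEq ι] [Fintype κ] [DecidableEq κ]
  [Fintype ν] [DecidableEq ν]

private theorem sg_prod_blk (f : ν → (κ → Bool) → ℝ) :
    Ex (fun x : ν × κ → Bool => ∏ i, f i (blk i x)) = ∏ i, Ex (f i) := by
  unfold Ex
  rw [Finset.prod_div_distrib, Finset.prod_const, Finset.card_univ, Fintype.card_prod,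
    ← pow_mul, mul_comm (Fintype.card κ)]
  congr 1
  rw [Finset.prod_univ_sum, Fintype.piFinset_univ]
  exact (Equiv.curry ν κ Bool).sum_comp (fun y => ∏ i, f i (y i))

private theorem sg_one (I : ν → (κ → Bool) → ℝ) (G : (κ → Bool) → ℝ) (i : ν) :
    Ex (fun x : ν × κ → Bool => G (blk i x) * ∏ k, I k (blk k x)) =
      Ex (fun y => G y * I i y) * ∏ k ∈ univ.erase i, Ex (I k) := by
  have h := sg_prod_blk (ν := ν) (κ := κ) (fun k y => (if k = i then G y else 1) * I k y)
  have h1 : Ex (fun x : ν × κ → Bool => G (blk i x) * ∏ k, I k (blk k x)) =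
      Ex (fun x : ν × κ → Bool => ∏ k, (if k = i then G (blk k x) else 1) * I k (blk k x)) := by
    refine Ex_congr fun x => ?_
    rw [Finset.prod_mul_distrib, Finset.prod_ite_eq' univ i, if_pos (Finset.mem_univ _)]
  rw [h1, h, ← Finset.mul_prod_erase univ _ (Finset.mem_univ i)]
  congr 1
  · refine Ex_congr fun y => ?_
    rw [if_pos rfl]
  · refine Finset.prod_congr rfl fun k hk => Ex_congr fun y => ?_
    rw [if_neg (Finset.ne_of_mem_erase hk), one_mul]

private theorem sg_two (I : ν → (κ → Bool) → ℝ) (G : (κ → Bool) → ℝ) (i j : ν) (hij : j ≠ i) :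
    Ex (fun x : ν × κ → Bool => G (blk i x) * G (blk j x) * ∏ k, I k (blk k x)) =
      Ex (fun y => G y * I i y) * Ex (fun y => G y * I j y) *
        ∏ k ∈ (univ.erase i).erase j, Ex (I k) := by
  have h := sg_prod_blk (ν := ν) (κ := κ)
    (fun k y => ((if k = i then G y else 1) * (if k = j then G y else 1)) * I k y)
  have h1 : Ex (fun x : ν × κ → Bool => G (blk i x) * G (blk j x) * ∏ k, I k (blk k x)) =
      Ex (fun x : ν × κ → Bool => ∏ k, ((if k = i then G (blk k x) else 1) *
        (if k = j then G (blk k x) else 1)) * I k (blk k x)) := by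
    refine Ex_congr fun x => ?_
    rw [Finset.prod_mul_distrib, Finset.prod_mul_distrib, Finset.prod_ite_eq' univ i,
      Finset.prod_ite_eq' univ j, if_pos (Finset.mem_univ _), if_pos (Finset.mem_univ _)]
  rw [h1, h, ← Finset.mul_prod_erase univ _ (Finset.mem_univ i),
    ← Finset.mul_prod_erase (univ.erase i) _ (Finset.mem_erase.2 ⟨hij, Finset.mem_univ j⟩),
    ← mul_assoc]
  congr 1
  · congr 1
    · refine Ex_congr fun y => ?_
      rw [if_pos rfl, if_neg hij.symm, mul_one]
    · refine Ex_congr fun y => ?_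
      rw [if_neg hij, if_pos rfl, one_mul]
  · refine Finset.prod_congr rfl fun k hk => Ex_congr fun y => ?_
    rw [if_neg (Finset.ne_of_mem_erase (Finset.mem_of_mem_erase hk)),
      if_neg (Finset.ne_of_mem_erase hk), one_mul, one_mul]

private theorem sg_expand (S : ν → ℝ) (T c P : ℝ) :
    (T - (∑ i, S i - c) ^ 2) * P = (T - c ^ 2) * P + 2 * c * ∑ i, S i * P - ∑ i, S i ^ 2 * P
      - ∑ i, ∑ j ∈ univ.erase i, S i * S j * P := by
  have h1 : (∑ i, S i) ^ 2 = ∑ i, S i ^ 2 + ∑ i, ∑ j ∈ univ.erase i, S i * S j := by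
    rw [pow_two, Finset.sum_mul, ← Finset.sum_add_distrib]
    refine Finset.sum_congr rfl fun i _ => ?_
    rw [Finset.mul_sum, ← Finset.add_sum_erase univ _ (Finset.mem_univ i), pow_two]
  have h2 : ∑ i, ∑ j ∈ univ.erase i, S i * S j * P = (∑ i, ∑ j ∈ univ.erase i, S i * S j) * P := by
    rw [Finset.sum_mul]
    exact Finset.sum_congr rfl fun i _ => (Finset.sum_mul _ _ _).symm
  rw [h2, ← Finset.sum_mul, ← Finset.sum_mul]
  have h3 : (T - (∑ i, S i - c) ^ 2) = T - c ^ 2 + 2 * c * (∑ i, S i) - (∑ i, S i) ^ 2 := by ring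
  rw [h3, h1]
  ring

/-- R63-SG (file KG/SchG.lean): product expansion of the gadget inequality. -/
theorem gterm_eq {K : ℕ} (X : (κ → Bool) → ℝ)
    (cell : ν → ℝ → Fin K) (U : (ν → Fin K) → Bool) (T c : ℝ) :
    Ex (fun x : ν × κ → Bool => (T - (∑ i, X (blk i x) - c) ^ 2) *
        bR U (fun i => cell i (X (blk i x)))) =
    ∑ w : ν → Fin K, if U w then
      gterm (fun i a => Ex (fun y => if cell i (X y) = a then 1 else 0))
        (fun i a => Ex (fun y => if cell i (X y) = a then X y else 0))
        (fun i a => Ex (fun y => if cell i (X y) = a then X y ^ 2 else 0)) T c w else 0 := by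
  have h1 : Ex (fun x : ν × κ → Bool => (T - (∑ i, X (blk i x) - c) ^ 2) *
        bR U (fun i => cell i (X (blk i x)))) =
      Ex (fun x : ν × κ → Bool => ∑ w : ν → Fin K, if U w then
        (T - (∑ i, X (blk i x) - c) ^ 2) *
          ∏ i, (if cell i (X (blk i x)) = w i then (1 : ℝ) else 0) else 0) := by
    refine Ex_congr fun x => ?_
    rw [Finset.sum_eq_single (fun i => cell i (X (blk i x)))]
    · unfold bR
      by_cases hU : U (fun i => cell i (X (blk i x))) = true
      · rw [if_pos hU, if_pos hU]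
        simp
      · rw [if_neg hU, if_neg hU, mul_zero]
    · intro w _ hw
      have hex : ∃ i, ¬ cell i (X (blk i x)) = w i := by
        by_contra hn
        push Not at hn
        exact hw (funext fun i => (hn i).symm)
      obtain ⟨i, hi⟩ := hex
      rw [Finset.prod_eq_zero (Finset.mem_univ i) (if_neg hi), mul_zero, ite_self]
    · intro h
      exact absurd (Finset.mem_univ _) h
  rw [h1, Ex_sum]
  refine Finset.sum_congr rfl fun w _ => ?_
  by_cases hU : U w = true
  · simp only [if_pos hU]
    have h2 : ∀ x : ν × κ → Bool, (T - (∑ i, X (blk i x) - c) ^ 2) *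
          ∏ i, (if cell i (X (blk i x)) = w i then (1 : ℝ) else 0) =
        (T - c ^ 2) * (∏ i, (if cell i (X (blk i x)) = w i then (1 : ℝ) else 0)) +
        2 * c * (∑ i, X (blk i x) * ∏ i, (if cell i (X (blk i x)) = w i then (1 : ℝ) else 0)) -
        (∑ i, X (blk i x) ^ 2 * ∏ i, (if cell i (X (blk i x)) = w i then (1 : ℝ) else 0)) -
        ∑ i, ∑ j ∈ univ.erase i, X (blk i x) * X (blk j x) *
          ∏ i, (if cell i (X (blk i x)) = w i then (1 : ℝ) else 0) := by
      intro x
      exact sg_expand (fun i => X (blk i x)) T c _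
    rw [Ex_congr h2, Ex_sub, Ex_sub, Ex_add, Ex_smul, Ex_smul, Ex_sum, Ex_sum, Ex_sum]
    unfold gterm
    have e0 : Ex (fun x : ν × κ → Bool =>
        ∏ i, (if cell i (X (blk i x)) = w i then (1 : ℝ) else 0)) =
        ∏ i, Ex (fun y => if cell i (X y) = w i then (1 : ℝ) else 0) :=
      sg_prod_blk (fun i y => if cell i (X y) = w i then (1 : ℝ) else 0)
    have e1 : ∀ (G : ℝ → ℝ) (i : ν), Ex (fun x : ν × κ → Bool => G (X (blk i x)) *
        ∏ i, (if cell i (X (blk i x)) = w i then (1 : ℝ) else 0)) =
        Ex (fun y => if cell i (X y) = w i then G (X y) else 0) *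
          ∏ j ∈ univ.erase i, Ex (fun y => if cell j (X y) = w j then (1 : ℝ) else 0) := by
      intro G i
      have h := sg_one (ν := ν) (κ := κ) (fun i y => if cell i (X y) = w i then (1 : ℝ) else 0)
        (fun y => G (X y)) i
      refine h.trans ?_
      congr 1
      refine Ex_congr fun y => ?_
      rw [mul_ite, mul_one, mul_zero]
    have e2 : ∀ (i j : ν), j ≠ i → Ex (fun x : ν × κ → Bool => X (blk i x) * X (blk j x) *
        ∏ i, (if cell i (X (blk i x)) = w i then (1 : ℝ) else 0)) =
        Ex (fun y => if cell i (X y) = w i then X y else 0) *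
        Ex (fun y => if cell j (X y) = w j then X y else 0) *
          ∏ k ∈ (univ.erase i).erase j, Ex (fun y => if cell k (X y) = w k then (1 : ℝ) else 0) := by
      intro i j hij
      have h := sg_two (ν := ν) (κ := κ) (fun i y => if cell i (X y) = w i then (1 : ℝ) else 0)
        X i j hij
      refine h.trans ?_
      congr 1
      congr 1
      · refine Ex_congr fun y => ?_
        rw [mul_ite, mul_one, mul_zero]
      · refine Ex_congr fun y => ?_
        rw [mul_ite, mul_one, mul_zero]
    rw [e0]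
    congr 1
    · congr 1
      · congr 2
        exact Finset.sum_congr rfl fun i _ => e1 (fun t => t) i
      · exact Finset.sum_congr rfl fun i _ => e1 (fun t => t ^ 2) i
    · refine Finset.sum_congr rfl fun i _ => ?_
      rw [Ex_sum]
      exact Finset.sum_congr rfl fun j hj => e2 i j (Finset.ne_of_mem_erase hj)
  · simp only [if_neg hU]
    exact Ex_zero

end Crest.Agent.KG
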