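import Crest.Agent.KG.SchDefs
import Crest.Agent.KG.Defs

/-! Row 63, module IV, chunk R63-SH: continuity of `gterm`. -/

set_option autoImplicit false
open scoped BigOperators
open Finset MeasureTheory Filter Topology

namespace Crest.Agent.KG

variable {ι κ ν : Type} [Fintype ι] [DecidableEq ι] [Fintype κ] [DecidableEq κ]
  [Fintype ν] [DecidableEq ν]

/-- R63-SH (file KG/SchH.lean): the limit of the gadget inequality (continuity of gterm). -/
theorem gterm_tendsto {K : ℕ} (p e1 e2 : ι → Fin K → ℝ) (pB e1B e2B : ℕ → ι → Fin K → ℝ)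
    (h0 : ∀ i a, Tendsto (fun B => pB B i a) atTop (𝓝 (p i a)))
    (h1 : ∀ i a, Tendsto (fun B => e1B B i a) atTop (𝓝 (e1 i a)))
    (h2 : ∀ i a, Tendsto (fun B => e2B B i a) atTop (𝓝 (e2 i a)))
    (U : (ι → Fin K) → Bool) (T c : ℝ) :
    Tendsto (fun B => ∑ w : ι → Fin K, if U w then gterm (pB B) (e1B B) (e2B B) T c w else 0)
      atTop (𝓝 (∑ w : ι → Fin K, if U w then gterm p e1 e2 T c w else 0)) := by
  refine tendsto_finsetSum _ fun w _ => ?_
  cases hU : U w with
  | false => simp
  | true =>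
    simp only [if_true]
    unfold gterm
    refine Tendsto.sub (Tendsto.sub (Tendsto.add ?_ ?_) ?_) ?_
    · exact (tendsto_finsetProd _ fun i _ => h0 i (w i)).const_mul _
    · refine Tendsto.const_mul _ (tendsto_finsetSum _ fun i _ => ?_)
      exact (h1 i (w i)).mul (tendsto_finsetProd _ fun j _ => h0 j (w j))
    · refine tendsto_finsetSum _ fun i _ => ?_
      exact (h2 i (w i)).mul (tendsto_finsetProd _ fun j _ => h0 j (w j))
    · refine tendsto_finsetSum _ fun i _ => tendsto_finsetSum _ fun j _ => ?_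
      exact ((h1 i (w i)).mul (h1 j (w j))).mul (tendsto_finsetProd _ fun k _ => h0 k (w k))

end Crest.Agent.KG
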