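import Crest.Agent.KG.SchDefs

/-! Row 63, R63-SI: transport to `Fin n` and Fourier coefficients. -/

set_option autoImplicit false
open scoped BigOperators
open Finset MeasureTheory Filter Topology

namespace Crest.Agent.KG

variable {ι κ ν : Type} [Fintype ι] [DecidableEq ι] [Fintype κ] [DecidableEq κ]
  [Fintype ν] [DecidableEq ν]

theorem SchI_sg_not (b : Bool) : sg (!b) = - sg b := by
  cases b <;> simp [sg]

theorem SchI_Ex_Tot : Ex (fun x : ι → Bool => Tot x) = 0 := by
  unfold Ex
  have h : ∑ x : ι → Bool, Tot x = - ∑ x : ι → Bool, Tot x := by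
    rw [← Finset.sum_neg_distrib]
    refine Fintype.sum_equiv (Equiv.arrowCongr (Equiv.refl ι) Equiv.boolNot) _ _ fun x => ?_
    simp only [Tot]
    rw [← Finset.sum_neg_distrib]
    refine Finset.sum_congr rfl fun i _ => ?_
    show sg (x i) = - sg (!(x i))
    rw [SchI_sg_not, neg_neg]
  have h0 : ∑ x : ι → Bool, Tot x = 0 := by linarith
  rw [h0, zero_div]

theorem SchI_fourier_zero {d : ℕ} {g : (ι → Bool) → ℝ}
    (hg : g ∈ (JD d : Submodule ℝ ((∀ _ : ι, Bool) → ℝ))) (S : Finset ι) (hS : d < S.card) :
    ∑ x : ι → Bool, g x * ∏ i ∈ S, sg (x i) = 0 := by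
  unfold JD at hg
  induction hg using Submodule.span_induction with
  | mem g hg =>
    obtain ⟨T, hT, hgT⟩ := hg
    obtain ⟨i, hiS, hiT⟩ : ∃ i ∈ S, i ∉ T := by
      by_contra hc
      push Not at hc
      have := Finset.card_le_card (show S ⊆ T from fun i hi => hc i hi)
      omega
    refine Finset.sum_involution (fun x _ => Function.update x i (!(x i))) ?_ ?_ ?_ ?_
    · intro x _
      have h1 : g (Function.update x i (!(x i))) = g x := by
        refine hgT _ _ fun j hj => ?_
        have : j ≠ i := by rintro rfl; exact hiT hj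
        simp [this]
      have h2 : ∏ j ∈ S, sg (Function.update x i (!(x i)) j) = - ∏ j ∈ S, sg (x j) := by
        rw [← Finset.mul_prod_erase S _ hiS, ← Finset.mul_prod_erase S (fun j => sg (x j)) hiS]
        rw [Function.update_self, SchI_sg_not]
        have : ∏ j ∈ S.erase i, sg (Function.update x i (!(x i)) j) =
            ∏ j ∈ S.erase i, sg (x j) := by
          refine Finset.prod_congr rfl fun j hj => ?_
          have : j ≠ i := Finset.ne_of_mem_erase hj
          simp [this]
        rw [this]
        ring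
      rw [h1, h2]
      ring
    · intro x _ _ hx
      have := congrFun hx i
      simp at this
    · intro x _; exact Finset.mem_univ _
    · intro x _
      funext j
      by_cases hj : j = i
      · subst hj; simp
      · simp [hj]
  | zero => simp
  | add f₁ f₂ _ _ h1 h2 =>
    simp only [Pi.add_apply, add_mul, Finset.sum_add_distrib, h1, h2, add_zero]
  | smul a f _ h =>
    simp only [Pi.smul_apply, smul_eq_mul, mul_assoc, ← Finset.mul_sum, h, mul_zero]

/-- R63-SI (file KG/SchI.lean): transport to `Fin n` and Fourier coefficients. -/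
theorem final_transport (C : ℝ) (hC : 0 < C) (f : (ι → Bool) → Bool) (d : ℕ)
    (hf : (fun x => sg (f x)) ∈ (JD d : Submodule ℝ ((∀ _ : ι, Bool) → ℝ)))
    (hL : C * Real.sqrt d < Ex (fun x => Tot x * sg (f x))) :
    ∃ n : ℕ, ∃ f : (Fin n → Bool) → Bool, ∃ d : ℕ,
      (∃ x y, f x ≠ f y) ∧
      (∀ S : Finset (Fin n), d < S.card →
        ∑ x : Fin n → Bool, ((if f x then (1 : ℝ) else -1) * ∏ i ∈ S, (if x i then (1 : ℝ) else -1)) = 0) ∧
      C * Real.sqrt d <
        ∑ i : Fin n, (∑ x : Fin n → Bool, ((if f x then (1 : ℝ) else -1) * (if x i then (1 : ℝ) else -1))) / 2 ^ n := by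
  classical
  let e := Fintype.equivFin ι
  refine ⟨Fintype.card ι, fun y => f (fun i => y (e i)), d, ?_, ?_, ?_⟩
  · by_contra hc
    push Not at hc
    have hconst : ∀ x : ι → Bool, sg (f x) = sg (f fun _ => true) := by
      intro x
      have := hc (fun j => x (e.symm j)) (fun _ => true)
      simp only [Equiv.symm_apply_apply] at this
      rw [this]
    have h1 : Ex (fun x : ι → Bool => Tot x * sg (f x)) = 0 := by
      have h2 : Ex (fun x : ι → Bool => Tot x * sg (f x)) =
          Ex (fun x : ι → Bool => sg (f fun _ => true) * Tot x) :=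
        Ex_congr fun x => by rw [hconst x, mul_comm]
      rw [h2, Ex_smul, SchI_Ex_Tot, mul_zero]
    have h3 : 0 ≤ C * Real.sqrt d := mul_nonneg hC.le (Real.sqrt_nonneg _)
    linarith
  · intro S hS
    have hg := comp_mem_JD (ι := Fin (Fintype.card ι)) (A := fun _ => Bool) (B := fun _ : ι => Bool)
      e (fun _ b => b) hf
    exact SchI_fourier_zero hg S hS
  · have h1 : ∑ i : Fin (Fintype.card ι), (∑ x : Fin (Fintype.card ι) → Bool,
        ((if f (fun j => x (e j)) then (1 : ℝ) else -1) * (if x i then (1 : ℝ) else -1))) / 2 ^ Fintype.card ι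
        = Ex (fun x => Tot x * sg (f x)) := by
      rw [← Finset.sum_div, Finset.sum_comm]
      unfold Ex
      congr 1
      refine (Fintype.sum_equiv (Equiv.arrowCongr e (Equiv.refl Bool)) _ _ fun x => ?_).symm
      simp only [Equiv.arrowCongr_apply, Equiv.coe_refl, Function.comp_apply, id_eq,
        Equiv.symm_apply_apply]
      rw [← Finset.mul_sum, mul_comm]
      congr 1
      unfold Tot sg
      exact (Fintype.sum_equiv e _ _ fun i => by simp)
    rw [h1]
    exact hL

end Crest.Agent.KG
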