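import Crest.Agent.KG.SchDefs

/-! Row 63, R63-SK: the expectation over `Fin B` blocks as in `clt_transfer`. -/

set_option autoImplicit false
open scoped BigOperators
open Finset MeasureTheory Filter Topology

namespace Crest.Agent.KG

variable {ι κ ν : Type} [Fintype ι] [DecidableEq ι] [Fintype κ] [DecidableEq κ]
  [Fintype ν] [DecidableEq ν]

/-- R63-SK (file KG/SchK.lean): the expectation over `Fin B` blocks as in `clt_transfer`. -/
theorem Ex_blocks_eq (B : ℕ) (s : (κ → Bool) → ℝ) (h : ℝ → ℝ) :
    Ex (fun x : Fin B × κ → Bool => h (∑ j, s (blk j x))) =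
      (∑ ω : Fin B → (κ → Bool), h (∑ j, s (ω j))) / (Fintype.card (κ → Bool) : ℝ) ^ B := by
  unfold Ex
  congr 1
  · exact Fintype.sum_equiv (Equiv.curry (Fin B) κ Bool) _ _ fun x => rfl
  · rw [Fintype.card_prod, Fintype.card_fun, Fintype.card_bool, Fintype.card_fin]
    push_cast
    rw [← pow_mul, mul_comm]

end Crest.Agent.KG
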