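import Crest.Agent.KG.SchDefs
import Crest.Agent.KG.Defs

/-! Row 63, module IV, chunk R63-SL: base scheme and positivity of the half normal mean. -/

set_option autoImplicit false
open scoped BigOperators
open Finset MeasureTheory Filter Topology

namespace Crest.Agent.KG

/-- R63-SL (file KG/SchL.lean): base scheme and positivity of the half normal mean. -/
theorem Eff_one : Eff 1 := by
  refine ⟨Unit, inferInstance, inferInstance, 1, fun x => sg (x ()), le_refl 1, ⟨?_, ?_⟩, ?_⟩
  · intro φ
    exact mem_JD_card (by simp) _
  · intro φ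
    have h : ∀ x : Unit → Bool, Tot x = sg (x ()) := fun x => by simp [Tot]
    simp only [h]
  · have h : ∀ x : Unit → Bool, sg (x ()) ^ 2 = 1 := fun x => by
      unfold sg; split_ifs <;> norm_num
    simp only [h, Ex_one]
    norm_num

theorem half_mean_pos : 0 < ∫ x in Set.Ici (0 : ℝ), x ^ 1 ∂γ := by
  have hint : Integrable (fun x : ℝ => x ^ 1) γ := by
    simp only [pow_one]
    exact (ProbabilityTheory.memLp_id_gaussianReal 1).integrable (le_refl _)
  rw [setIntegral_pos_iff_support_of_nonneg_ae]
  · have hsub : Set.Ioi (0 : ℝ) ⊆ (Function.support fun x : ℝ => x ^ 1) ∩ Set.Ici 0 := by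
      intro x hx
      have hx' : 0 < x := hx
      refine ⟨?_, hx'.le⟩
      simp only [Function.mem_support, pow_one]
      exact hx'.ne'
    refine lt_of_lt_of_le ?_ (measure_mono hsub)
    have hac : (volume : Measure ℝ) ≪ ProbabilityTheory.gaussianReal 0 1 :=
      ProbabilityTheory.gaussianReal_absolutelyContinuous' 0 one_ne_zero
    rw [pos_iff_ne_zero]
    intro h0
    have h1 := hac h0
    rw [Real.volume_Ioi] at h1
    exact ENNReal.top_ne_zero h1
  · refine (ae_restrict_iff' measurableSet_Ici).2 (Filter.Eventually.of_forall ?_)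
    intro x hx
    simpa using hx
  · exact hint.integrableOn

theorem frontier_Ici_null : γ (frontier (Set.Ici (0 : ℝ))) = 0 := by
  rw [frontier_Ici]
  have : NullSingletonClass (ProbabilityTheory.gaussianReal 0 1 : Measure ℝ) :=
    ProbabilityTheory.nullSingletonClass_gaussianReal one_ne_zero
  exact measure_singleton (μ := ProbabilityTheory.gaussianReal 0 1) 0

end Crest.Agent.KG
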