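import Crest.Agent.KG.SchA
import Crest.Agent.KG.SchB
import Crest.Agent.KG.SchC
import Crest.Agent.KG.SchK
import Crest.Agent.KG.IfaceIII

/-! Row 63, module IV: assembly. -/

set_option autoImplicit false
open scoped BigOperators
open Finset MeasureTheory Filter Topology

namespace Crest.Agent.KG

variable {κ : Type} [Fintype κ] [DecidableEq κ]

lemma Sch.mean {δ : ℕ} {s : (κ → Bool) → ℝ} (h : Sch δ s) : Ex s = 0 := by
  have := h.sc (fun _ => 1)
  simp only [mul_one] at this
  rw [← this]
  exact Ex_Tot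

/-- the sum of the scores of `B` blocks -/
lemma Sch.block {δ : ℕ} {s : (κ → Bool) → ℝ} (h : Sch δ s) (B : ℕ) :
    Sch (B * δ) (fun x : Fin B × κ → Bool => ∑ j, s (blk j x)) := by
  constructor
  · intro φ
    have := blk_mem_JD (ν := Fin B) h.deg Finset.univ (fun u => φ (∑ j, u j)) (by
      intro u v huv
      have : u = v := funext fun i => huv i (Finset.mem_univ i)
      rw [this])
    simpa using this
  · intro φ
    exact full_sc (ν := Fin B) h (fun u => φ (∑ j, u j))

lemma Ex_block_sq (s : (κ → Bool) → ℝ) (h0 : Ex s = 0) (B : ℕ) :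
    Ex (fun x : Fin B × κ → Bool => (∑ j, s (blk j x)) ^ 2) = B * Ex (fun x => s x ^ 2) := by
  have h1 : ∀ i j : Fin B, Ex (fun x : Fin B × κ → Bool => s (blk i x) * s (blk j x)) =
      if i = j then Ex (fun x => s x ^ 2) else 0 := by
    intro i j
    by_cases hij : i = j
    · subst hij
      rw [if_pos rfl]
      have := Ex_prod_blk (ν := Fin B) (κ := κ) (fun k y => if k = i then s y ^ 2 else 1)
      rw [Finset.prod_eq_single i (by intro k _ hk; simp [hk, Ex_one]) (by simp)] at this
      simp only [if_true] at this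
      rw [← this]
      refine Ex_congr fun x => ?_
      rw [Finset.prod_eq_single i (by intro k _ hk; simp [hk]) (by simp)]
      simp [sq]
    · rw [if_neg hij]
      have := Ex_prod_blk (ν := Fin B) (κ := κ) (fun k y => if k = i then s y else if k = j then s y else 1)
      have h2 : ∏ k : Fin B, Ex (fun y => if k = i then s y else if k = j then s y else 1) = 0 := by
        refine Finset.prod_eq_zero (Finset.mem_univ i) ?_
        simpa using h0
      rw [h2] at this
      rw [← this]
      refine Ex_congr fun x => ?_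
      rw [← Finset.mul_prod_erase Finset.univ _ (Finset.mem_univ i)]
      rw [← Finset.mul_prod_erase (Finset.univ.erase i) _ (Finset.mem_erase.2 ⟨Ne.symm hij, Finset.mem_univ j⟩)]
      rw [Finset.prod_eq_one]
      · simp [Ne.symm hij]
      · intro k hk
        simp only [Finset.mem_erase, Finset.mem_univ, and_true] at hk
        simp [hk.1, hk.2]
  calc Ex (fun x : Fin B × κ → Bool => (∑ j, s (blk j x)) ^ 2)
      = Ex (fun x : Fin B × κ → Bool => ∑ i, ∑ j, s (blk i x) * s (blk j x)) := by
        refine Ex_congr fun x => ?_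
        rw [sq, Finset.sum_mul_sum]
    _ = ∑ i : Fin B, ∑ j : Fin B, Ex (fun x : Fin B × κ → Bool => s (blk i x) * s (blk j x)) := by
        rw [Ex_sum]
        refine Finset.sum_congr rfl fun i _ => ?_
        rw [Ex_sum]
    _ = B * Ex (fun x => s x ^ 2) := by
        simp [h1]

/-- the CLT for blocks, in terms of `Ex` -/
lemma block_tendsto (s : (κ → Bool) → ℝ) (h0 : Ex s = 0) (hI : 0 < Ex (fun x => s x ^ 2))
    (A : Set ℝ) (hA : MeasurableSet A) (hfr : γ (frontier A) = 0) (k : ℕ) (hk : k ≤ 2) :
    Tendsto (fun B : ℕ => Ex (fun x : Fin B × κ → Bool =>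
        Set.indicator A (fun u : ℝ => u ^ k)
          ((∑ j, s (blk j x)) / Real.sqrt (B * Ex (fun x => s x ^ 2))))) atTop
      (𝓝 (∫ x in A, x ^ k ∂γ)) := by
  have hc : (0 : ℝ) < 2 ^ Fintype.card κ := by positivity
  have h1 : ∑ x, s x = 0 := by
    have := h0
    unfold Ex at this
    rcases div_eq_zero_iff.1 this with h | h
    · exact h
    · exact absurd h hc.ne'
  have hcard : (Fintype.card (κ → Bool) : ℝ) = 2 ^ Fintype.card κ := by simp
  have h2 : ∑ x, s x ^ 2 = Ex (fun x => s x ^ 2) * Fintype.card (κ → Bool) := by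
    rw [hcard]
    unfold Ex
    field_simp
  have := clt_transfer s h1 (Ex (fun x => s x ^ 2)) hI h2 A hA hfr k hk
  refine this.congr fun B => ?_
  rw [Ex_blocks_eq B s (fun v => Set.indicator A (fun u : ℝ => u ^ k)
    (v / Real.sqrt (B * Ex (fun x => s x ^ 2))))]

theorem Eff.mono {r r' : ℝ} (h : r' ≤ r) (hr : Eff r) : Eff r' := by
  obtain ⟨κ, _, _, δ, s, h1, h2, h3⟩ := hr
  exact ⟨κ, _, _, δ, s, h1, h2, (mul_le_mul_of_nonneg_right h (Nat.cast_nonneg _)).trans h3⟩

end Crest.Agent.KG
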