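import Crest.Agent.KG.SchM
import Crest.Agent.KG.SchD
import Crest.Agent.KG.SchE
import Crest.Agent.KG.SchF
import Crest.Agent.KG.SchG
import Crest.Agent.KG.SchH
import Crest.Agent.KG.SchL

/-! Row 63, module IV: the amplification step. -/

set_option autoImplicit false
open scoped BigOperators
open Finset MeasureTheory Filter Topology

namespace Crest.Agent.KG

section
variable {κ : Type} [Fintype κ] [DecidableEq κ]

lemma bR_nonneg {Ω : Type} (F : Ω → Bool) (z : Ω) : 0 ≤ bR F z := by
  unfold bR; split_ifs <;> norm_num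

lemma bR_le_one {Ω : Type} (F : Ω → Bool) (z : Ω) : bR F z ≤ 1 := by
  unfold bR; split_ifs <;> norm_num

/-- the value of the gadget for the block score `X` -/
noncomputable def gval (G : Gadget) (X : (κ → Bool) → ℝ) : ℝ :=
  letI := G.fι
  letI := G.dι
  Ex (fun x : G.ι × κ → Bool => ((G.t : ℝ) + 1 - (∑ i, X (blk i x) - G.c) ^ 2) *
        bR G.U (fun i => G.cell i (X (blk i x))))

/-- the limiting value -/
noncomputable def glim (G : Gadget) : ℝ :=
  letI := G.fι
  letI := G.dι
  ∑ w : G.ι → Fin G.K, if G.U w then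
      gterm (fun i a => (γ {x | G.cell i x = a}).toReal)
        (fun i a => ∫ x in {x | G.cell i x = a}, x ∂γ)
        (fun i a => ∫ x in {x | G.cell i x = a}, x ^ 2 ∂γ) ((G.t : ℝ) + 1) G.c w else 0

lemma glim_pos (G : Gadget) : 0 < glim G := G.ineq

/-- normalised block score -/
noncomputable def nbs (s : (κ → Bool) → ℝ) (B : ℕ) : (Fin B × κ → Bool) → ℝ :=
  fun x => (∑ j, s (blk j x)) / Real.sqrt (B * Ex (fun x => s x ^ 2))

lemma gval_tendsto (G : Gadget) (s : (κ → Bool) → ℝ) (h0 : Ex s = 0)
    (hI : 0 < Ex (fun x => s x ^ 2)) :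
    Tendsto (fun B => gval G (nbs s B)) atTop (𝓝 (glim G)) := by
  letI := G.fι
  letI := G.dι
  have e : ∀ B, gval G (nbs s B) = ∑ w : G.ι → Fin G.K, if G.U w then
      gterm (fun i a => Ex (fun y => if G.cell i (nbs s B y) = a then 1 else 0))
        (fun i a => Ex (fun y => if G.cell i (nbs s B y) = a then nbs s B y else 0))
        (fun i a => Ex (fun y => if G.cell i (nbs s B y) = a then nbs s B y ^ 2 else 0))
        ((G.t : ℝ) + 1) G.c w else 0 := by
    intro B
    exact gterm_eq (ν := G.ι) (nbs s B) G.cell G.U _ _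
  simp_rw [e]
  unfold glim
  refine gterm_tendsto _ _ _ (fun B i a => Ex (fun y => if G.cell i (nbs s B y) = a then 1 else 0))
    (fun B i a => Ex (fun y => if G.cell i (nbs s B y) = a then nbs s B y else 0))
    (fun B i a => Ex (fun y => if G.cell i (nbs s B y) = a then nbs s B y ^ 2 else 0))
    ?_ ?_ ?_ G.U _ _
  · intro i a
    have := block_tendsto s h0 hI {x | G.cell i x = a} (G.hmeas i a) (G.hfr i a) 0 (by norm_num)
    have e2 : ∫ x in {x | G.cell i x = a}, x ^ 0 ∂γ = (γ {x | G.cell i x = a}).toReal := by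
      simp [Measure.real]
    rw [e2] at this
    refine this.congr fun B => Ex_congr fun x => ?_
    by_cases hx : G.cell i (nbs s B x) = a
    · rw [if_pos hx, Set.indicator_of_mem (by exact hx)]; simp
    · rw [if_neg hx, Set.indicator_of_notMem (by exact hx)]
  · intro i a
    have := block_tendsto s h0 hI {x | G.cell i x = a} (G.hmeas i a) (G.hfr i a) 1 (by norm_num)
    simp only [pow_one] at this
    refine this.congr fun B => Ex_congr fun x => ?_
    by_cases hx : G.cell i (nbs s B x) = a
    · rw [if_pos hx, Set.indicator_of_mem (by exact hx)]; rfl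
    · rw [if_neg hx, Set.indicator_of_notMem (by exact hx)]
  · intro i a
    have := block_tendsto s h0 hI {x | G.cell i x = a} (G.hmeas i a) (G.hfr i a) 2 (by norm_num)
    refine this.congr fun B => Ex_congr fun x => ?_
    by_cases hx : G.cell i (nbs s B x) = a
    · rw [if_pos hx, Set.indicator_of_mem (by exact hx)]; rfl
    · rw [if_neg hx, Set.indicator_of_notMem (by exact hx)]

end

/-- the amplification factor -/
noncomputable def theta (G : Gadget) : ℝ :=
  letI := G.fι
  1 + glim G / (4 * Fintype.card G.ι)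

/-- one amplification step, average degree version -/
theorem step_avg (G : Gadget) (hG : letI := G.fι; G.t + 1 < Fintype.card G.ι) (r : ℝ) (hr : 0 < r)
    (h : Eff r) :
    ∃ (ι : Type) (_ : Fintype ι) (_ : DecidableEq ι) (s : (ι → Bool) → ℝ) (d : (ι → Bool) → ℕ)
      (D : ℕ), ASch s d ∧ (∀ x, 1 ≤ d x) ∧ (∀ x, d x ≤ D) ∧
        (r * (1 + glim G / (2 * (letI := G.fι; (Fintype.card G.ι : ℝ))))) * Ex (fun x => (d x : ℝ))
          ≤ Ex (fun x => s x ^ 2) := by
  letI := G.fι
  letI := G.dι
  obtain ⟨κ, _, _, δ, s, hδ, hS, hI⟩ := h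
  have hI0 : 0 < Ex (fun x => s x ^ 2) := by
    have : (1 : ℝ) ≤ δ := by exact_mod_cast hδ
    have : 0 < r * δ := by positivity
    linarith
  have h0 := hS.mean
  have hlim := gval_tendsto G s h0 hI0
  have hg := glim_pos G
  obtain ⟨B, hB1, hB⟩ : ∃ B : ℕ, 1 ≤ B ∧ glim G / 2 < gval G (nbs s B) := by
    have := (hlim.eventually (lt_mem_nhds (show glim G / 2 < glim G by linarith))).and
      (eventually_ge_atTop 1)
    obtain ⟨B, h1, h2⟩ := this.exists
    exact ⟨B, h2, h1⟩
  set I := Ex (fun x => s x ^ 2) with hIdef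
  set n := Fintype.card G.ι with hn
  set σ := Real.sqrt (B * I) with hσ
  have hBI : 0 < (B : ℝ) * I := by
    have : (1 : ℝ) ≤ B := by exact_mod_cast hB1
    positivity
  have hσ0 : 0 < σ := Real.sqrt_pos.2 hBI
  have hσ2 : σ ^ 2 = B * I := Real.sq_sqrt hBI.le
  -- block scheme
  have hSB := hS.block B
  set S : (Fin B × κ → Bool) → ℝ := fun x => ∑ j, s (blk j x) with hSdef
  have hX : ∀ y, nbs s B y = S y / σ := fun y => rfl
  set cell' : G.ι → ℝ → Fin G.K := fun i v => G.cell i (v / σ) with hcell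
  set P := Ex (fun x : G.ι × (Fin B × κ) → Bool => bR G.U (fun i => cell' i (S (blk i x)))) with hP
  have hgv : gval G (nbs s B) = Ex (fun x : G.ι × (Fin B × κ) → Bool =>
      ((G.t : ℝ) + 1 - (∑ i, S (blk i x) / σ - G.c) ^ 2) *
        bR G.U (fun i => cell' i (S (blk i x)))) := rfl
  have hP1 : P ≤ 1 := by
    have : Ex (fun x : G.ι × (Fin B × κ) → Bool => bR G.U (fun i => cell' i (S (blk i x)))) ≤
      Ex (fun x : G.ι × (Fin B × κ) → Bool => (1 : ℝ)) := Ex_mono fun x => bR_le_one _ _
    rwa [Ex_one] at this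
  have hT0 : (0 : ℝ) < (G.t : ℝ) + 1 := by positivity
  have hP0 : 0 < P := by
    have h1 : gval G (nbs s B) ≤ ((G.t : ℝ) + 1) * P := by
      rw [hgv, hP, ← Ex_smul]
      refine Ex_mono fun x => ?_
      refine mul_le_mul_of_nonneg_right ?_ (bR_nonneg _ _)
      nlinarith [sq_nonneg (∑ i, S (blk i x) / σ - G.c)]
    by_contra hcon
    push Not at hcon
    nlinarith
  set c : ℝ := Ex (fun x : G.ι × (Fin B × κ) → Bool => (∑ i, S (blk i x)) *
    bR G.U (fun i => cell' i (S (blk i x)))) / P with hc
  have hcP : c * Ex (fun x : G.ι × (Fin B × κ) → Bool => bR G.U (fun i => cell' i (S (blk i x)))) =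
      Ex (fun x : G.ι × (Fin B × κ) → Bool => (∑ i, S (blk i x)) *
        bR G.U (fun i => cell' i (S (blk i x)))) := by
    rw [← hP, hc]
    field_simp
  have hD : 1 ≤ B * δ := Nat.mul_pos hB1 hδ
  have hAS := gadget_asch (ν := G.ι) (t := G.t) hSB hD cell' G.U G.hJD hG.le c hcP
  have hinfo := gadget_info (ν := G.ι) S hSB.mean cell' G.U c (G.c * σ) hcP
  refine ⟨G.ι × (Fin B × κ), inferInstance, inferInstance, _, _, n * (B * δ), hAS, ?_, ?_, ?_⟩
  · intro x
    split_ifs
    · exact Nat.mul_pos (by omega) hD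
    · exact Nat.mul_pos (by omega) hD
  · intro x
    split_ifs
    · exact Nat.mul_le_mul_right _ (by omega)
    · exact le_rfl
  · refine le_trans ?_ hinfo
    have hES : Ex (fun y => S y ^ 2) = B * I := Ex_block_sq s h0 B
    rw [hES]
    -- degree
    have hdeg : Ex (fun x : G.ι × (Fin B × κ) → Bool =>
        ((if G.U (fun i => cell' i (S (blk i x))) = true then (n - (G.t + 1)) * (B * δ)
          else n * (B * δ) : ℕ) : ℝ)) = (B * δ) * (n - ((G.t : ℝ) + 1) * P) := by
      have : ∀ x : G.ι × (Fin B × κ) → Bool,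
          ((if G.U (fun i => cell' i (S (blk i x))) = true then (n - (G.t + 1)) * (B * δ)
          else n * (B * δ) : ℕ) : ℝ) = (B * δ) * n - ((B * δ) * ((G.t : ℝ) + 1)) *
            bR G.U (fun i => cell' i (S (blk i x))) := by
        intro x
        unfold bR
        split_ifs
        · rw [Nat.cast_mul, Nat.cast_sub hG.le]; push_cast; ring
        · push_cast; ring
      rw [Ex_congr this, Ex_sub, Ex_const, Ex_smul, ← hP]
      ring
    rw [hdeg]
    -- variance
    have hvar : Ex (fun x : G.ι × (Fin B × κ) → Bool => (∑ i, S (blk i x) - G.c * σ) ^ 2 *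
          bR G.U (fun i => cell' i (S (blk i x)))) =
        (B * I) * (((G.t : ℝ) + 1) * P - gval G (nbs s B)) := by
      rw [hgv, hP, ← Ex_smul ((G.t : ℝ) + 1), ← Ex_sub, ← Ex_smul ((B : ℝ) * I)]
      refine Ex_congr fun x => ?_
      rw [← Finset.sum_div, ← hσ2]
      field_simp
      ring
    rw [hvar]
    have hnpos : (0 : ℝ) < n := by
      have : 0 < n := by omega
      exact_mod_cast this
    have hq : 0 ≤ (n : ℝ) - ((G.t : ℝ) + 1) * P := by
      have h1 : ((G.t : ℝ) + 1) ≤ n := by exact_mod_cast hG.le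
      nlinarith
    have hkey : r * δ * ((1 + glim G / (2 * n)) * (n - ((G.t : ℝ) + 1) * P)) ≤
        I * ((n : ℝ) - ((G.t : ℝ) + 1) * P + gval G (nbs s B)) := by
      have h1 : (1 + glim G / (2 * n)) * (n - ((G.t : ℝ) + 1) * P) ≤
          (n : ℝ) - ((G.t : ℝ) + 1) * P + gval G (nbs s B) := by
        have : glim G / (2 * n) * (n - ((G.t : ℝ) + 1) * P) ≤ glim G / 2 := by
          have h3 : glim G / (2 * n) * (n - ((G.t : ℝ) + 1) * P) ≤ glim G / (2 * n) * n := by
            refine mul_le_mul_of_nonneg_left ?_ (by positivity)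
            have : 0 ≤ ((G.t : ℝ) + 1) * P := by positivity
            linarith
          have h4 : glim G / (2 * n) * n = glim G / 2 := by field_simp
          linarith
        nlinarith
      have h2 : 0 ≤ (1 + glim G / (2 * n)) * (n - ((G.t : ℝ) + 1) * P) := by positivity
      calc _ ≤ I * ((1 + glim G / (2 * n)) * (n - ((G.t : ℝ) + 1) * P)) :=
            mul_le_mul_of_nonneg_right hI h2
        _ ≤ _ := mul_le_mul_of_nonneg_left h1 hI0.le
    have hBpos : (0 : ℝ) < B := by exact_mod_cast hB1
    have := mul_le_mul_of_nonneg_left hkey hBpos.le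
    nlinarith [this]

/-- one amplification step -/
theorem Eff_step (G : Gadget) (hG : letI := G.fι; G.t + 1 < Fintype.card G.ι) (r : ℝ) (hr : 0 < r)
    (h : Eff r) : Eff (theta G * r) := by
  letI := G.fι
  letI := G.dι
  obtain ⟨ι, _, _, s, d, D, hA, h1, h2, h3⟩ := step_avg G hG r hr h
  have hg := glim_pos G
  have hn : (0 : ℝ) < Fintype.card G.ι := by
    have : 0 < Fintype.card G.ι := by omega
    exact_mod_cast this
  set q := glim G / (4 * Fintype.card G.ι) with hq
  have hq0 : 0 < q := by positivity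
  have hq2 : glim G / (2 * Fintype.card G.ι) = 2 * q := by
    rw [hq]; field_simp; ring
  rw [hq2] at h3
  obtain ⟨T, hT⟩ := exists_nat_gt ((1 + 2 * q) * D / q + 1)
  have hT1 : 1 ≤ T := by
    have h4 : 0 ≤ (1 + 2 * q) * D / q := by positivity
    have : (0 : ℝ) < T := by linarith
    have : 0 < T := by exact_mod_cast this
    omega
  obtain ⟨κ, _, _, S, hS, hSI⟩ := prefix_code hA D h1 h2 (r * (1 + 2 * q)) (by positivity) h3 T
  refine ⟨κ, inferInstance, inferInstance, T, S, hT1, hS, le_trans ?_ hSI⟩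
  have h5 : (1 + 2 * q) * D ≤ q * T := by
    have : (1 + 2 * q) * D / q ≤ T := by linarith
    rwa [div_le_iff₀ hq0, mul_comm (T : ℝ)] at this
  have h6 : theta G = 1 + q := rfl
  rw [h6]
  nlinarith

theorem Eff_all (G : Gadget) (hG : letI := G.fι; G.t + 1 < Fintype.card G.ι) (r : ℝ) : Eff r := by
  have hth : 1 < theta G := by
    letI := G.fι
    have hg := glim_pos G
    have hn : (0 : ℝ) < Fintype.card G.ι := by
      have : 0 < Fintype.card G.ι := by omega
      exact_mod_cast this
    have : 0 < glim G / (4 * Fintype.card G.ι) := by positivity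
    show 1 < 1 + glim G / (4 * Fintype.card G.ι)
    linarith
  have hk : ∀ k : ℕ, Eff (theta G ^ k) := by
    intro k
    induction k with
    | zero => simpa using Eff_one
    | succ k ih =>
      rw [pow_succ, mul_comm]
      exact Eff_step G hG _ (by positivity) ih
  obtain ⟨k, hk2⟩ := pow_unbounded_of_one_lt r hth
  exact (hk k).mono hk2.le

end Crest.Agent.KG
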