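import Crest.Agent.KG.SchN
import Crest.Agent.KG.SchI

/-! Row 63, module IV: the final Boolean function. -/

set_option autoImplicit false
open scoped BigOperators
open Finset MeasureTheory Filter Topology

namespace Crest.Agent.KG

theorem s0085_of_Eff (hE : ∀ r : ℝ, Eff r) (C : ℝ) (hC : 0 < C) :
    ∃ n : ℕ, ∃ f : (Fin n → Bool) → Bool, ∃ d : ℕ,
      (∃ x y, f x ≠ f y) ∧
      (∀ S : Finset (Fin n), d < S.card →
        ∑ x : Fin n → Bool, ((if f x then (1 : ℝ) else -1) * ∏ i ∈ S, (if x i then (1 : ℝ) else -1)) = 0) ∧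
      C * Real.sqrt d <
        ∑ i : Fin n, (∑ x : Fin n → Bool, ((if f x then (1 : ℝ) else -1) * (if x i then (1 : ℝ) else -1))) / 2 ^ n := by

  set h := ∫ x in Set.Ici (0 : ℝ), x ^ 1 ∂γ with hh
  have hpos : 0 < h := half_mean_pos
  obtain ⟨κ, _, _, δ, s, hδ, hS, hI⟩ := hE ((C / h + 1) ^ 2)
  have hCh : 0 < C / h + 1 := by positivity
  have hδ' : (1 : ℝ) ≤ δ := by exact_mod_cast hδ
  have hI0 : 0 < Ex (fun x => s x ^ 2) := by
    have : 0 < (C / h + 1) ^ 2 * (δ : ℝ) := by positivity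
    linarith
  set I := Ex (fun x => s x ^ 2) with hIdef
  have h0 := hS.mean
  have hlim := block_tendsto s h0 hI0 (Set.Ici 0) measurableSet_Ici frontier_Ici_null 1 (by norm_num)
  obtain ⟨B, hB1, hB⟩ : ∃ B : ℕ, 1 ≤ B ∧ h / 2 < Ex (fun x : Fin B × κ → Bool =>
        Set.indicator (Set.Ici 0) (fun u : ℝ => u ^ 1)
          ((∑ j, s (blk j x)) / Real.sqrt (B * I))) := by
    have := (hlim.eventually (lt_mem_nhds (show h / 2 < h by linarith))).and
      (eventually_ge_atTop 1)
    obtain ⟨B, h1, h2⟩ := this.exists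
    exact ⟨B, h2, h1⟩
  have hBpos : (0 : ℝ) < B := by exact_mod_cast hB1
  set σ := Real.sqrt (B * I) with hσ
  have hσ0 : 0 < σ := Real.sqrt_pos.2 (by positivity)
  have hSB := hS.block B
  set S : (Fin B × κ → Bool) → ℝ := fun x => ∑ j, s (blk j x) with hSdef
  let f : (Fin B × κ → Bool) → Bool := fun x => decide (0 ≤ S x)
  have hsg : ∀ x, sg (f x) = (fun v : ℝ => if 0 ≤ v then (1 : ℝ) else -1) (S x) := by
    intro x
    simp only [sg, f, decide_eq_true_eq]
  refine final_transport C hC f (B * δ) ?_ ?_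
  · have := hSB.deg (fun v : ℝ => if 0 ≤ v then (1 : ℝ) else -1)
    have e : (fun x => sg (f x)) = fun x => (fun v : ℝ => if 0 ≤ v then (1 : ℝ) else -1) (S x) :=
      funext hsg
    rw [e]
    exact this
  · have h1 : Ex (fun x => Tot x * sg (f x)) =
        2 * σ * Ex (fun x : Fin B × κ → Bool =>
        Set.indicator (Set.Ici 0) (fun u : ℝ => u ^ 1) (S x / σ)) := by
      have e1 : Ex (fun x => Tot x * sg (f x)) =
          Ex (fun x => Tot x * (fun v : ℝ => if 0 ≤ v then (1 : ℝ) else -1) (S x)) :=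
        Ex_congr fun x => by rw [hsg]
      have e3 := hSB.sc (fun v : ℝ => if 0 ≤ v then (1 : ℝ) else -1)
      refine (e1.trans e3).trans ?_
      have e2 : Ex (fun x : Fin B × κ → Bool => S x * (fun v : ℝ => if 0 ≤ v then (1 : ℝ) else -1) (S x)) =
          Ex (fun x : Fin B × κ → Bool => (2 * σ) * (Set.indicator (Set.Ici 0) (fun u : ℝ => u ^ 1) (S x / σ)) - S x) := by
        refine Ex_congr fun x => ?_
        by_cases hx : 0 ≤ S x
        · rw [Set.indicator_of_mem (show S x / σ ∈ Set.Ici 0 from by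
            simp only [Set.mem_Ici]; positivity)]
          simp only [if_pos hx]
          field_simp
          ring
        · rw [Set.indicator_of_notMem (show S x / σ ∉ Set.Ici 0 from by
            simp only [Set.mem_Ici, not_le]
            exact div_neg_of_neg_of_pos (not_le.1 hx) hσ0)]
          simp only [if_neg hx]
          ring
      refine e2.trans ?_
      rw [Ex_sub, Ex_smul, hSB.mean, sub_zero]
    rw [h1]
    have h2 : C * Real.sqrt ((B * δ : ℕ) : ℝ) < h * σ := by
      have h3 : (C / h) * Real.sqrt ((B * δ : ℕ) : ℝ) < σ := by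
        rw [hσ]
        apply Real.lt_sqrt_of_sq_lt
        rw [mul_pow, Real.sq_sqrt (Nat.cast_nonneg _)]
        push_cast
        have h4 : (C / h) ^ 2 < (C / h + 1) ^ 2 := by
          have : 0 < C / h := by positivity
          nlinarith
        calc (C / h) ^ 2 * (B * δ) < (C / h + 1) ^ 2 * (B * δ) :=
              mul_lt_mul_of_pos_right h4 (by positivity)
          _ = B * ((C / h + 1) ^ 2 * δ) := by ring
          _ ≤ B * I := mul_le_mul_of_nonneg_left hI hBpos.le
      calc C * Real.sqrt ((B * δ : ℕ) : ℝ) = h * ((C / h) * Real.sqrt ((B * δ : ℕ) : ℝ)) := by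
            field_simp
        _ < h * σ := mul_lt_mul_of_pos_left h3 hpos
    nlinarith

/-- OUTPUT OF MODULE IV. -/
theorem s0085_of_gadget (G : Gadget) (hG : letI := G.fι; G.t + 1 < Fintype.card G.ι)
    (C : ℝ) (hC : 0 < C) :
    ∃ n : ℕ, ∃ f : (Fin n → Bool) → Bool, ∃ d : ℕ,
      (∃ x y, f x ≠ f y) ∧
      (∀ S : Finset (Fin n), d < S.card →
        ∑ x : Fin n → Bool, ((if f x then (1 : ℝ) else -1) * ∏ i ∈ S, (if x i then (1 : ℝ) else -1)) = 0) ∧
      C * Real.sqrt d <
        ∑ i : Fin n, (∑ x : Fin n → Bool, ((if f x then (1 : ℝ) else -1) * (if x i then (1 : ℝ) else -1))) / 2 ^ n :=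
  s0085_of_Eff (Eff_all G hG) C hC

end Crest.Agent.KG
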